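import Vale.Agent.P225.Sched.Chi

/-!
P225 Sched: the shape of the schedule, its landmarks, and the Ricci inequalities.
-/

namespace Vale.Agent.P225.Sched

open scoped Topology ContDiff
open Real Filter

noncomputable section

theorem sum_getD {α : Type*} (f : α → ℝ) (d : α) (l : List α) :
    ∑ k ∈ Finset.range l.length, f (l.getD k d) = (l.map f).sum := by
  induction l with
  | nil => simp
  | cons a l ih =>
    rw [List.length_cons, Finset.sum_range_succ', List.map_cons, List.sum_cons, ← ih, add_comm]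
    simp

namespace Step

theorem one_le_dur (s : Step) {n : ℝ} (hn : 1 ≤ n) : 1 ≤ s.dur n := by
  have h6 : (1 : ℝ) ≤ n ^ 6 := one_le_pow₀ hn
  have h3 : (1 : ℝ) ≤ n ^ 3 := one_le_pow₀ hn
  cases s with
  | round c => simp only [dur]; nlinarith [le_max_right c 0]
  | gap c => simp only [dur]; nlinarith [le_max_right c 0]
  | cross z c => simp only [dur]; nlinarith [le_max_right c 0]
  | micro a z c => simp only [dur]; nlinarith [le_max_right c 0]
  | slot => simp [dur]
  | stay => simp only [dur]; exact one_le_pow₀ hn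

theorem dur_le (s : Step) {n : ℝ} (hn : 1 ≤ n) : s.dur n ≤ s.durCoef * n ^ 7 := by
  have h6 : n ^ 6 ≤ n ^ 7 := pow_le_pow_right₀ hn (by norm_num)
  have h3 : n ^ 3 ≤ n ^ 7 := pow_le_pow_right₀ hn (by norm_num)
  have h1 : n ≤ n ^ 7 := le_self_pow₀ hn (by norm_num)
  have h0 : (1 : ℝ) ≤ n ^ 7 := one_le_pow₀ hn
  cases s with
  | round c => simp only [dur, durCoef]; nlinarith [le_max_right c 0]
  | gap c => simp only [dur, durCoef]; nlinarith [le_max_right c 0]
  | cross z c => simp only [dur, durCoef]; nlinarith [le_max_right c 0]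
  | micro a z c => simp only [dur, durCoef]; nlinarith [le_max_right c 0]
  | slot => simpa [dur, durCoef] using h0
  | stay => simp [dur, durCoef]

theorem one_le_width (s : Step) {n : ℝ} (hn : 1 ≤ n) : 1 ≤ s.width n := by
  cases s <;> simp [width, one_le_pow₀ hn]

theorem abs_amp_div_width_le (s : Step) {n : ℝ} (hn : 1 ≤ n) :
    |s.amp n| / s.width n ≤ |s.level| / n ^ 6 := by
  cases s with
  | cross z c => simp [amp, width, level]
  | micro a z c =>
    simp only [amp, width, level]
    rw [abs_div, abs_of_nonneg (by positivity : (0 : ℝ) ≤ n ^ 3), div_div, ← pow_add]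
  | round c => simp [amp, level]
  | gap c => simp [amp, level]
  | slot => simp [amp, level]
  | stay => simp [amp, level]

theorem abs_amp_le (s : Step) {n : ℝ} (hn : 1 ≤ n) : |s.amp n| ≤ |s.level| := by
  cases s with
  | micro a z c =>
    simp only [amp, level]
    rw [abs_div, abs_of_nonneg (by positivity : (0 : ℝ) ≤ n ^ 3)]
    exact div_le_self (abs_nonneg z) (one_le_pow₀ hn)
  | cross z c => simp [amp, level]
  | round c => simp [amp, level]
  | gap c => simp [amp, level]
  | slot => simp [amp, level]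
  | stay => simp [amp, level]

end Step

namespace Params

variable (p : Params)

theorem len_pos : 0 < p.len := by simp [len, list]

theorem N0_le_size (m : ℕ) : (p.N0 : ℝ) ≤ p.size m := by
  unfold size
  exact_mod_cast Nat.le_add_left p.N0 _

theorem size_ge_one (m : ℕ) : 1 ≤ p.size m := p.one_le_N0.trans (p.N0_le_size m)

theorem step_mem (m : ℕ) : p.step m ∈ p.list := by
  have h : m % p.len < p.list.length := Nat.mod_lt _ p.len_pos
  rw [step, List.getD_eq_getElem _ _ h]
  exact List.getElem_mem h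

theorem one_le_dur (m : ℕ) : 1 ≤ p.dur m := (p.step m).one_le_dur (p.size_ge_one m)

theorem time_succ (m : ℕ) : p.time (m + 1) = p.time m + p.dur m := rfl

theorem time_strictMono : StrictMono p.time :=
  strictMono_nat_of_lt_succ fun m => by linarith [p.time_succ m, p.one_le_dur m]

theorem time_ge (m : ℕ) : (p.N0 : ℝ) + m ≤ p.time m := by
  induction m with
  | zero => simp [time]
  | succ m ih => push_cast; linarith [p.time_succ m, p.one_le_dur m]

theorem N0_le_time (m : ℕ) : (p.N0 : ℝ) ≤ p.time m := by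
  have := p.time_ge m
  have : (0 : ℝ) ≤ m := Nat.cast_nonneg m
  linarith

theorem one_le_width (m : ℕ) : 1 ≤ (p.step m).width (p.size m) :=
  (p.step m).one_le_width (p.size_ge_one m)

theorem exists_index {t : ℝ} (ht : (p.N0 : ℝ) ≤ t) :
    ∃ m, p.time m ≤ t ∧ t < p.time (m + 1) := by
  have hex : ∃ m, t < p.time m := by
    obtain ⟨m, hm⟩ := exists_nat_gt t
    exact ⟨m, lt_of_lt_of_le hm (le_trans (by linarith [p.one_le_N0]) (p.time_ge m))⟩
  classical
  have hspec := Nat.find_spec hex
  rcases Nat.eq_zero_or_pos (Nat.find hex) with h0 | h0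
  · rw [h0] at hspec; simp only [time] at hspec; linarith
  · refine ⟨Nat.find hex - 1, not_lt.1 (Nat.find_min hex (Nat.sub_lt h0 one_pos)), ?_⟩
    rwa [Nat.sub_add_cancel (show 1 ≤ Nat.find hex from h0)]

theorem contDiff_piece (m : ℕ) : ContDiff ℝ ∞ (p.piece m) :=
  contDiff_const.mul (contDiff_bump _ _ _)

theorem piece_eq_zero_left {m : ℕ} {s : ℝ} (hs : s ≤ p.time m + 1 / 2) : p.piece m s = 0 := by
  have hw := p.one_le_width m
  unfold piece
  rw [bump_eq_zero_left _ _ _ (by linarith) (by linarith), mul_zero]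

theorem piece_eq_zero_right {m : ℕ} {s : ℝ} (hs : p.time (m + 1) - 1 / 2 ≤ s) :
    p.piece m s = 0 := by
  have hw := p.one_le_width m
  rw [p.time_succ] at hs
  unfold piece
  rw [bump_eq_zero_right _ _ _ (by linarith) (by linarith), mul_zero]

/-- Near a step only that step's squash lives. -/
theorem comp_eq_piece {m : ℕ} {s : ℝ} (h1 : p.time m - 1 / 2 ≤ s)
    (h2 : s ≤ p.time (m + 1) + 1 / 2) (o : Option (Fin 6)) :
    p.comp o s = if (p.step m).axis = o then p.piece m s else 0 := by
  refine tsum_eq_single m fun b hb => ?_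
  rcases lt_or_gt_of_ne hb with hlt | hlt
  · have : p.time (b + 1) ≤ p.time m := p.time_strictMono.monotone hlt
    simp [p.piece_eq_zero_right (m := b) (s := s) (by linarith)]
  · have : p.time (m + 1) ≤ p.time b := p.time_strictMono.monotone hlt
    simp [p.piece_eq_zero_left (m := b) (s := s) (by linarith)]

theorem comp_eq_zero_early {s : ℝ} (hs : s ≤ p.N0 + 1 / 2) (o : Option (Fin 6)) :
    p.comp o s = 0 := by
  have : ∀ b, (if (p.step b).axis = o then p.piece b s else 0) = 0 := fun b => by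
    simp [p.piece_eq_zero_left (m := b) (s := s) (by linarith [p.N0_le_time b])]
  simp [comp, this]

theorem comp_eventually {m : ℕ} {t : ℝ} (h1 : p.time m ≤ t) (h2 : t ≤ p.time (m + 1))
    (o : Option (Fin 6)) :
    p.comp o =ᶠ[𝓝 t] if (p.step m).axis = o then p.piece m else fun _ => 0 := by
  filter_upwards [Ioo_mem_nhds (show p.time m - 1 / 2 < t by linarith)
    (show t < p.time (m + 1) + 1 / 2 by linarith)] with s hs
  rw [p.comp_eq_piece hs.1.le hs.2.le o]
  split_ifs <;> rfl

/-- A squash is locally zero or locally one piece. -/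
theorem comp_cases (o : Option (Fin 6)) (t : ℝ) :
    p.comp o =ᶠ[𝓝 t] (fun _ => 0) ∨
      ∃ m, p.time m ≤ t ∧ t < p.time (m + 1) ∧ (p.step m).axis = o ∧
        p.comp o =ᶠ[𝓝 t] p.piece m := by
  rcases lt_or_ge t p.N0 with ht | ht
  · left
    filter_upwards [Iio_mem_nhds ht] with s hs
    exact p.comp_eq_zero_early (by linarith [Set.mem_Iio.1 hs]) o
  · obtain ⟨m, h1, h2⟩ := p.exists_index ht
    have h := p.comp_eventually h1 h2.le o
    by_cases ha : (p.step m).axis = o
    · rw [if_pos ha] at h; exact Or.inr ⟨m, h1, h2, ha, h⟩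
    · rw [if_neg ha] at h; exact Or.inl h

/-- Near every time at most one squash is nonzero. -/
theorem comp_single (t : ℝ) :
    ∃ o, ∀ᶠ s in 𝓝 t, ∀ o', o' ≠ o → p.comp o' s = 0 := by
  rcases lt_or_ge t p.N0 with ht | ht
  · refine ⟨none, ?_⟩
    filter_upwards [Iio_mem_nhds ht] with s hs o' _
    exact p.comp_eq_zero_early (by linarith [Set.mem_Iio.1 hs]) o'
  · obtain ⟨m, h1, h2⟩ := p.exists_index ht
    refine ⟨(p.step m).axis, ?_⟩
    filter_upwards [Ioo_mem_nhds (show p.time m - 1 / 2 < t by linarith)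
      (show t < p.time (m + 1) + 1 / 2 by linarith)] with s hs o' ho
    rw [p.comp_eq_piece hs.1.le hs.2.le o', if_neg (Ne.symm ho)]

theorem contDiff_comp (o : Option (Fin 6)) : ContDiff ℝ ∞ (p.comp o) := by
  refine contDiff_iff_contDiffAt.2 fun t => ?_
  rcases p.comp_cases o t with h | ⟨m, -, -, -, h⟩
  · exact contDiffAt_const.congr_of_eventuallyEq h
  · exact (p.contDiff_piece m).contDiffAt.congr_of_eventuallyEq h

theorem comp_unique {t : ℝ} {o o' : Option (Fin 6)} (h : o ≠ o') (hne : p.comp o t ≠ 0) :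
    p.comp o' t = 0 := by
  obtain ⟨o₀, ho⟩ := p.comp_single t
  have h0 := ho.self_of_nhds
  have : o = o₀ := by_contra fun hh => hne (h0 o hh)
  exact h0 o' (this ▸ h.symm)

/-- The shape of the schedule. -/
def shape : Shape where
  χ := p.chi
  β := p.comp none
  γ a := p.comp (some a)
  smooth_χ := p.contDiff_chi
  smooth_β := p.contDiff_comp none
  smooth_γ a := p.contDiff_comp (some a)
  start t ht :=
    have he : t ≤ (p.N0 : ℝ) + 1 / 2 := by linarith [p.one_le_N0]
    ⟨p.chi_of_nonpos ht, p.comp_eq_zero_early he none, fun a => p.comp_eq_zero_early he (some a)⟩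
  single_β t a h := p.comp_unique (by simp) h
  single_γ t a b hab h := p.comp_unique (by simpa using hab) h

theorem shape_drift (t : ℝ) : p.shape.drift t = -3 * p.rate t := by
  simp [Shape.drift, shape, p.deriv_chi]

/-- On the middle of a step the squash is at its level. -/
theorem comp_plateau {m : ℕ} {t : ℝ}
    (h1 : p.time m + (p.step m).width (p.size m) ≤ t)
    (h2 : t ≤ p.time (m + 1) - (p.step m).width (p.size m)) :
    p.comp (p.step m).axis t = (p.step m).amp (p.size m) := by
  have hw := p.one_le_width m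
  rw [p.comp_eq_piece (m := m) (by linarith) (by linarith), if_pos rfl]
  unfold piece
  rw [bump_eq_one _ _ _ (by linarith) h1 (by rw [← p.time_succ]; exact h2), mul_one]

/-- Steps without a squash are round. -/
theorem comp_of_round {m : ℕ} {t : ℝ} (h1 : p.time m ≤ t) (h2 : t ≤ p.time (m + 1))
    (h0 : (p.step m).amp (p.size m) = 0) (o : Option (Fin 6)) :
    p.comp o =ᶠ[𝓝 t] fun _ => 0 := by
  refine (p.comp_eventually h1 h2 o).trans ?_
  split_ifs
  · exact Eventually.of_forall fun s => by simp [piece, h0]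
  · exact Eventually.of_forall fun s => rfl

theorem abs_level_le (m : ℕ) : |(p.step m).level| ≤ p.levelSum := by
  have := List.single_le_sum (l := p.list.map fun s => |s.level|)
    (fun x hx => by obtain ⟨s, _, rfl⟩ := List.mem_map.1 hx; exact abs_nonneg _)
    |(p.step m).level| (List.mem_map.2 ⟨_, p.step_mem m, rfl⟩)
  unfold levelSum
  linarith

theorem abs_deriv_piece_le (m : ℕ) (t : ℝ) :
    |deriv (p.piece m) t| ≤ p.K / p.size m ^ 6 ∧
      |deriv (deriv (p.piece m)) t| ≤ p.K / p.size m ^ 6 := by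
  set n := p.size m
  set s := p.step m with hs
  set w := s.width n
  set f := bump (p.time m) w (p.dur m)
  have hw : 1 ≤ w := p.one_le_width m
  have hn : 1 ≤ n := p.size_ge_one m
  have hf : Differentiable ℝ f := (contDiff_bump _ _ _).differentiable (by simp)
  have hf' : Differentiable ℝ (deriv f) :=
    ((contDiff_infty_iff_deriv.1 (contDiff_bump _ _ _)).2).differentiable (by simp)
  have e1 : deriv (p.piece m) = fun t => s.amp n * deriv f t :=
    funext fun t => ((hf t).hasDerivAt.const_mul (s.amp n)).deriv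
  have e2 : deriv (deriv (p.piece m)) t = s.amp n * deriv (deriv f) t := by
    rw [e1]; exact ((hf' t).hasDerivAt.const_mul (s.amp n)).deriv
  have hS := one_le_stepBound
  have hA : |s.amp n| / w ≤ p.levelSum / n ^ 6 :=
    (s.abs_amp_div_width_le hn).trans (by gcongr; exact p.abs_level_le m)
  have hAw : 0 ≤ |s.amp n| / w := by positivity
  have hK : p.K / n ^ 6 = 32 * stepBound ^ 2 * (p.levelSum / n ^ 6) := by
    rw [K]; ring
  have hL0 : 0 ≤ p.levelSum / n ^ 6 := hAw.trans hA
  constructor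
  · rw [e1, abs_mul, hK]
    calc |s.amp n| * |deriv f t| ≤ |s.amp n| * (4 * stepBound / w) := by
          gcongr; exact abs_deriv_bump_le _ _ _ t (by linarith)
      _ = |s.amp n| / w * (4 * stepBound) := by ring
      _ ≤ p.levelSum / n ^ 6 * (32 * stepBound ^ 2) := by
          refine mul_le_mul hA (by nlinarith) (by linarith) hL0
      _ = 32 * stepBound ^ 2 * (p.levelSum / n ^ 6) := by ring
  · rw [e2, abs_mul, hK]
    calc |s.amp n| * |deriv (deriv f) t| ≤ |s.amp n| * (16 * stepBound ^ 2 / w ^ 2) := by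
          gcongr; exact abs_deriv2_bump_le _ _ _ t (by linarith)
      _ = |s.amp n| / w * (16 * stepBound ^ 2 / w) := by ring
      _ ≤ p.levelSum / n ^ 6 * (32 * stepBound ^ 2) := by
          refine mul_le_mul hA ?_ (by positivity) hL0
          exact (div_le_self (by positivity) hw).trans (by nlinarith [sq_nonneg stepBound])
      _ = 32 * stepBound ^ 2 * (p.levelSum / n ^ 6) := by ring

/-! ### Landmarks -/

theorem start_step (i k : ℕ) (hk : k < p.len) :
    p.step (i * p.len + k) = p.list.getD k Step.stay ∧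
      p.size (i * p.len + k) = ((i + p.N0 : ℕ) : ℝ) := by
  constructor
  · rw [step, Nat.mul_comm i, Nat.mul_add_mod, Nat.mod_eq_of_lt hk]
  · rw [size, Nat.mul_comm i, Nat.mul_add_div p.len_pos, Nat.div_eq_of_lt hk, Nat.add_zero]

theorem start_le (i k : ℕ) (hk : k ≤ p.len) :
    p.start i k ≤ p.start i 0 +
      (∑ r ∈ Finset.range k, (p.list.getD r Step.stay).durCoef) * ((i + p.N0 : ℕ) : ℝ) ^ 7 := by
  induction k with
  | zero => simp
  | succ k ih =>
    have hk' : k < p.len := hk
    obtain ⟨e1, e2⟩ := p.start_step i k hk'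
    have hd : p.dur (i * p.len + k) ≤
        (p.list.getD k Step.stay).durCoef * ((i + p.N0 : ℕ) : ℝ) ^ 7 := by
      have := (p.step (i * p.len + k)).dur_le (p.size_ge_one (i * p.len + k))
      rw [e1, e2] at this
      rw [dur, e1, e2]
      exact this
    have := ih hk'.le
    rw [Finset.sum_range_succ, add_mul]
    have e : p.start i (k + 1) = p.start i k + p.dur (i * p.len + k) := rfl
    linarith

theorem start_zero_succ (i : ℕ) : p.start (i + 1) 0 = p.start i p.len := by
  simp [start, add_mul]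

theorem start_le_period (i k : ℕ) (hk : k ≤ p.len) :
    p.start i k ≤ p.start i 0 + p.durSum * ((i + p.N0 : ℕ) : ℝ) ^ 7 := by
  refine (p.start_le i k hk).trans ?_
  gcongr
  unfold durSum
  rw [← sum_getD Step.durCoef Step.stay p.list]
  refine Finset.sum_le_sum_of_subset_of_nonneg (by simpa [len] using hk) fun r _ _ => ?_
  linarith [one_le_durCoef (p.list.getD r Step.stay)]

theorem period_start_le (i : ℕ) :
    p.start i 0 ≤ p.N0 + p.durSum * i * ((i + p.N0 : ℕ) : ℝ) ^ 7 := by
  induction i with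
  | zero => simp [start, time]
  | succ i ih =>
    have h1 := p.start_le_period i p.len le_rfl
    rw [← p.start_zero_succ] at h1
    have hmono : ((i + p.N0 : ℕ) : ℝ) ^ 7 ≤ ((i + 1 + p.N0 : ℕ) : ℝ) ^ 7 := by
      gcongr
      omega
    have h2 : p.durSum * ((i : ℝ) + 1) * ((i + p.N0 : ℕ) : ℝ) ^ 7 ≤
        p.durSum * ((i : ℝ) + 1) * ((i + 1 + p.N0 : ℕ) : ℝ) ^ 7 :=
      mul_le_mul_of_nonneg_left hmono (mul_nonneg p.durSum_nonneg (by positivity))
    push_cast at ih h1 h2 ⊢
    linarith

theorem time_add_le {m : ℕ} {t : ℝ} (ht : t ≤ p.time (m + 1)) :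
    t + (p.N0 : ℝ) ^ 8 ≤ (p.durSum + 3) * p.size m ^ 8 := by
  have hk : m % p.len + 1 ≤ p.len := Nat.mod_lt _ p.len_pos
  have h1 := p.start_le_period (m / p.len) (m % p.len + 1) hk
  have h2 := p.period_start_le (m / p.len)
  have e : p.start (m / p.len) (m % p.len + 1) = p.time (m + 1) := by
    rw [start, ← Nat.add_assoc, Nat.div_add_mod']
  rw [e] at h1
  have hn : ((m / p.len + p.N0 : ℕ) : ℝ) = p.size m := rfl
  rw [hn] at h1 h2
  have hN := p.N0_le_size m
  have hN1 := p.size_ge_one m
  have hi : ((m / p.len : ℕ) : ℝ) + 1 ≤ p.size m := by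
    unfold size
    push_cast
    linarith [p.one_le_N0]
  have h8 : (p.N0 : ℝ) ^ 8 ≤ p.size m ^ 8 := by gcongr
  have h8' : p.size m ≤ p.size m ^ 8 := le_self_pow₀ hN1 (by norm_num)
  have h9 : p.durSum * (((m / p.len : ℕ) : ℝ) + 1) * p.size m ^ 7 ≤
      p.durSum * p.size m * p.size m ^ 7 := by
    gcongr
    exact p.durSum_nonneg
  have h10 : 0 ≤ p.size m ^ 8 := by positivity
  nlinarith

theorem period_start_ge (i : ℕ) :
    ((i + p.N0 : ℕ) : ℝ) ^ 8 / 255 ≤ p.start i 0 + (p.N0 : ℝ) ^ 8 := by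
  induction i with
  | zero =>
    have : (0 : ℝ) ≤ (p.N0 : ℝ) ^ 8 := by positivity
    have := p.one_le_N0
    simp only [start, time, Nat.zero_mul, Nat.add_zero, Nat.zero_add]
    linarith
  | succ i ih =>
    set n : ℝ := ((i + p.N0 : ℕ) : ℝ) with hn
    have hn1 : 1 ≤ n := by
      rw [hn]; push_cast; linarith [p.one_le_N0, Nat.cast_nonneg (α := ℝ) i]
    obtain ⟨k, hk⟩ : ∃ k, p.len = k + 1 := ⟨p.len - 1, by have := p.len_pos; omega⟩
    obtain ⟨e1, e2⟩ := p.start_step i k (by omega)
    have hlast : p.list.getD k Step.stay = Step.stay := by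
      have hk' : k = p.steps.length := by simp [len, list] at hk; omega
      simp [list, hk']
    have hd : p.dur (i * p.len + k) = n ^ 7 := by
      rw [dur, e1, e2, hlast]; rfl
    have h1 : p.start (i + 1) 0 = p.start i k + p.dur (i * p.len + k) := by
      rw [p.start_zero_succ, hk]; simp only [start, hk]; rfl
    have h2 : p.start i 0 ≤ p.start i k := p.time_strictMono.monotone (by omega)
    have e : ((i + 1 + p.N0 : ℕ) : ℝ) = n + 1 := by rw [hn]; push_cast; ring
    rw [e]
    have hb : (n + 1) ^ 8 ≤ n ^ 8 + 255 * n ^ 7 := by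
      have q1 : n ^ 6 ≤ n ^ 7 := pow_le_pow_right₀ hn1 (by norm_num)
      have q2 : n ^ 5 ≤ n ^ 7 := pow_le_pow_right₀ hn1 (by norm_num)
      have q3 : n ^ 4 ≤ n ^ 7 := pow_le_pow_right₀ hn1 (by norm_num)
      have q4 : n ^ 3 ≤ n ^ 7 := pow_le_pow_right₀ hn1 (by norm_num)
      have q5 : n ^ 2 ≤ n ^ 7 := pow_le_pow_right₀ hn1 (by norm_num)
      have q6 : n ≤ n ^ 7 := le_self_pow₀ hn1 (by norm_num)
      have q7 : (1 : ℝ) ≤ n ^ 7 := one_le_pow₀ hn1
      linarith [show (n + 1) ^ 8 = n ^ 8 + 8 * n ^ 7 + 28 * n ^ 6 + 56 * n ^ 5 + 70 * n ^ 4 +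
        56 * n ^ 3 + 28 * n ^ 2 + 8 * n + 1 by ring]
    linarith

variable {p}

/-- `β'² ≤ K² (durSum + 3)² · tail`. -/
theorem inv_pow_le_tail {m : ℕ} {t : ℝ} (h1 : p.time m ≤ t) (h2 : t ≤ p.time (m + 1)) :
    1 / p.size m ^ 12 ≤ (p.durSum + 3) ^ 2 * p.tail t := by
  have hn : 0 < p.size m := by linarith [p.size_ge_one m]
  have hD : (1 : ℝ) ≤ p.durSum + 3 := by linarith [p.durSum_nonneg]
  have hpos : 0 < t + (p.N0 : ℝ) ^ 8 := by linarith [p.N0_le_time m, p.one_le_N0, p.N0_le_pow]
  have hle := rpow_le_rpow_of_nonpos hpos (p.time_add_le h2) (show (-(3 / 2) : ℝ) ≤ 0 by norm_num)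
  rw [mul_rpow (by linarith) (by positivity), ← rpow_natCast _ 8, ← rpow_mul hn.le] at hle
  norm_num at hle
  have hD2 : ((p.durSum + 3) ^ 2)⁻¹ ≤ (p.durSum + 3) ^ (-(3 / 2) : ℝ) := by
    rw [← rpow_natCast _ 2, ← rpow_neg (by linarith)]
    exact rpow_le_rpow_of_exponent_le hD (by norm_num)
  have hI : 0 ≤ (p.size m ^ 12)⁻¹ := by positivity
  have h3 : ((p.durSum + 3) ^ 2)⁻¹ * (p.size m ^ 12)⁻¹ ≤ p.tail t := by
    refine (mul_le_mul_of_nonneg_right hD2 hI).trans ?_
    simpa [tail] using hle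
  calc 1 / p.size m ^ 12
      = (p.durSum + 3) ^ 2 * (((p.durSum + 3) ^ 2)⁻¹ * (p.size m ^ 12)⁻¹) := by
        field_simp
    _ ≤ (p.durSum + 3) ^ 2 * p.tail t := mul_le_mul_of_nonneg_left h3 (by positivity)

theorem Ok.K_div (h : p.Ok) (m : ℕ) : p.K / p.size m ^ 6 ≤ 1 / 1000000 := by
  have hn := p.size_ge_one m
  rw [div_le_iff₀ (by positivity)]
  have := le_self_pow₀ hn (show (6 : ℕ) ≠ 0 by norm_num)
  linarith [h.big, p.N0_le_size m, p.one_le_C, p.one_le_levelSum, p.durSum_nonneg]

theorem Ok.piece_range (h : p.Ok) (m : ℕ) (t : ℝ) :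
    -(1 / 40 : ℝ) ≤ p.piece m t ∧ p.piece m t ≤ 9 / 250 := by
  have hA : -(1 / 40 : ℝ) ≤ (p.step m).amp (p.size m) ∧
      (p.step m).amp (p.size m) ≤ 9 / 250 := by
    have hv : ∀ s ∈ p.list, s.Valid := by
      intro s hs
      simp only [list, List.mem_append, List.mem_singleton] at hs
      rcases hs with hs | hs
      · exact h.valid s hs
      · subst hs; trivial
    have hv' := hv _ (p.step_mem m)
    have hl := p.abs_level_le m
    have hn := p.size_ge_one m
    revert hv' hl
    cases p.step m with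
    | cross z c => intro hv' _; exact hv'
    | micro a z c =>
      intro _ hl
      simp only [Step.level] at hl
      simp only [Step.amp]
      have h3 : p.size m ≤ p.size m ^ 3 := le_self_pow₀ hn (by norm_num)
      have hb : |z / p.size m ^ 3| ≤ 1 / 1000000 := by
        rw [abs_div, abs_of_pos (by positivity : (0 : ℝ) < p.size m ^ 3),
          div_le_iff₀ (by positivity)]
        linarith [h.big, p.N0_le_size m, p.one_le_C, p.K_pos, p.durSum_nonneg]
      rw [abs_le] at hb
      constructor <;> linarith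
    | round c => intros; simp [Step.amp]; norm_num
    | gap c => intros; simp [Step.amp]; norm_num
    | slot => intros; simp [Step.amp]; norm_num
    | stay => intros; simp [Step.amp]; norm_num
  have b0 := bump_nonneg (p.time m) ((p.step m).width (p.size m)) (p.dur m) t
  have b1 := bump_le_one (p.time m) ((p.step m).width (p.size m)) (p.dur m) t
  unfold piece
  constructor <;> nlinarith

theorem Ok.comp_range (h : p.Ok) (o : Option (Fin 6)) (t : ℝ) :
    -(1 / 40 : ℝ) ≤ p.comp o t ∧ p.comp o t ≤ 9 / 250 := by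
  rcases p.comp_cases o t with e | ⟨m, -, -, -, e⟩
  · rw [e.eq_of_nhds]; norm_num
  · rw [e.eq_of_nhds]; exact h.piece_range m t

theorem abs_deriv_comp_le (o : Option (Fin 6)) {m : ℕ} {t : ℝ} (h1 : p.time m ≤ t)
    (h2 : t ≤ p.time (m + 1)) :
    |deriv (p.comp o) t| ≤ p.K / p.size m ^ 6 ∧
      |deriv (deriv (p.comp o)) t| ≤ p.K / p.size m ^ 6 := by
  have e := p.comp_eventually h1 h2 o
  rw [e.deriv_eq, e.deriv.deriv_eq]
  split_ifs
  · exact p.abs_deriv_piece_le m t
  · have := p.K_pos
    have := p.size_ge_one m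
    have : 0 ≤ p.K / p.size m ^ 6 := by positivity
    simp [this]

/-- The squashes' derivatives are small everywhere and paid by the tail. -/
theorem Ok.deriv_comp_small (h : p.Ok) (o : Option (Fin 6)) (t : ℝ) :
    |deriv (p.comp o) t| ≤ 1 / 1000000 ∧ |deriv (deriv (p.comp o)) t| ≤ 1 / 1000000 ∧
      48 * deriv (p.comp o) t ^ 2 ≤ p.C * p.tail t ∨ p.comp o =ᶠ[𝓝 t] fun _ => 0 := by
  rcases p.comp_cases o t with e | ⟨m, h1, h2, -, -⟩
  · exact Or.inr e
  · left
    obtain ⟨a1, a2⟩ := abs_deriv_comp_le o h1 h2.le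
    refine ⟨a1.trans (h.K_div m), a2.trans (h.K_div m), ?_⟩
    have hs : deriv (p.comp o) t ^ 2 ≤ (p.K / p.size m ^ 6) ^ 2 := by
      rw [← sq_abs]; gcongr
    have ht := inv_pow_le_tail h1 h2.le
    have htp : 0 ≤ p.tail t := (p.tail_pos (by linarith [p.N0_le_time m, p.one_le_N0])).le
    have e1 : (p.K / p.size m ^ 6) ^ 2 = p.K ^ 2 * (1 / p.size m ^ 12) := by ring
    have e2 : p.C * p.tail t = 48 * (p.K ^ 2 * ((p.durSum + 3) ^ 2 * p.tail t)) + p.tail t := by
      rw [C]; ring
    nlinarith [mul_le_mul_of_nonneg_left ht (sq_nonneg p.K)]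

/-! ### Ricci -/

variable (p)

/-- `log` of the squashed direction's coefficient. -/
def la (o : Option (Fin 6)) (t : ℝ) : ℝ := -p.chi t + 2 * p.comp o t

/-- `log` of the other directions' coefficient. -/
def lb (o : Option (Fin 6)) (t : ℝ) : ℝ := -p.chi t - p.comp o t

theorem deriv_la (o : Option (Fin 6)) :
    deriv (p.la o) = fun t => -p.rate t + 2 * deriv (p.comp o) t :=
  funext fun t => ((p.hasDerivAt_chi t).neg.add
    (((p.contDiff_comp o).differentiable (by simp) t).hasDerivAt.const_mul 2)).deriv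

theorem deriv_lb (o : Option (Fin 6)) :
    deriv (p.lb o) = fun t => -p.rate t - deriv (p.comp o) t :=
  funext fun t => ((p.hasDerivAt_chi t).neg.sub
    (((p.contDiff_comp o).differentiable (by simp) t).hasDerivAt)).deriv

theorem deriv2_la (o : Option (Fin 6)) (t : ℝ) :
    deriv (deriv (p.la o)) t = -deriv p.rate t + 2 * deriv (deriv (p.comp o)) t := by
  rw [p.deriv_la o]
  exact ((p.contDiff_rate.differentiable (by simp) t).hasDerivAt.neg.add
    (((contDiff_infty_iff_deriv.1 (p.contDiff_comp o)).2.differentiable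
      (by simp) t).hasDerivAt.const_mul 2)).deriv

theorem deriv2_lb (o : Option (Fin 6)) (t : ℝ) :
    deriv (deriv (p.lb o)) t = -deriv p.rate t - deriv (deriv (p.comp o)) t := by
  rw [p.deriv_lb o]
  exact ((p.contDiff_rate.differentiable (by simp) t).hasDerivAt.neg.sub
    (((contDiff_infty_iff_deriv.1 (p.contDiff_comp o)).2.differentiable
      (by simp) t).hasDerivAt)).deriv

variable {p}

theorem exp_two_L : Real.exp (2 * Real.log (8 / 7)) = 64 / 49 := by
  rw [show (2 : ℝ) * Real.log (8 / 7) = Real.log (8 / 7) + Real.log (8 / 7) by ring, Real.exp_add,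
    Real.exp_log (by norm_num)]
  norm_num

theorem squash_gap {b : ℝ} (h1 : -(1 / 40 : ℝ) ≤ b) (h2 : b ≤ 9 / 250) :
    4 / 5 ≤ Real.exp (8 * b) ∧ 4 / 5 ≤ 2 * Real.exp (2 * b) - Real.exp (8 * b) := by
  have e8 := add_one_le_exp (8 * b)
  have e2 := add_one_le_exp (2 * b)
  refine ⟨by linarith, ?_⟩
  rcases le_or_gt b 0 with hb | hb
  · have : Real.exp (8 * b) ≤ 1 := exp_le_one_iff.2 (by linarith)
    linarith
  · have := Real.exp_bound' (x := 8 * b) (by linarith) (by linarith) (n := 3) (by norm_num)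
    simp [Finset.sum_range_succ, Nat.factorial] at this
    nlinarith [mul_le_mul h2 h2 hb.le (by norm_num : (0 : ℝ) ≤ 9 / 250), pow_le_pow_left₀ hb.le h2 3]

/-- Ricci away from the squashes. -/
theorem Ok.ric_round (h : p.Ok) {o : Option (Fin 6)} {t : ℝ}
    (e : p.comp o =ᶠ[𝓝 t] fun _ => 0) :
    p.rate t / 4 ≤ ric0 (p.la o) (p.lb o) t ∧ p.rate t / 4 ≤ ric1 (p.la o) (p.lb o) t ∧
      p.rate t / 4 ≤ ric2 (p.la o) (p.lb o) t := by
  have d1 : deriv (p.comp o) t = 0 := by rw [e.deriv_eq]; simp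
  have d2 : deriv (deriv (p.comp o)) t = 0 := by rw [e.deriv.deriv_eq]; simp
  have hr := h.rate_nonneg t
  have hr' := h.rate_le t
  have hd := h.deriv_rate_ge t
  have hchi : 0 ≤ p.chi t := by
    rcases le_or_gt t 0 with ht | ht
    · rw [p.chi_of_nonpos ht]
    · exact h.chi_nonneg ht.le
  have he := add_one_le_exp (2 * p.chi t)
  simp only [ric0, ric1, ric2]
  rw [p.deriv2_la, p.deriv2_lb, p.deriv_la, p.deriv_lb]
  simp only [d1, d2]
  simp only [la, lb, e.eq_of_nhds]
  refine ⟨by nlinarith, ?_, ?_⟩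
  · rw [show 2 * (-p.chi t + 2 * 0) - 4 * (-p.chi t - 0) = 2 * p.chi t by ring]
    nlinarith
  · rw [show 2 * (-p.chi t + 2 * 0) - 4 * (-p.chi t - 0) = 2 * p.chi t by ring,
      show -2 * (-p.chi t - 0) = 2 * p.chi t by ring]
    nlinarith

/-- Ricci during the squashes. -/
theorem Ok.ric_squash (h : p.Ok) {o : Option (Fin 6)} {t : ℝ} (ht : (p.N0 : ℝ) ≤ t)
    (hb : |deriv (p.comp o) t| ≤ 1 / 1000000) (hb' : |deriv (deriv (p.comp o)) t| ≤ 1 / 1000000)
    (hsq : 48 * deriv (p.comp o) t ^ 2 ≤ p.C * p.tail t) :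
    p.C / 4 * p.tail t ≤ ric0 (p.la o) (p.lb o) t ∧
      p.C / 4 * p.tail t ≤ ric1 (p.la o) (p.lb o) t ∧
      p.C / 4 * p.tail t ≤ ric2 (p.la o) (p.lb o) t := by
  obtain ⟨h1, hr1, hc1, hc2⟩ := h.late ht
  have hr := h.rate_nonneg t
  have hdr := h.deriv_rate_ge t
  have hdr' := h.deriv_rate_abs h1
  have htl := h.rate_ge_tail h1
  have ht0 := p.tail_pos (t := t) (by linarith)
  have hC := p.one_le_C
  obtain ⟨g1, g2⟩ := squash_gap (h.comp_range o t).1 (h.comp_range o t).2
  set h0 := p.rate t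
  set h' := deriv p.rate t
  set b' := deriv (p.comp o) t with hb'def
  set b'' := deriv (deriv (p.comp o)) t
  set b := p.comp o t
  have hE : 13 / 10 ≤ Real.exp (2 * p.chi t) := by
    have hm : Real.exp (2 * Real.log (8 / 7)) * Real.exp (-(1 / 500)) ≤
        Real.exp (2 * p.chi t) := by
      rw [← Real.exp_add]; exact exp_le_exp.2 (by linarith)
    rw [exp_two_L] at hm
    nlinarith [add_one_le_exp (-(1 / 500) : ℝ)]
  have e1 : 2 * (-p.chi t + 2 * b) - 4 * (-p.chi t - b) = 2 * p.chi t + 8 * b := by ring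
  have e2 : -2 * (-p.chi t - b) = 2 * p.chi t + 2 * b := by ring
  rw [abs_le] at hb hb' hdr'
  have q1 : h0 ^ 2 ≤ 1 / 1000 * (1 / 1000) := by rw [sq]; exact mul_le_mul hr1 hr1 hr (by norm_num)
  have q2 : b' ^ 2 ≤ 1 / 1000000 := by nlinarith
  have q3 : |h0 * b'| ≤ 1 / 1000 * (1 / 1000000) := by
    rw [abs_mul, abs_of_nonneg hr]
    exact mul_le_mul hr1 (abs_le.2 hb) (abs_nonneg _) (by norm_num)
  rw [abs_le] at q3
  simp only [ric0, ric1, ric2]
  rw [p.deriv2_la, p.deriv2_lb, p.deriv_la, p.deriv_lb]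
  simp only [la, lb]
  refine ⟨by nlinarith, ?_, ?_⟩
  · rw [e1, Real.exp_add]
    have := mul_le_mul hE g1 (by norm_num) (exp_pos _).le
    nlinarith
  · rw [e1, e2, Real.exp_add, Real.exp_add]
    have := mul_le_mul hE g2 (by norm_num) (exp_pos _).le
    nlinarith

/-- From time one on all three Ricci terms are at least `C/4 · tail`. -/
theorem Ok.ric_ge (h : p.Ok) (o : Option (Fin 6)) {t : ℝ} (ht : 1 ≤ t) :
    p.C / 4 * p.tail t ≤ ric0 (p.la o) (p.lb o) t ∧
      p.C / 4 * p.tail t ≤ ric1 (p.la o) (p.lb o) t ∧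
      p.C / 4 * p.tail t ≤ ric2 (p.la o) (p.lb o) t := by
  rcases h.deriv_comp_small o t with ⟨h1, h2, h3⟩ | e
  · rcases lt_or_ge t p.N0 with hN | hN
    · have e : p.comp o =ᶠ[𝓝 t] fun _ => 0 := by
        filter_upwards [Iio_mem_nhds hN] with s hs
        exact p.comp_eq_zero_early (by linarith [Set.mem_Iio.1 hs]) o
      obtain ⟨a, b, c⟩ := h.ric_round e
      have := h.rate_ge_tail ht
      exact ⟨by linarith, by linarith, by linarith⟩
    · exact h.ric_squash hN h1 h2 h3
  · obtain ⟨a, b, c⟩ := h.ric_round e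
    have := h.rate_ge_tail ht
    exact ⟨by linarith, by linarith, by linarith⟩

/-- All three Ricci terms are everywhere nonnegative. -/
theorem Ok.ric_nonneg (h : p.Ok) (o : Option (Fin 6)) (t : ℝ) :
    0 ≤ ric0 (p.la o) (p.lb o) t ∧ 0 ≤ ric1 (p.la o) (p.lb o) t ∧
      0 ≤ ric2 (p.la o) (p.lb o) t := by
  rcases lt_or_ge t 1 with ht | ht
  · have e : p.comp o =ᶠ[𝓝 t] fun _ => 0 := by
      filter_upwards [Iio_mem_nhds ht] with s hs
      exact p.comp_eq_zero_early (by linarith [Set.mem_Iio.1 hs, p.one_le_N0]) o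
    obtain ⟨a, b, c⟩ := h.ric_round e
    have := h.rate_nonneg t
    exact ⟨by linarith, by linarith, by linarith⟩
  · obtain ⟨a, b, c⟩ := h.ric_ge o ht
    have := mul_pos (by linarith [p.one_le_C] : (0 : ℝ) < p.C / 4)
      (p.tail_pos (t := t) (by linarith))
    exact ⟨by linarith, by linarith, by linarith⟩

/-! ### Slots -/

variable (p)

theorem slotList_getD {k : ℕ} (hk : k < p.slotList.length) :
    p.slotList.getD k 0 < p.len ∧ (p.list.getD (p.slotList.getD k 0) Step.stay).isSlot := by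
  have hm : p.slotList.getD k 0 ∈ p.slotList := by
    rw [List.getD_eq_getElem _ _ hk]; exact List.getElem_mem hk
  simpa [slotList] using hm

theorem slotPos_step (hne : p.slotList ≠ []) (m : ℕ) :
    ∃ k, p.slotPos m = p.time k ∧ p.step k = Step.slot ∧
      p.slotPos m + 1 = p.time (k + 1) := by
  have hl : 0 < p.slotList.length := List.length_pos_of_ne_nil hne
  obtain ⟨h1, h2⟩ := p.slotList_getD (Nat.mod_lt m hl)
  set r := p.slotList.getD (m % p.slotList.length) 0
  set i := m / p.slotList.length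
  obtain ⟨e1, -⟩ := p.start_step i r h1
  have hs : p.step (i * p.len + r) = Step.slot := by
    rw [e1]
    revert h2
    cases p.list.getD r Step.stay <;> simp [Step.isSlot]
  refine ⟨i * p.len + r, rfl, hs, ?_⟩
  rw [p.time_succ, dur, hs]
  rfl

theorem slotPos_start (m : ℕ) : 1 ≤ p.slotPos m :=
  p.one_le_N0.trans (p.N0_le_time _)

theorem slotPos_gap (hne : p.slotList ≠ []) (m : ℕ) : p.slotPos m + 1 ≤ p.slotPos (m + 1) := by
  have hl : 0 < p.slotList.length := List.length_pos_of_ne_nil hne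
  set S := p.slotList.length with hS
  obtain ⟨k, hk, -, hk1⟩ := p.slotPos_step hne m
  rw [hk1]
  have h1 : p.slotList.getD (m % S) 0 < p.len := (p.slotList_getD (Nat.mod_lt m hl)).1
  have hk' : k = m / S * p.len + p.slotList.getD (m % S) 0 :=
    p.time_strictMono.injective (hk.symm.trans rfl)
  refine p.time_strictMono.monotone ?_
  rw [hk', ← hS]
  rcases Nat.lt_or_ge (m % S + 1) S with hlt | hge
  · have e1 : (m + 1) / S = m / S := by
      rw [Nat.div_eq_of_lt_le]
      · have := Nat.div_add_mod' m S; omega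
      · have := Nat.div_add_mod' m S
        rw [Nat.succ_mul]; omega
    have e2 : (m + 1) % S = m % S + 1 := by
      rw [Nat.add_mod, Nat.mod_eq_of_lt (show 1 < S by omega), Nat.mod_eq_of_lt hlt]
    rw [e1, e2]
    have hsorted : p.slotList.Pairwise (· < ·) := List.pairwise_lt_range.filter _
    have := List.pairwise_iff_getElem.1 hsorted (m % S) (m % S + 1) (by omega) (by omega)
      (by omega)
    rw [List.getD_eq_getElem _ _ (show m % S < p.slotList.length by omega),
      List.getD_eq_getElem _ _ (show m % S + 1 < p.slotList.length by omega)]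
    omega
  · have e : m % S + 1 = S := by have := Nat.mod_lt m hl; omega
    have e1 : (m + 1) / S = m / S + 1 := by
      have := Nat.div_add_mod' m S
      rw [Nat.div_eq_of_lt_le]
      · rw [Nat.succ_mul]; omega
      · rw [Nat.succ_mul, Nat.succ_mul]; omega
    rw [e1, Nat.add_mul, Nat.one_mul]
    omega

/-- The slots as data for `Amps`. -/
def amps (hne : p.slotList ≠ []) (P : Pulses) (θ : ℕ → Fin P.n → ℝ) : Amps P where
  pos := p.slotPos
  pos_start := p.slotPos_start 0
  pos_gap := p.slotPos_gap hne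
  θ := θ

/-- All large `N` are admissible. -/
theorem exists_ok (steps : List Step) (hv : ∀ s ∈ steps, s.Valid) :
    ∃ N₁ : ℕ, ∀ N ≥ N₁, (Params.mk steps N).Ok := by
  obtain ⟨N₁, h⟩ := exists_nat_ge
    (1000000 * ((Params.mk steps 0).C + (Params.mk steps 0).K + (Params.mk steps 0).levelSum +
      (Params.mk steps 0).durSum + 1))
  refine ⟨N₁, fun N hN => ⟨hv, ?_⟩⟩
  have : (N₁ : ℝ) ≤ ((Params.mk steps N).N0 : ℕ) := by
    unfold Params.N0
    exact_mod_cast le_trans hN (Nat.le_succ N)
  exact le_trans h this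

end Params

end

end Vale.Agent.P225.Sched
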