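import Vale.Agent.P225.Sched.Defs

/-!
P225 Sched: periods of the schedule. A period lasts its excursion plus `n ^ 7`, the excursion is
`O (n ^ 6)` and the elapsed time grows like `n ^ 8`.
-/

namespace Vale.Agent.P225.Sched

open Filter Finset Asymptotics

noncomputable section

lemma Step.dur_mono (s : Step) {m n : ℝ} (hm : 0 ≤ m) (h : m ≤ n) : s.dur m ≤ s.dur n := by
  cases s <;> simp only [Step.dur] <;> gcongr

lemma Step.dur_nonneg (s : Step) {n : ℝ} (hn : 0 ≤ n) : 0 ≤ s.dur n := by
  cases s <;> simp only [Step.dur] <;> positivity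

namespace Params

variable (p : Params)

/-- The start of a period. -/
def P (i : ℕ) : ℝ := p.start i 0

/-- The excursion at size `n`. -/
def excAt (n : ℝ) : ℝ := (p.steps.map fun s => s.dur n).sum

/-- The length of the excursion of a period. -/
def exc (i : ℕ) : ℝ := p.excAt ((i + p.N0 : ℕ) : ℝ)

lemma len_eq : p.len = p.steps.length + 1 := by simp [len, list]

lemma one_le_N0 : (1 : ℝ) ≤ (p.N0 : ℝ) := by simp [N0]

lemma step_add (i k : ℕ) (hk : k < p.len) : p.step (i * p.len + k) = p.list.getD k Step.stay := by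
  rw [step, Nat.mul_add_mod_self_right, Nat.mod_eq_of_lt hk]

lemma size_add (i k : ℕ) (hk : k < p.len) : p.size (i * p.len + k) = ((i + p.N0 : ℕ) : ℝ) := by
  rw [size, Nat.mul_comm, Nat.mul_add_div (by omega), Nat.div_eq_of_lt hk, Nat.add_zero]

lemma start_succ (i k : ℕ) (hk : k < p.len) :
    p.start i (k + 1) = p.start i k + (p.list.getD k Step.stay).dur ((i + p.N0 : ℕ) : ℝ) := by
  rw [start, start, ← Nat.add_assoc, time, dur, p.step_add i k hk, p.size_add i k hk]

lemma start_eq (i : ℕ) : ∀ k ≤ p.steps.length,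
    p.start i k = p.P i + ((p.steps.take k).map fun s => s.dur ((i + p.N0 : ℕ) : ℝ)).sum := by
  intro k
  induction k with
  | zero => intro _; simp [P]
  | succ k ih =>
    intro hk
    have hk' : k < p.steps.length := by omega
    rw [p.start_succ i k (by rw [p.len_eq]; omega), ih (by omega),
      List.take_succ_eq_append_getElem hk', List.map_append, List.sum_append]
    simp [list, List.getElem?_append_left hk', List.getElem?_eq_getElem hk', add_assoc]

lemma start_end (i : ℕ) : p.start i p.steps.length = p.P i + p.exc i := by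
  rw [p.start_eq i _ le_rfl, List.take_length]; rfl

lemma start_len (i : ℕ) : p.start i p.len = p.P (i + 1) := by
  simp [P, start, Nat.succ_mul]

lemma P_succ (i : ℕ) : p.P (i + 1) = p.P i + p.exc i + ((i + p.N0 : ℕ) : ℝ) ^ 7 := by
  rw [← p.start_len, p.len_eq, p.start_succ i _ (by rw [p.len_eq]; omega), p.start_end]
  simp [list, Step.dur]

lemma start_mem (i k : ℕ) (hk : k ≤ p.steps.length) :
    p.P i ≤ p.start i k ∧ p.start i k ≤ p.P i + p.exc i := by
  have h0 : ∀ l : List Step, 0 ≤ (l.map fun s => s.dur ((i + p.N0 : ℕ) : ℝ)).sum := fun l =>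
    List.sum_nonneg fun x hx => by
      obtain ⟨s, _, rfl⟩ := List.mem_map.1 hx
      exact s.dur_nonneg (Nat.cast_nonneg _)
  refine ⟨by rw [p.start_eq i k hk]; linarith [h0 (p.steps.take k)], ?_⟩
  rw [← p.start_end, p.start_eq i k hk, p.start_eq i _ le_rfl, List.take_length]
  conv_rhs => rw [← List.take_append_drop k p.steps, List.map_append, List.sum_append]
  linarith [h0 (p.steps.drop k)]

lemma excAt_nonneg {n : ℝ} (hn : 0 ≤ n) : 0 ≤ p.excAt n :=
  List.sum_nonneg fun x hx => by
    obtain ⟨s, _, rfl⟩ := List.mem_map.1 hx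
    exact s.dur_nonneg hn

lemma exc_mono : Monotone p.exc := fun i j h =>
  List.sum_le_sum fun s _ => s.dur_mono (Nat.cast_nonneg _) (by exact_mod_cast Nat.add_le_add_right h _)

lemma len_mono : Monotone fun i => p.P (i + 1) - p.P i := fun i j h => by
  simp only [p.P_succ]
  have h1 := p.exc_mono h
  have h2 : ((i + p.N0 : ℕ) : ℝ) ^ 7 ≤ ((j + p.N0 : ℕ) : ℝ) ^ 7 :=
    pow_le_pow_left₀ (Nat.cast_nonneg _) (by exact_mod_cast Nat.add_le_add_right h _) 7
  linarith

lemma one_le_size (i : ℕ) : (1 : ℝ) ≤ ((i + p.N0 : ℕ) : ℝ) := by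
  exact_mod_cast (show 1 ≤ i + p.N0 by simp [N0]; omega)

lemma P_len_pos (i : ℕ) : 0 < p.P (i + 1) - p.P i := by
  rw [p.P_succ]
  have := p.excAt_nonneg (n := ((i + p.N0 : ℕ) : ℝ)) (Nat.cast_nonneg _)
  have := one_le_pow₀ (p.one_le_size i) (n := 7)
  simp only [exc]
  linarith

/-- Excursions take time `O (n ^ 6)`. -/
lemma exc_le (hns : Step.stay ∉ p.steps) (i : ℕ) :
    p.exc i ≤ (p.steps.map Step.durCoef).sum * ((i + p.N0 : ℕ) : ℝ) ^ 6 := by
  have hn := p.one_le_size i
  rw [exc, excAt, ← List.sum_map_mul_right]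
  refine List.sum_le_sum fun s hs => ?_
  have h6 : 1 ≤ ((i + p.N0 : ℕ) : ℝ) ^ 6 := one_le_pow₀ hn
  have h1 : ((i + p.N0 : ℕ) : ℝ) ≤ ((i + p.N0 : ℕ) : ℝ) ^ 6 := le_self_pow₀ hn (by norm_num)
  have h3 : ((i + p.N0 : ℕ) : ℝ) ^ 3 ≤ ((i + p.N0 : ℕ) : ℝ) ^ 6 := pow_le_pow_right₀ hn (by norm_num)
  cases s with
  | round c => simp only [Step.dur, Step.durCoef]; linarith
  | gap c =>
    simp only [Step.dur, Step.durCoef]
    have := mul_le_mul_of_nonneg_left h1 (le_max_right c 0)
    linarith
  | cross z c => simp only [Step.dur, Step.durCoef]; linarith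
  | micro a z c =>
    simp only [Step.dur, Step.durCoef]
    have := mul_le_mul_of_nonneg_left h3 (show 0 ≤ 2 + max c 0 by positivity)
    linarith
  | slot => simp only [Step.dur, Step.durCoef]; linarith
  | stay => exact absurd hs hns

end Params

end

end Vale.Agent.P225.Sched
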