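import Mathlib

/-!
P225: the designed evolution of the adjusted coefficients.

Three elementary transvections at times `τ (3n) < τ (3n+1) < τ (3n+2)` realise a signed
transposition of two labels. In the moving frame `Φ` each of them is exponentially small, so the
designed solution is a small perturbation of the flow, yet its growth rate is the average of the
rates of the labels visited.
-/

namespace Vale.Agent.P225.Growth

open Filter Finset Asymptotics

noncomputable section

variable {ι : Type*} {F : Type*} [NormedAddCommGroup F] [NormedSpace ℝ F]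

/-- The flow of the regular solutions, with a dual family in coefficient space. -/
structure Frame (ι F : Type*) [DecidableEq ι] [NormedAddCommGroup F] [NormedSpace ℝ F] where
  /-- Basis vectors. -/
  v : ι → F
  /-- Dual functionals. -/
  w : ι → F →L[ℝ] ℝ
  dual : ∀ a b, w a (v b) = if a = b then 1 else 0
  /-- The regular solutions. -/
  Φ : ℝ → F →L[ℝ] F
  /-- Their inverse. -/
  Ψ : ℝ → F →L[ℝ] F
  ΦΨ : ∀ t x, Φ t (Ψ t x) = x
  ΨΦ : ∀ t x, Ψ t (Φ t x) = x

/-- The list of transpositions, the times of the transvections and the reference log scales. -/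
structure Plan (ι : Type*) where
  /-- Transpositions per period. -/
  N : ℕ
  N_pos : 0 < N
  /-- First label. -/
  A : Fin N → ι
  /-- Second label. -/
  B : Fin N → ι
  ne : ∀ r, A r ≠ B r
  /-- Times of the transvections, three per transposition. -/
  τ : ℕ → ℝ
  mono : Monotone τ
  tendsto : Tendsto τ atTop atTop
  /-- Log scale of a label. -/
  E : ι → ℝ → ℝ

namespace Plan

variable (p : Plan ι)

/-- First label of the `n`-th transposition. -/
def a (n : ℕ) : ι := p.A ⟨n % p.N, Nat.mod_lt _ p.N_pos⟩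

/-- Second label of the `n`-th transposition. -/
def b (n : ℕ) : ι := p.B ⟨n % p.N, Nat.mod_lt _ p.N_pos⟩

lemma a_ne_b (n : ℕ) : p.a n ≠ p.b n := p.ne _

lemma a_periodic (i r : ℕ) : p.a (i * p.N + r) = p.a r := by
  unfold a
  congr 1
  ext
  simp [Nat.add_mod, Nat.mul_mod_left]

lemma b_periodic (i r : ℕ) : p.b (i * p.N + r) = p.b r := by
  unfold b
  congr 1
  ext
  simp [Nat.add_mod, Nat.mul_mod_left]

/-- The difference of log scales. -/
def diff (n : ℕ) (t : ℝ) : ℝ := p.E (p.a n) t - p.E (p.b n) t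

/-- The reference level of the `n`-th transposition. -/
def gam (n : ℕ) : ℝ := (p.diff n (p.τ (3 * n)) + p.diff n (p.τ (3 * n + 1))) / 2

/-- Target label of the `k`-th transvection. -/
def row (k : ℕ) : ι := if k % 3 = 1 then p.b (k / 3) else p.a (k / 3)

/-- Source label of the `k`-th transvection. -/
def col (k : ℕ) : ι := if k % 3 = 1 then p.a (k / 3) else p.b (k / 3)

/-- Coefficient of the `k`-th transvection. -/
def coef (k : ℕ) : ℝ :=
  if k % 3 = 1 then -Real.exp (p.gam (k / 3)) else Real.exp (-p.gam (k / 3))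

lemma row_ne_col (k : ℕ) : p.row k ≠ p.col k := by
  unfold row col
  split_ifs
  · exact (p.a_ne_b _).symm
  · exact p.a_ne_b _

/-- The number of transvections made up to time `t`. -/
def count (t : ℝ) : ℕ := Nat.find (p.tendsto.eventually (eventually_gt_atTop t)).exists

lemma lt_τ_count (t : ℝ) : t < p.τ (p.count t) :=
  Nat.find_spec (p.tendsto.eventually (eventually_gt_atTop t)).exists

lemma count_le {t : ℝ} {k : ℕ} (h : t < p.τ k) : p.count t ≤ k := Nat.find_min' _ h

lemma τ_le_of_lt_count {t : ℝ} {k : ℕ} (h : k < p.count t) : p.τ k ≤ t :=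
  not_lt.1 fun hk => absurd (p.count_le hk) (not_le.2 h)

lemma lt_τ_of_count_le {t : ℝ} {k : ℕ} (h : p.count t ≤ k) : t < p.τ k :=
  (p.lt_τ_count t).trans_le (p.mono h)

lemma le_count {t : ℝ} {k : ℕ} (h : ∀ m < k, p.τ m ≤ t) : k ≤ p.count t :=
  not_lt.1 fun hk => absurd (h _ hk) (not_le.2 (p.lt_τ_count t))

lemma count_mono : Monotone p.count := fun _ _ hst => p.count_le (hst.trans_lt (p.lt_τ_count _))

end Plan

variable [DecidableEq ι]

namespace Plan

variable (p : Plan ι)

/-- The label occupied after `n` transpositions. -/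
def perm : ℕ → Equiv.Perm ι
  | 0 => 1
  | n + 1 => Equiv.swap (p.a n) (p.b n) * perm n

/-- The permutation of one period. -/
def cyc : Equiv.Perm ι := p.perm p.N

lemma perm_add_period (i : ℕ) : ∀ r, p.perm (i * p.N + r) = p.perm r * p.perm (i * p.N) := by
  intro r
  induction r with
  | zero => simp [perm]
  | succ r ih =>
    rw [← Nat.add_assoc]
    simp only [perm]
    rw [ih, p.a_periodic, p.b_periodic, mul_assoc]

lemma perm_period (i : ℕ) : p.perm (i * p.N) = p.cyc ^ i := by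
  induction i with
  | zero => simp [perm]
  | succ i ih => rw [Nat.succ_mul, p.perm_add_period, ih, pow_succ']; rfl

/-- Accumulated log factor of a column. -/
def off : ℕ → ι → ℝ
  | 0, _ => 0
  | n + 1, s => off n s +
      if p.perm n s = p.a n then p.gam n else if p.perm n s = p.b n then -p.gam n else 0

/-- Log size of the column `s` in its state after `n` transpositions, at time `t`. -/
def size (n : ℕ) (s : ι) (t : ℝ) : ℝ := p.off n s + p.E (p.perm n s) t

lemma size_step (n : ℕ) (s : ι) (t : ℝ) :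
    |p.size (n + 1) s t - p.size n s t| ≤ |p.gam n - p.diff n t| := by
  simp only [size, perm, off, Equiv.Perm.mul_apply]
  by_cases ha : p.perm n s = p.a n
  · rw [if_pos ha, ha, Equiv.swap_apply_left]
    refine le_of_eq (congrArg abs ?_)
    unfold diff; ring
  rw [if_neg ha]
  by_cases hb : p.perm n s = p.b n
  · rw [if_pos hb, hb, Equiv.swap_apply_right, abs_sub_comm (p.gam n)]
    refine le_of_eq (congrArg abs ?_)
    unfold diff; ring
  · rw [if_neg hb, Equiv.swap_apply_of_ne_of_ne ha hb, add_zero, sub_self, abs_zero]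
    exact abs_nonneg _

variable (Fr : Frame ι F)

/-- The rank one operator of the `k`-th transvection. -/
def nil (k : ℕ) : F →L[ℝ] F := (p.coef k • Fr.w (p.col k)).smulRight (Fr.v (p.row k))

lemma nil_nil (k : ℕ) (x : F) : p.nil Fr k (p.nil Fr k x) = 0 := by
  simp [nil, Fr.dual, (p.row_ne_col k).symm]

/-- The designed coefficients after `k` transvections. -/
def X : ℕ → F →L[ℝ] F
  | 0 => ContinuousLinearMap.id ℝ F
  | k + 1 => (ContinuousLinearMap.id ℝ F + p.nil Fr k).comp (X k)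

/-- The inverse of `X`. -/
def Y : ℕ → F →L[ℝ] F
  | 0 => ContinuousLinearMap.id ℝ F
  | k + 1 => (Y k).comp (ContinuousLinearMap.id ℝ F - p.nil Fr k)

lemma Y_X (k : ℕ) : ∀ x, p.Y Fr k (p.X Fr k x) = x := by
  induction k with
  | zero => intro x; rfl
  | succ k ih =>
    intro x
    simp only [X, Y, ContinuousLinearMap.comp_apply]
    conv_rhs => rw [← ih x]
    congr 1
    simp [p.nil_nil]

lemma X_Y (k : ℕ) : ∀ x, p.X Fr k (p.Y Fr k x) = x := by
  induction k with
  | zero => intro x; rfl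
  | succ k ih =>
    intro x
    simp only [X, Y, ContinuousLinearMap.comp_apply, ih]
    simp [p.nil_nil]

/-- The designed solution, in physical coordinates. -/
def M (t : ℝ) : F →L[ℝ] F := (Fr.Φ t).comp (p.X Fr (p.count t))

/-- The inverse of `M`. -/
def Minv (t : ℝ) : F →L[ℝ] F := (p.Y Fr (p.count t)).comp (Fr.Ψ t)

lemma Minv_M (t : ℝ) (x : F) : p.Minv Fr t (p.M Fr t x) = x := by
  simp [M, Minv, Fr.ΨΦ, p.Y_X]

lemma M_Minv (t : ℝ) (x : F) : p.M Fr t (p.Minv Fr t x) = x := by
  simp [M, Minv, Fr.ΦΨ, p.X_Y]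

/-- The `k`-th transvection in physical coordinates at time `t`. -/
def jump (k : ℕ) (t : ℝ) : F →L[ℝ] F := (Fr.Φ t).comp ((p.nil Fr k).comp (Fr.Ψ t))

/-- Natural size of a transvection. -/
lemma norm_jump_le (k : ℕ) (t : ℝ) {κ : ℝ}
    (hv : ‖Fr.Φ t (Fr.v (p.row k))‖ ≤ Real.exp (p.E (p.row k) t + κ))
    (hw : ‖(Fr.w (p.col k)).comp (Fr.Ψ t)‖ ≤ Real.exp (-p.E (p.col k) t + κ)) :
    ‖p.jump Fr k t‖ ≤
      Real.exp ((if k % 3 = 1 then p.gam (k / 3) - p.diff (k / 3) t
        else p.diff (k / 3) t - p.gam (k / 3)) + 2 * κ) := by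
  have e : p.jump Fr k t =
      (p.coef k • (Fr.w (p.col k)).comp (Fr.Ψ t)).smulRight (Fr.Φ t (Fr.v (p.row k))) := by
    ext x; simp [jump, nil]
  rw [e, ContinuousLinearMap.norm_smulRight_apply, norm_smul]
  refine (mul_le_mul (mul_le_mul_of_nonneg_left hw (norm_nonneg _)) hv (norm_nonneg _)
    (mul_nonneg (norm_nonneg _) (Real.exp_pos _).le)).trans (le_of_eq ?_)
  unfold coef row col diff
  split_ifs <;> simp only [norm_neg, Real.norm_eq_abs, Real.abs_exp, ← Real.exp_add] <;> congr 1 <;> ring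

/-- With margin `m` each transvection is at most `exp (-m + 2κ)` at its own time. -/
theorem norm_jump_le_margin (n i : ℕ) (hi : i < 3) {κ m : ℝ}
    (h12 : p.diff n (p.τ (3 * n)) + 2 * m ≤ p.diff n (p.τ (3 * n + 1)))
    (h23 : p.diff n (p.τ (3 * n + 2)) + m ≤ p.gam n)
    (hv : ∀ c, ‖Fr.Φ (p.τ (3 * n + i)) (Fr.v c)‖ ≤ Real.exp (p.E c (p.τ (3 * n + i)) + κ))
    (hw : ∀ c, ‖(Fr.w c).comp (Fr.Ψ (p.τ (3 * n + i)))‖ ≤ Real.exp (-p.E c (p.τ (3 * n + i)) + κ)) :
    ‖p.jump Fr (3 * n + i) (p.τ (3 * n + i))‖ ≤ Real.exp (-m + 2 * κ) := by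
  refine (p.norm_jump_le Fr _ _ (hv _) (hw _)).trans (Real.exp_le_exp.2 ?_)
  rw [show (3 * n + i) / 3 = n by omega, show (3 * n + i) % 3 = i by omega]
  unfold gam at *
  interval_cases i <;> simp only [reduceIte, Nat.add_zero, Nat.reduceEqDiff] <;> linarith

/-- `M` follows the flow: bound between transvections, by their number. -/
lemma norm_M_Minv_aux {H : ℝ → ℝ} {ε : ℕ → ℝ}
    (hfwd : ∀ s t, s ≤ t → ∀ x, ‖Fr.Φ t (Fr.Ψ s x)‖ ≤ Real.exp (H t - H s) * ‖x‖)
    (hε : ∀ k, ‖p.jump Fr k (p.τ k)‖ ≤ ε k) {s : ℝ} :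
    ∀ m, p.count s ≤ m → ∀ t, s ≤ t → (∀ k, p.count s ≤ k → k < m → p.τ k ≤ t) → ∀ x,
      ‖Fr.Φ t (p.X Fr m (p.Minv Fr s x))‖ ≤
        Real.exp (H t - H s + ∑ k ∈ Ico (p.count s) m, ε k) * ‖x‖ := by
  intro m hm
  induction m, hm using Nat.le_induction with
  | base =>
    intro t hst _ x
    simpa [Minv, p.X_Y] using hfwd s t hst x
  | succ m hm ih =>
    intro t hst hk x
    have hsτ : s ≤ p.τ m := (p.lt_τ_of_count_le hm).le
    have hτt : p.τ m ≤ t := hk m hm (Nat.lt_succ_self m)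
    set y := Fr.Φ (p.τ m) (p.X Fr m (p.Minv Fr s x)) with hy
    have hy' := ih (p.τ m) hsτ (fun k _ h2 => p.mono h2.le) x
    have e : p.X Fr (m + 1) (p.Minv Fr s x) = Fr.Ψ (p.τ m) (y + p.jump Fr m (p.τ m) y) := by
      simp [X, jump, hy, Fr.ΨΦ]
    rw [e, sum_Ico_succ_top hm]
    calc ‖Fr.Φ t (Fr.Ψ (p.τ m) (y + p.jump Fr m (p.τ m) y))‖
        ≤ Real.exp (H t - H (p.τ m)) * ‖y + p.jump Fr m (p.τ m) y‖ := hfwd _ _ hτt _
      _ ≤ Real.exp (H t - H (p.τ m)) * (Real.exp (ε m) * ‖y‖) := by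
          gcongr
          refine (norm_add_le _ _).trans ?_
          have := (p.jump Fr m (p.τ m)).le_of_opNorm_le (hε m) y
          have := mul_le_mul_of_nonneg_right (Real.add_one_le_exp (ε m)) (norm_nonneg y)
          linarith
      _ ≤ Real.exp (H t - H (p.τ m)) * (Real.exp (ε m) *
            (Real.exp (H (p.τ m) - H s + ∑ k ∈ Ico (p.count s) m, ε k) * ‖x‖)) := by gcongr
      _ = _ := by
          rw [← mul_assoc, ← mul_assoc, ← Real.exp_add, ← Real.exp_add]
          congr 2; ring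

/-- Forward bound for the designed solution. -/
theorem norm_M_Minv_le {H : ℝ → ℝ} {ε : ℕ → ℝ}
    (hfwd : ∀ s t, s ≤ t → ∀ x, ‖Fr.Φ t (Fr.Ψ s x)‖ ≤ Real.exp (H t - H s) * ‖x‖)
    (hε : ∀ k, ‖p.jump Fr k (p.τ k)‖ ≤ ε k) {s t : ℝ} (hst : s ≤ t) (x : F) :
    ‖p.M Fr t (p.Minv Fr s x)‖ ≤
      Real.exp (H t - H s + ∑ k ∈ Ico (p.count s) (p.count t), ε k) * ‖x‖ :=
  p.norm_M_Minv_aux Fr hfwd hε _ (p.count_mono hst) t hst (fun _ _ h => p.τ_le_of_lt_count h) x

/-- Backward bound, by the lower barrier. -/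
lemma norm_back_aux {L : ℝ → ℝ} {ε : ℕ → ℝ}
    (hbwd : ∀ s t, s ≤ t → ∀ x, ‖Fr.Φ s (Fr.Ψ t x)‖ ≤ Real.exp (L s - L t) * ‖x‖)
    (hε : ∀ k, ‖p.jump Fr k (p.τ k)‖ ≤ ε k) {s : ℝ} :
    ∀ m, p.count s ≤ m → ∀ t, s ≤ t → (∀ k, p.count s ≤ k → k < m → p.τ k ≤ t) → ∀ x,
      ‖p.M Fr s (p.Y Fr m (Fr.Ψ t x))‖ ≤
        Real.exp (L s - L t + ∑ k ∈ Ico (p.count s) m, ε k) * ‖x‖ := by
  intro m hm
  induction m, hm using Nat.le_induction with
  | base =>
    intro t hst _ x
    simpa [M, p.X_Y] using hbwd s t hst x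
  | succ m hm ih =>
    intro t hst hk x
    have hsτ : s ≤ p.τ m := (p.lt_τ_of_count_le hm).le
    have hτt : p.τ m ≤ t := hk m hm (Nat.lt_succ_self m)
    set y := Fr.Φ (p.τ m) (Fr.Ψ t x) with hy
    have e : p.Y Fr (m + 1) (Fr.Ψ t x) =
        p.Y Fr m (Fr.Ψ (p.τ m) (y - p.jump Fr m (p.τ m) y)) := by
      simp [Y, jump, hy, Fr.ΨΦ]
    rw [e, sum_Ico_succ_top hm]
    refine (ih (p.τ m) hsτ (fun k _ h2 => p.mono h2.le) _).trans ?_
    calc _ ≤ Real.exp (L s - L (p.τ m) + ∑ k ∈ Ico (p.count s) m, ε k) *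
          (Real.exp (ε m) * (Real.exp (L (p.τ m) - L t) * ‖x‖)) := by
          gcongr
          refine (norm_sub_le _ _).trans ?_
          have h1 := (p.jump Fr m (p.τ m)).le_of_opNorm_le (hε m) y
          have h2 := mul_le_mul_of_nonneg_right (Real.add_one_le_exp (ε m)) (norm_nonneg y)
          have h3 := mul_le_mul_of_nonneg_left (hbwd _ _ hτt x) (Real.exp_pos (ε m)).le
          linarith
      _ = _ := by
          rw [← mul_assoc, ← mul_assoc, ← Real.exp_add, ← Real.exp_add]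
          congr 2; ring

/-- Backward bound for the designed solution. -/
theorem norm_back_le {L : ℝ → ℝ} {ε : ℕ → ℝ}
    (hbwd : ∀ s t, s ≤ t → ∀ x, ‖Fr.Φ s (Fr.Ψ t x)‖ ≤ Real.exp (L s - L t) * ‖x‖)
    (hε : ∀ k, ‖p.jump Fr k (p.τ k)‖ ≤ ε k) {s t : ℝ} (hst : s ≤ t) (x : F) :
    ‖p.M Fr s (p.Minv Fr t x)‖ ≤
      Real.exp (L s - L t + ∑ k ∈ Ico (p.count s) (p.count t), ε k) * ‖x‖ :=
  p.norm_back_aux Fr hbwd hε _ (p.count_mono hst) t hst (fun _ _ h => p.τ_le_of_lt_count h) x

/-- Between transpositions every column is a multiple of a basis vector; inside a transposition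
it is a combination of the old and the new one. -/
lemma X_column (n : ℕ) (s : ι) :
    (∃ c : ℝ, |c| = Real.exp (p.off n s) ∧ p.X Fr (3 * n) (Fr.v s) = c • Fr.v (p.perm n s)) ∧
    ∀ i ≤ 3, ∃ c d : ℝ, |c| ≤ Real.exp (p.off n s) ∧ |d| ≤ Real.exp (p.off (n + 1) s) ∧
      p.X Fr (3 * n + i) (Fr.v s) = c • Fr.v (p.perm n s) + d • Fr.v (p.perm (n + 1) s) := by
  have step : ∀ m (q : ι), (ContinuousLinearMap.id ℝ F + p.nil Fr m) (Fr.v q) =
      Fr.v q + (if p.col m = q then p.coef m else 0) • Fr.v (p.row m) := fun m q => by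
    simp [nil, Fr.dual]
  have three : ∀ n, (∃ c : ℝ, |c| = Real.exp (p.off n s) ∧
        p.X Fr (3 * n) (Fr.v s) = c • Fr.v (p.perm n s)) →
      (∀ i ≤ 3, ∃ c d : ℝ, |c| ≤ Real.exp (p.off n s) ∧ |d| ≤ Real.exp (p.off (n + 1) s) ∧
        p.X Fr (3 * n + i) (Fr.v s) = c • Fr.v (p.perm n s) + d • Fr.v (p.perm (n + 1) s)) ∧
      ∃ c : ℝ, |c| = Real.exp (p.off (n + 1) s) ∧
        p.X Fr (3 * (n + 1)) (Fr.v s) = c • Fr.v (p.perm (n + 1) s) := by
    rintro n ⟨c, hc, hX⟩
    have hX1 : ∀ m, p.X Fr (m + 1) (Fr.v s) =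
        (ContinuousLinearMap.id ℝ F + p.nil Fr m) (p.X Fr m (Fr.v s)) := fun m => rfl
    have r0 : p.row (3 * n) = p.a n ∧ p.col (3 * n) = p.b n ∧
        p.coef (3 * n) = Real.exp (-p.gam n) := by simp [row, col, coef]
    have r1 : p.row (3 * n + 1) = p.b n ∧ p.col (3 * n + 1) = p.a n ∧
        p.coef (3 * n + 1) = -Real.exp (p.gam n) := by
      simp [row, col, coef, show (3 * n + 1) % 3 = 1 by omega, show (3 * n + 1) / 3 = n by omega]
    have r2 : p.row (3 * n + 2) = p.a n ∧ p.col (3 * n + 2) = p.b n ∧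
        p.coef (3 * n + 2) = Real.exp (-p.gam n) := by
      simp [row, col, coef, show (3 * n + 2) % 3 = 2 by omega, show (3 * n + 2) / 3 = n by omega]
    have hab := p.a_ne_b n
    have he : ∀ g : ℝ, Real.exp (-g) * Real.exp g = 1 := fun g => by rw [← Real.exp_add]; simp
    set g := p.gam n with hg
    have hperm : p.perm (n + 1) s = Equiv.swap (p.a n) (p.b n) (p.perm n s) := rfl
    by_cases hA : p.perm n s = p.a n
    · have hoff : p.off (n + 1) s = p.off n s + g := by simp only [off, if_pos hA, hg]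
      rw [hA, Equiv.swap_apply_left] at hperm
      rw [hA] at hX ⊢
      rw [hperm, hoff, Real.exp_add]
      have h1 : p.X Fr (3 * n + 1) (Fr.v s) = c • Fr.v (p.a n) := by
        rw [hX1, hX, map_smul, step, r0.1, r0.2.1, if_neg hab.symm]; simp
      have h2 : p.X Fr (3 * n + 1 + 1) (Fr.v s) =
          c • Fr.v (p.a n) + (-(c * Real.exp g)) • Fr.v (p.b n) := by
        rw [hX1, h1, map_smul, step, r1.1, r1.2.1, r1.2.2, if_pos rfl]; module
      have h3 : p.X Fr (3 * n + 2 + 1) (Fr.v s) =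
          (0 : ℝ) • Fr.v (p.a n) + (-(c * Real.exp g)) • Fr.v (p.b n) := by
        rw [hX1, h2, map_add, map_smul, map_smul, step, step, r2.1, r2.2.1, r2.2.2, if_pos rfl,
          if_neg hab.symm]
        match_scalars <;> (first | ring1 | linear_combination (-c) * he g)
      have hd : |(-(c * Real.exp g))| ≤ Real.exp (p.off n s) * Real.exp g := by
        rw [abs_neg, abs_mul, hc, Real.abs_exp]
      refine ⟨fun i hi => ?_, -(c * Real.exp g), by rw [abs_neg, abs_mul, hc, Real.abs_exp],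
        by rw [show 3 * (n + 1) = 3 * n + 2 + 1 by omega, h3]; simp⟩
      interval_cases i
      · exact ⟨c, 0, hc.le, by simp; positivity, by simp [hX]⟩
      · exact ⟨c, 0, hc.le, by simp; positivity, by simp [h1]⟩
      · exact ⟨c, _, hc.le, hd, h2⟩
      · exact ⟨0, _, by simp; positivity, hd, h3⟩
    by_cases hB : p.perm n s = p.b n
    · have hoff : p.off (n + 1) s = p.off n s - g := by
        simp only [off, if_neg hA, if_pos hB, hg]; ring
      rw [hB, Equiv.swap_apply_right] at hperm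
      rw [hB] at hX ⊢
      rw [hperm, hoff, sub_eq_add_neg, Real.exp_add]
      have h1 : p.X Fr (3 * n + 1) (Fr.v s) =
          c • Fr.v (p.b n) + (c * Real.exp (-g)) • Fr.v (p.a n) := by
        rw [hX1, hX, map_smul, step, r0.1, r0.2.1, r0.2.2, if_pos rfl]; module
      have h2 : p.X Fr (3 * n + 1 + 1) (Fr.v s) =
          (0 : ℝ) • Fr.v (p.b n) + (c * Real.exp (-g)) • Fr.v (p.a n) := by
        rw [hX1, h1, map_add, map_smul, map_smul, step, step, r1.1, r1.2.1, r1.2.2, if_pos rfl,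
          if_neg hab]
        match_scalars <;> (first | ring1 | linear_combination (-c) * he g)
      have h3 : p.X Fr (3 * n + 2 + 1) (Fr.v s) =
          (0 : ℝ) • Fr.v (p.b n) + (c * Real.exp (-g)) • Fr.v (p.a n) := by
        rw [hX1, h2, map_add, map_smul, map_smul, step, step, r2.1, r2.2.1, r2.2.2, if_pos rfl,
          if_neg hab.symm]
        module
      have hd : |c * Real.exp (-g)| ≤ Real.exp (p.off n s) * Real.exp (-g) := by
        rw [abs_mul, hc, Real.abs_exp]
      refine ⟨fun i hi => ?_, c * Real.exp (-g), by rw [abs_mul, hc, Real.abs_exp],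
        by rw [show 3 * (n + 1) = 3 * n + 2 + 1 by omega, h3]; simp⟩
      interval_cases i
      · exact ⟨c, 0, hc.le, by simp; positivity, by simp [hX]⟩
      · exact ⟨c, _, hc.le, hd, h1⟩
      · exact ⟨0, _, by simp; positivity, hd, h2⟩
      · exact ⟨0, _, by simp; positivity, hd, h3⟩
    · have hoff : p.off (n + 1) s = p.off n s := by simp only [off, if_neg hA, if_neg hB]; ring
      rw [Equiv.swap_apply_of_ne_of_ne hA hB] at hperm
      rw [hperm, hoff]
      have hz : ∀ i ≤ 3, p.X Fr (3 * n + i) (Fr.v s) = c • Fr.v (p.perm n s) := by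
        intro i
        induction i with
        | zero => intro _; exact hX
        | succ i ih =>
          intro hi
          rw [← Nat.add_assoc, hX1, ih (by omega), map_smul, step, if_neg, zero_smul, add_zero]
          unfold col
          rw [show (3 * n + i) / 3 = n by omega]
          split_ifs
          · exact fun h => hA h.symm
          · exact fun h => hB h.symm
      exact ⟨fun i hi => ⟨c, 0, hc.le, by simp; positivity, by simp [hz i hi]⟩,
        c, hc, hz 3 le_rfl⟩
  have main : ∀ n, ∃ c : ℝ, |c| = Real.exp (p.off n s) ∧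
      p.X Fr (3 * n) (Fr.v s) = c • Fr.v (p.perm n s) := by
    intro n
    induction n with
    | zero => exact ⟨1, by simp [off], by simp [X, perm]⟩
    | succ n ih => exact (three n ih).2
  exact ⟨main n, (three n (main n)).1⟩

/-- Pointwise bound for a column. -/
lemma norm_M_column (n i : ℕ) (hi : i ≤ 3) (s : ι) (t κ : ℝ) (ht : p.count t = 3 * n + i)
    (hv : ∀ c, ‖Fr.Φ t (Fr.v c)‖ ≤ Real.exp (p.E c t + κ)) :
    ‖p.M Fr t (Fr.v s)‖ ≤
      Real.exp κ * (Real.exp (p.size n s t) + Real.exp (p.size (n + 1) s t)) := by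
  obtain ⟨c, d, hc, hd, h⟩ := (p.X_column Fr n s).2 i hi
  simp only [M, ContinuousLinearMap.comp_apply, ht, h, map_add, map_smul]
  refine (norm_add_le _ _).trans ?_
  simp only [norm_smul, Real.norm_eq_abs, mul_add, size, Real.exp_add]
  have h1 := mul_le_mul hc (hv (p.perm n s)) (norm_nonneg _) (Real.exp_pos _).le
  have h2 := mul_le_mul hd (hv (p.perm (n + 1) s)) (norm_nonneg _) (Real.exp_pos _).le
  simp only [Real.exp_add] at h1 h2
  linarith

end Plan

/-- Time budget: the transpositions of a period take place in `[P i, P i + exc i]`, the rest of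
the period is a round stay. -/
structure Budget (p : Plan ι) where
  /-- Period starts. -/
  P : ℕ → ℝ
  /-- Excursion lengths. -/
  exc : ℕ → ℝ
  /-- Error of the exponent on a stay. -/
  err : ℕ → ℝ
  /-- Rate of a label in a stay. -/
  rate : ι → ℝ
  /-- A bound for all rates. -/
  R : ℝ
  P_nonneg : 0 ≤ P 0
  exc_nonneg : ∀ i, 0 ≤ exc i
  exc_le : ∀ i, exc i ≤ P (i + 1) - P i
  len_mono : Monotone fun i => P (i + 1) - P i
  len_pos : ∀ i, 0 < P (i + 1) - P i
  len_small : (fun i => P (i + 1) - P i) =o[atTop] P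
  exc_small : exc =o[atTop] fun i => P (i + 1) - P i
  err_small : err =o[atTop] fun i => P (i + 1) - P i
  inside : ∀ i, ∀ r < p.N, P i ≤ p.τ (3 * (i * p.N + r)) ∧
    p.τ (3 * (i * p.N + r) + 2) ≤ P i + exc i
  lip : ∀ a s t, |p.E a t - p.E a s| ≤ R * |t - s|
  rate_le : ∀ a, |rate a| ≤ R
  stay : ∀ a i, p.E a (P (i + 1)) - p.E a (P i + exc i) ≤
    rate a * (P (i + 1) - (P i + exc i)) + err i

namespace Budget

variable {p : Plan ι} (b : Budget p)

omit [DecidableEq ι] in
lemma P_mono : Monotone b.P :=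
  monotone_nat_of_le_succ fun i => by linarith [b.len_pos i]

omit [DecidableEq ι] in
lemma diff_lip (n : ℕ) (s t : ℝ) : |p.diff n t - p.diff n s| ≤ 2 * b.R * |t - s| := by
  have h1 := b.lip (p.a n) s t
  have h2 := b.lip (p.b n) s t
  rw [abs_le] at h1 h2 ⊢
  unfold Plan.diff
  constructor <;> linarith [h1.1, h1.2, h2.1, h2.2]

omit [DecidableEq ι] in
lemma R_nonneg (a : ι) : 0 ≤ b.R := (abs_nonneg _).trans (b.rate_le a)

lemma size_excursion (i : ℕ) (s : ι) {t : ℝ} (h0 : b.P i ≤ t) (h1 : t ≤ b.P i + b.exc i) :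
    ∀ r ≤ p.N, p.size (i * p.N + r) s t ≤ p.size (i * p.N) s t + 2 * b.R * b.exc i * r := by
  intro r
  induction r with
  | zero => intro _; simp
  | succ r ih =>
    intro hr
    have h2 := b.inside i r (by omega)
    have hm1 := p.mono (show 3 * (i * p.N + r) ≤ 3 * (i * p.N + r) + 1 by omega)
    have hm2 := p.mono (show 3 * (i * p.N + r) + 1 ≤ 3 * (i * p.N + r) + 2 by omega)
    have hR := b.R_nonneg s
    have key : ∀ u, b.P i ≤ u → u ≤ b.P i + b.exc i →
        |p.diff (i * p.N + r) u - p.diff (i * p.N + r) t| ≤ 2 * b.R * b.exc i := fun u hu hu' =>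
      (b.diff_lip _ t u).trans (mul_le_mul_of_nonneg_left
        (abs_le.2 ⟨by linarith, by linarith⟩) (by linarith))
    have ka := key _ h2.1 (by linarith [h2.2])
    have kb := key _ (h2.1.trans hm1) (hm2.trans h2.2)
    have hg : |p.gam (i * p.N + r) - p.diff (i * p.N + r) t| ≤ 2 * b.R * b.exc i := by
      rw [abs_le] at ka kb ⊢
      unfold Plan.gam
      constructor <;> linarith [ka.1, ka.2, kb.1, kb.2]
    have hs := abs_le.1 ((p.size_step (i * p.N + r) s t).trans hg)
    have := ih (by omega)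
    push_cast [← Nat.add_assoc]
    linarith [hs.2]

lemma size_period (s : ι) (i : ℕ) :
    p.size ((i + 1) * p.N) s (b.P (i + 1)) ≤ p.size (i * p.N) s (b.P i) +
      (2 * p.N + 2) * b.R * b.exc i +
      b.rate ((p.cyc ^ (i + 1)) s) * (b.P (i + 1) - b.P i) + b.err i := by
  have h1 := b.size_excursion i s (t := b.P i + b.exc i) (by linarith [b.exc_nonneg i]) le_rfl p.N le_rfl
  rw [Nat.succ_mul] at *
  have h2 := (abs_le.1 (b.lip (p.perm (i * p.N) s) (b.P i) (b.P i + b.exc i))).2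
  rw [add_sub_cancel_left, abs_of_nonneg (b.exc_nonneg i)] at h2
  have hp : p.perm (i * p.N + p.N) = p.cyc ^ (i + 1) := by
    rw [← Nat.succ_mul, p.perm_period]
  have h3 := b.stay ((p.cyc ^ (i + 1)) s) i
  have h4 := abs_le.1 (b.rate_le ((p.cyc ^ (i + 1)) s))
  have h5 := mul_le_mul_of_nonneg_right (neg_le.1 h4.1) (b.exc_nonneg i)
  simp only [Plan.size, hp] at h1 ⊢
  linarith

omit [DecidableEq ι] in
/-- Weighted sums of a periodic sequence of nonpositive mean against monotone weights. -/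
lemma periodic_sum_le {g L : ℕ → ℝ} {q : ℕ} (hq : 0 < q) {G : ℝ} (hg : ∀ i, |g i| ≤ G)
    (hper : ∀ i, g (i + q) = g i) (hmean : ∑ i ∈ range q, g i ≤ 0) (hL : Monotone L)
    (hL0 : 0 ≤ L 0) : ∃ K, ∀ n, ∑ i ∈ range n, g i * L i ≤ K * L n := by
  set μ := (∑ i ∈ range q, g i) / q
  set h := fun i => g i - μ
  have hhper : ∀ i, h (i + q) = h i := fun i => by simp [h, hper]
  have hzero : ∑ i ∈ range q, h i = 0 := by
    simp only [h, sum_sub_distrib, sum_const, card_range, nsmul_eq_mul, μ]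
    field_simp; ring
  have hbd : ∀ n, |∑ i ∈ range n, h i| ≤ q * (G + |μ|) := by
    have hshift : ∀ n, ∑ i ∈ range (n + q), h i = ∑ i ∈ range n, h i := by
      intro n
      induction n with
      | zero => simpa using hzero
      | succ n ih => rw [Nat.succ_add, sum_range_succ, sum_range_succ, ih, hhper]
    intro n
    induction n using Nat.strong_induction_on with
    | _ n ih =>
      rcases lt_or_ge n q with hn | hn
      · refine (abs_sum_le_sum_abs _ _).trans
          ((sum_le_card_nsmul _ _ (G + |μ|) fun i _ => ?_).trans ?_)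
        · exact (abs_sub _ _).trans (by linarith [hg i])
        · rw [card_range, nsmul_eq_mul]
          exact mul_le_mul_of_nonneg_right (by exact_mod_cast hn.le)
            (add_nonneg ((abs_nonneg _).trans (hg 0)) (abs_nonneg _))
      · obtain ⟨m, rfl⟩ := Nat.exists_eq_add_of_le hn
        rw [add_comm, hshift]
        exact ih m (by omega)
  set B := (q : ℝ) * (G + |μ|)
  refine ⟨2 * B, fun n => ?_⟩
  have hL' : ∀ i, 0 ≤ L i := fun i => hL0.trans (hL (Nat.zero_le i))
  have key : ∀ n, ∑ i ∈ range n, h i * L i ≤ (∑ i ∈ range n, h i + B) * L n := by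
    intro n
    induction n with
    | zero => simpa using mul_nonneg (le_trans (abs_nonneg _) (hbd 0)) hL0
    | succ n ih =>
      have h1 := mul_le_mul_of_nonneg_left (hL (Nat.le_succ n))
        (show 0 ≤ ∑ i ∈ range (n + 1), h i + B by linarith [(abs_le.1 (hbd (n + 1))).1])
      rw [sum_range_succ, sum_range_succ] at *
      linarith
  have hμ : μ ≤ 0 := div_nonpos_of_nonpos_of_nonneg hmean q.cast_nonneg
  calc ∑ i ∈ range n, g i * L i ≤ ∑ i ∈ range n, h i * L i :=
        sum_le_sum fun i _ => mul_le_mul_of_nonneg_right (by simp [h]; linarith) (hL' i)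
    _ ≤ _ := (key n).trans
        (mul_le_mul_of_nonneg_right (by linarith [(abs_le.1 (hbd n)).2]) (hL' n))

/-- Log growth of a column at the period starts. -/
lemma size_start_le (s : ι) {μ : ℝ} {q : ℕ} (hq : 0 < q) (hcyc : p.cyc ^ q = 1)
    (hmean : ∑ i ∈ range q, b.rate ((p.cyc ^ i) s) ≤ μ * q) {δ : ℝ} (hδ : 0 < δ) :
    ∃ C, ∀ n, p.size (n * p.N) s (b.P n) ≤ (μ + δ) * b.P n + C := by
  have hR := b.R_nonneg s
  set L := fun i => b.P (i + 1) - b.P i with hL
  have hper : ∀ i, p.cyc ^ (i + q) = p.cyc ^ i := fun i => by rw [pow_add, hcyc, mul_one]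
  obtain ⟨K, hK⟩ := periodic_sum_le (g := fun i => b.rate ((p.cyc ^ (i + 1)) s) - μ) (L := L) hq
    (G := b.R + |μ|) (fun i => (abs_sub _ _).trans (by linarith [b.rate_le ((p.cyc ^ (i + 1)) s)]))
    (fun i => by simp only [show i + q + 1 = i + 1 + q by omega, hper]) (by
      rw [sum_sub_distrib, sum_const, card_range, nsmul_eq_mul]
      have h := sum_range_succ' (fun i => b.rate ((p.cyc ^ i) s)) q
      rw [sum_range_succ, hcyc, pow_zero] at h
      linarith) b.len_mono (b.len_pos 0).le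
  set e := fun i => (2 * p.N + 2) * b.R * b.exc i + b.err i with he
  have hrec : ∀ n, p.size (n * p.N) s (b.P n) ≤ p.size 0 s (b.P 0) + μ * (b.P n - b.P 0) +
      ∑ i ∈ range n, e i + ∑ i ∈ range n, (b.rate ((p.cyc ^ (i + 1)) s) - μ) * L i := by
    intro n
    induction n with
    | zero => simp
    | succ n ih =>
      rw [sum_range_succ, sum_range_succ]
      have := b.size_period s n
      simp only [he, hL] at *
      linarith
  have he1 : e =o[atTop] L := (b.exc_small.const_mul_left _).add b.err_small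
  have hsumL : ∀ n, ∑ i ∈ range n, L i = b.P n - b.P 0 := fun n => sum_range_sub b.P n
  have hlim : Tendsto (fun n => ∑ i ∈ range n, L i) atTop atTop := by
    refine tendsto_atTop_mono (fun n => ?_)
      (tendsto_natCast_atTop_atTop.atTop_mul_const (b.len_pos 0))
    simpa using card_nsmul_le_sum (range n) L (L 0) fun i _ => b.len_mono (Nat.zero_le i)
  have hsum := he1.sum_range (fun n => (b.len_pos n).le) hlim
  simp only [hsumL] at hsum
  have hsmall := b.len_small.const_mul_left K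
  obtain ⟨n₀, hn₀⟩ := eventually_atTop.1
    ((hsum.bound (half_pos hδ)).and (hsmall.bound (half_pos hδ)))
  set c0 := fun n => p.size (n * p.N) s (b.P n) - (μ + δ) * b.P n with hc0
  refine ⟨max (p.size 0 s (b.P 0) - μ * b.P 0)
    (if h : 0 < n₀ then (range n₀).sup' (nonempty_range_iff.2 h.ne') c0 else 0), fun n => ?_⟩
  rcases lt_or_ge n n₀ with hn | hn
  · rw [dif_pos (by omega)]
    have := le_sup' c0 (mem_range.2 hn)
    have := le_max_right (p.size 0 s (b.P 0) - μ * b.P 0)
      ((range n₀).sup' (nonempty_range_iff.2 (show n₀ ≠ 0 by omega)) c0)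
    simp only [hc0] at *
    linarith
  · obtain ⟨h1, h2⟩ := hn₀ n hn
    have hP : 0 ≤ b.P n := b.P_nonneg.trans (b.P_mono (Nat.zero_le n))
    simp only [Real.norm_eq_abs, abs_of_nonneg hP,
      abs_of_nonneg (sub_nonneg.2 (b.P_mono (Nat.zero_le n)))] at h1 h2
    have := hrec n
    have := hK n
    have := le_max_left (p.size 0 s (b.P 0) - μ * b.P 0)
      (if h : 0 < n₀ then (range n₀).sup' (nonempty_range_iff.2 h.ne') c0 else 0)
    have := mul_nonneg (half_pos hδ).le b.P_nonneg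
    linarith [le_abs_self (∑ i ∈ range n, e i), le_abs_self (K * L n)]

/-- The designed solution grows at most at the mean rate. -/
theorem growth (b : Budget p) (Fr : Frame ι F) {κ : ℝ → ℝ}
    (hκ : ∀ δ > 0, ∃ C, ∀ t ≥ 0, κ t ≤ δ * t + C)
    (hv : ∀ t ≥ 0, ∀ a, ‖Fr.Φ t (Fr.v a)‖ ≤ Real.exp (p.E a t + κ t))
    (s : ι) {μ : ℝ} (hμ : 0 ≤ μ) {q : ℕ} (hq : 0 < q) (hcyc : p.cyc ^ q = 1)
    (hmean : ∑ i ∈ range q, b.rate ((p.cyc ^ i) s) ≤ μ * q) {δ : ℝ} (hδ : 0 < δ) :
    ∃ C, ∀ t ≥ 0, ‖p.M Fr t (Fr.v s)‖ ≤ C * Real.exp ((μ + δ) * t) := by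
  obtain ⟨Cκ, hCκ⟩ := hκ (δ / 4) (by linarith)
  obtain ⟨C, hC⟩ := b.size_start_le s hq hcyc hmean (show 0 < δ / 4 by linarith)
  set L := fun i => b.P (i + 1) - b.P i with hL
  have hR := b.R_nonneg s
  set c1 := 2 * b.R * p.N + b.R with hc1
  have hc10 : 0 ≤ c1 := by positivity
  obtain ⟨C', hC'⟩ : ∃ C', ∀ i, c1 * L i ≤ δ / 4 * b.P i + C' := by
    obtain ⟨n₀, hn₀⟩ := eventually_atTop.1
      ((b.len_small.const_mul_left c1).bound (show 0 < δ / 4 by linarith))
    refine ⟨max 0 (c1 * L n₀), fun i => ?_⟩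
    have hP : 0 ≤ b.P i := b.P_nonneg.trans (b.P_mono (Nat.zero_le i))
    rcases lt_or_ge i n₀ with hi | hi
    · have h1 := mul_le_mul_of_nonneg_left (b.len_mono hi.le) hc10
      have := le_max_right 0 (c1 * L n₀)
      have := mul_nonneg (show 0 ≤ δ / 4 by linarith) hP
      simp only [hL] at *
      linarith
    · have h1 := hn₀ i hi
      rw [Real.norm_eq_abs, Real.norm_eq_abs, abs_of_nonneg hP] at h1
      have := le_max_left 0 (c1 * L n₀)
      linarith [le_abs_self (c1 * L i)]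
  have hsize : ∀ i r, r ≤ p.N → ∀ t, b.P i ≤ t → t ≤ b.P (i + 1) →
      p.size (i * p.N + r) s t ≤ (μ + δ / 2) * t + (C + C') := by
    intro i r hr t h0 h1
    have e1 := b.size_excursion i s (t := b.P i) le_rfl (by linarith [b.exc_nonneg i]) r hr
    have e2 := (abs_le.1 (b.lip (p.perm (i * p.N + r) s) (b.P i) t)).2
    rw [abs_of_nonneg (sub_nonneg.2 h0)] at e2
    have e3 := mul_le_mul_of_nonneg_left (show t - b.P i ≤ L i by simp only [hL]; linarith) hR
    have e4 : 2 * b.R * b.exc i * r ≤ 2 * b.R * L i * p.N := by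
      gcongr
      · exact mul_nonneg (by linarith) (b.len_pos i).le
      · exact b.exc_le i
    have e5 := hC i
    have e6 := hC' i
    have e7 : (μ + δ / 2) * b.P i ≤ (μ + δ / 2) * t := mul_le_mul_of_nonneg_left h0 (by linarith)
    simp only [Plan.size, hc1] at *
    linarith
  set C0 := p.E s 0 + b.R * b.P 0 + b.R * |b.P 0| with hC0
  refine ⟨max (2 * Real.exp (Cκ + (C + C'))) (Real.exp (C0 + Cκ)), fun t ht => ?_⟩
  rcases lt_or_ge t (b.P 0) with h0 | h0
  · have hcount : p.count t = 0 := by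
      have := (b.inside 0 0 p.N_pos).1
      simp only [zero_mul, add_zero, mul_zero] at this
      exact Nat.le_zero.1 (p.count_le (h0.trans_le this))
    have e : p.M Fr t (Fr.v s) = Fr.Φ t (Fr.v s) := by
      simp [Plan.M, hcount, Plan.X]
    have h1 := (abs_le.1 (b.lip s 0 t)).2
    rw [sub_zero, abs_of_nonneg ht] at h1
    have h2 := mul_le_mul_of_nonneg_left h0.le hR
    have h3 := mul_nonneg hR (abs_nonneg (b.P 0))
    have h4 := hCκ t ht
    have h5 : 0 ≤ (μ + δ * (3 / 4)) * t := mul_nonneg (by linarith) ht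
    calc _ ≤ Real.exp (p.E s t + κ t) := e ▸ hv t ht s
      _ ≤ Real.exp (C0 + Cκ) * Real.exp ((μ + δ) * t) := by
          rw [← Real.exp_add, Real.exp_le_exp]; simp only [hC0]; linarith
      _ ≤ _ := mul_le_mul_of_nonneg_right (le_max_right _ _) (Real.exp_pos _).le
  obtain ⟨i, hi1, hi2⟩ : ∃ i, b.P i ≤ t ∧ t < b.P (i + 1) := by
    have hex : ∃ n, t < b.P n := by
      obtain ⟨n, hn⟩ := exists_nat_gt ((t - b.P 0) / (b.P 1 - b.P 0))
      refine ⟨n, ?_⟩
      rw [div_lt_iff₀ (b.len_pos 0)] at hn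
      have h := card_nsmul_le_sum (range n) L (L 0) fun i _ => b.len_mono (Nat.zero_le i)
      rw [card_range, nsmul_eq_mul, sum_range_sub b.P n] at h
      simp only [hL] at h
      linarith
    cases hf : Nat.find hex with
    | zero => exact absurd (hf ▸ Nat.find_spec hex) (not_lt.2 h0)
    | succ m =>
      exact ⟨m, not_lt.1 (Nat.find_min hex (by omega)), hf ▸ Nat.find_spec hex⟩
  have hlo : 3 * (i * p.N) ≤ p.count t := p.le_count fun m hm => by
    obtain ⟨j, rfl⟩ : ∃ j, i = j + 1 := ⟨i - 1, by rcases i with _ | j; simp at hm; rfl⟩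
    have h1 := (b.inside j (p.N - 1) (by have := p.N_pos; omega)).2
    have h2 := p.mono (show m ≤ 3 * (j * p.N + (p.N - 1)) + 2 by
      have := p.N_pos; rw [add_mul, one_mul] at hm; omega)
    linarith [b.exc_le j]
  have hhi : p.count t ≤ 3 * ((i + 1) * p.N) := p.count_le (by
    have := (b.inside (i + 1) 0 p.N_pos).1
    simp only [add_zero] at this
    linarith)
  rw [add_mul, one_mul] at hhi
  obtain ⟨r, j, hr, hj, hk⟩ : ∃ r j, r < p.N ∧ j ≤ 3 ∧ p.count t = 3 * (i * p.N + r) + j := by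
    refine ⟨min ((p.count t - 3 * (i * p.N)) / 3) (p.N - 1),
      p.count t - 3 * (i * p.N + min ((p.count t - 3 * (i * p.N)) / 3) (p.N - 1)), ?_, ?_, ?_⟩ <;>
    · have := p.N_pos; omega
  have hb := p.norm_M_column Fr (i * p.N + r) j hj s t (κ t) hk (hv t ht)
  have h1 := hsize i r hr.le t hi1 hi2.le
  have h2 := hsize i (r + 1) hr t hi1 hi2.le
  rw [← Nat.add_assoc] at h2
  have h4 := hCκ t ht
  have h6 : 0 ≤ δ * t := mul_nonneg hδ.le ht
  calc _ ≤ _ := hb
    _ ≤ Real.exp (δ / 4 * t + Cκ) * (Real.exp ((μ + δ / 2) * t + (C + C')) +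
          Real.exp ((μ + δ / 2) * t + (C + C'))) := by gcongr
    _ = 2 * Real.exp (Cκ + (C + C')) * Real.exp ((μ + δ * (3 / 4)) * t) := by
        rw [← two_mul, mul_left_comm, ← Real.exp_add, mul_assoc, ← Real.exp_add]
        congr 2; ring
    _ ≤ 2 * Real.exp (Cκ + (C + C')) * Real.exp ((μ + δ) * t) := by
        gcongr; linarith
    _ ≤ _ := mul_le_mul_of_nonneg_right (le_max_left _ _) (Real.exp_pos _).le

end Budget

end

end Vale.Agent.P225.Growth
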