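import Vale.Agent.P225.Sched.Potential
import Vale.Agent.P225.Sched.Growth

/-!
P225 Sched: the labels and the cycle of one period (`k = 100`).

A label is a degree `1 ≤ j ≤ 101`, a weight `m ≤ j` of the same parity and an index below the
block dimension less one. `Cross a b z` says that `a` has smaller exponent than `b` when round and
larger exponent at the right squash `z`, with margin, near the final radius. `exists_cycle` gives
a list of crossings along a spanning tree of the labels of degree `≥ 50`; the product of these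
transpositions is one cycle there, on which the mean round exponent is at most `99`.
-/

namespace Vale.Agent.P225.Sched

open Finset Equiv

noncomputable section

/-- The dimension of the weight block `m` of degree `j`. -/
def blockDim (j m : ℕ) : ℕ := if m = 0 then j + 1 else 2 * (j + 1)

/-- The labels: degree less one, half the weight, index in the block less one vector. -/
def Label : Type :=
  Σ d : Fin 101, Σ k : Fin ((d.1 + 1) / 2 + 1),
    Fin (blockDim (d.1 + 1) (2 * k.1 + (d.1 + 1) % 2) - 1)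

instance : DecidableEq Label :=
  inferInstanceAs (DecidableEq (Σ d : Fin 101, Σ k : Fin ((d.1 + 1) / 2 + 1),
    Fin (blockDim (d.1 + 1) (2 * k.1 + (d.1 + 1) % 2) - 1)))

instance : Finite Label :=
  inferInstanceAs (Finite (Σ d : Fin 101, Σ k : Fin ((d.1 + 1) / 2 + 1),
    Fin (blockDim (d.1 + 1) (2 * k.1 + (d.1 + 1) % 2) - 1)))

/-- Taken opaque, so that the enumeration is never unfolded. -/
instance : Fintype Label := Fintype.ofFinite _

namespace Label

/-- The degree. -/
def deg (x : Label) : ℕ := x.1.1 + 1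

/-- The weight. -/
def wt (x : Label) : ℕ := 2 * x.2.1.1 + (x.1.1 + 1) % 2

/-- The index in the block less one vector. -/
def idx (x : Label) : Fin (blockDim x.deg x.wt - 1) := x.2.2

/-- A label from degree less one, half weight and index. -/
def equivSigma : Label ≃ Σ d : Fin 101, Σ k : Fin ((d.1 + 1) / 2 + 1),
    Fin (blockDim (d.1 + 1) (2 * k.1 + (d.1 + 1) % 2) - 1) := Equiv.refl _

lemma one_le_deg (x : Label) : 1 ≤ x.deg := Nat.le_add_left _ _

lemma deg_le (x : Label) : x.deg ≤ 101 := x.1.isLt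

lemma wt_le (x : Label) : x.wt ≤ x.deg := by
  have := x.2.1.isLt
  unfold wt deg
  omega

lemma wt_parity (x : Label) : x.wt % 2 = x.deg % 2 := by
  unfold wt deg
  omega

/-- The first label of a block. -/
def first (d : Fin 101) (k : Fin ((d.1 + 1) / 2 + 1)) : Label :=
  ⟨d, k, ⟨0, by unfold blockDim; split_ifs <;> omega⟩⟩

/-- The first label of largest weight in a degree. -/
def hubP (d : Fin 101) : Label := first d ⟨(d.1 + 1) / 2, by omega⟩

/-- The first label of smallest weight in a degree. -/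
def hubM (d : Fin 101) : Label := first d ⟨0, by omega⟩

@[simp] lemma deg_hubP (d : Fin 101) : (hubP d).deg = d.1 + 1 := rfl

@[simp] lemma deg_hubM (d : Fin 101) : (hubM d).deg = d.1 + 1 := rfl

@[simp] lemma wt_hubP (d : Fin 101) : (hubP d).wt = d.1 + 1 := by
  show 2 * ((d.1 + 1) / 2) + (d.1 + 1) % 2 = d.1 + 1
  omega

@[simp] lemma wt_hubM (d : Fin 101) : (hubM d).wt = (d.1 + 1) % 2 := by
  show 2 * 0 + (d.1 + 1) % 2 = (d.1 + 1) % 2
  omega

/-- The root of the tree: degree `100`, weight `70`. -/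
def mid : Label := first ⟨99, by omega⟩ ⟨35, by norm_num⟩

@[simp] lemma deg_mid : mid.deg = 100 := rfl

@[simp] lemma wt_mid : mid.wt = 70 := rfl

end Label

/-- `blockDim` is the size of the weight blocks of `Harm`. -/
lemma card_block (H : Harm) {j m : ℕ} (hm : m ≤ j) (hp : m % 2 = j % 2) :
    (univ.filter fun i => H.wt j i = m).card = blockDim j m := H.wt_card j m hm hp

lemma card_block_label (H : Harm) (x : Label) :
    (univ.filter fun i => H.wt x.deg i = x.wt).card = blockDim x.deg x.wt :=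
  card_block H x.wt_le x.wt_parity

/-- The level of the first crossing shape: `exp z = 200 / 193`. -/
def zP : ℝ := Real.log (200 / 193)

/-- The level of the second crossing shape: `exp z = 40 / 41`. -/
def zO : ℝ := Real.log (40 / 41)

lemma zP_mem : -(1 / 40 : ℝ) ≤ zP ∧ zP ≤ 9 / 250 := by
  constructor
  · unfold zP
    linarith [Real.log_nonneg (show (1 : ℝ) ≤ 200 / 193 by norm_num)]
  · rw [zP, Real.log_le_iff_le_exp (by norm_num)]
    exact le_trans (by norm_num) (Real.quadratic_le_exp_of_nonneg (show (0 : ℝ) ≤ 9 / 250 by norm_num))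

lemma zO_mem : -(1 / 40 : ℝ) ≤ zO ∧ zO ≤ 9 / 250 := by
  constructor
  · have h := Real.log_le_sub_one_of_pos (show (0 : ℝ) < 41 / 40 by norm_num)
    have e : zO = -Real.log (41 / 40) := by rw [zO, ← Real.log_inv]; norm_num
    rw [e]; linarith
  · unfold zO
    linarith [Real.log_nonpos (show (0 : ℝ) ≤ 40 / 41 by norm_num) (by norm_num)]

/-- The exponent of a label at radius `exp (-χ)`, drift `s` and right squash `z`. -/
def expAt (x : Label) (χ s z : ℝ) : ℝ :=
  Barrier.root s (lamB ((x.deg : ℝ) * (x.deg + 2)) ((x.wt : ℝ) ^ 2) χ z)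

lemma pW_eq_expAt (sh : Shape) (x : Label) (t : ℝ) :
    pW sh x.deg x.wt t = expAt x (sh.χ t) (sh.drift t) (sh.β t) := rfl

/-- `a` is below `b` when round and above it at the squash `z`, near the final radius. -/
structure Cross (a b : Label) (z : ℝ) : Prop where
  deg_lt : a.deg < b.deg
  z_mem : -(1 / 40 : ℝ) ≤ z ∧ z ≤ 9 / 250
  squash : ∀ χ s, Real.log (8 / 7) - 1 / 1000 ≤ χ → χ ≤ Real.log (8 / 7) → |s| ≤ 1 / 50 →
    expAt b χ s z + 1 / 16 ≤ expAt a χ s z
  round : ∀ χ s, Real.log (8 / 7) - 1 / 1000 ≤ χ → χ ≤ Real.log (8 / 7) → |s| ≤ 1 / 50 →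
    expAt a χ s 0 + 1 / 16 ≤ expAt b χ s 0

lemma Cross.ne {a b : Label} {z : ℝ} (h : Cross a b z) : a ≠ b :=
  fun e => absurd (e ▸ h.deg_lt : b.deg < b.deg) (lt_irrefl _)

/-! ### The crossings -/

lemma root_gap {s x y : ℝ} (hs : |s| ≤ 1 / 50) (hx : 0 ≤ x) (hy : y ≤ 20000) (h : x + 40 ≤ y) :
    Barrier.root s x + 1 / 16 ≤ Barrier.root s y := by
  obtain ⟨h1, h2⟩ := abs_le.1 hs
  have hsq : (1 + s / 2) ^ 2 ≤ 4 := by nlinarith
  set u := Real.sqrt ((1 + s / 2) ^ 2 + x)
  set v := Real.sqrt ((1 + s / 2) ^ 2 + y)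
  have hu : u * u = (1 + s / 2) ^ 2 + x := Real.mul_self_sqrt (by positivity)
  have hv : v * v = (1 + s / 2) ^ 2 + y := Real.mul_self_sqrt (by nlinarith)
  have hu0 : 0 ≤ u := Real.sqrt_nonneg _
  have hv0 : 0 ≤ v := Real.sqrt_nonneg _
  have huv : u ≤ v := Real.sqrt_le_sqrt (by linarith)
  have hvb : v ≤ 150 := by nlinarith
  have : 40 ≤ 300 * (v - u) := by nlinarith
  show u - (1 + s / 2) + 1 / 16 ≤ v - (1 + s / 2)
  linarith

/-- The exponent gap follows from a gap of `31` in the potential at radius one. -/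
lemma root_lamB_gap {J M J' M' χ s z : ℝ} (hχ : Real.log (8 / 7) - 1 / 1000 ≤ χ)
    (hχ' : χ ≤ Real.log (8 / 7)) (hs : |s| ≤ 1 / 50)
    (h0 : 0 ≤ M') (h1 : M' ≤ J')
    (hy : Real.exp (2 * z) * (J - M) + Real.exp (-4 * z) * M ≤ 15000)
    (h : Real.exp (2 * z) * (J' - M') + Real.exp (-4 * z) * M' + 31 ≤
      Real.exp (2 * z) * (J - M) + Real.exp (-4 * z) * M) :
    Barrier.root s (lamB J' M' χ z) + 1 / 16 ≤ Barrier.root s (lamB J M χ z) := by
  have e2 : Real.exp (2 * Real.log (8 / 7)) = 64 / 49 := by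
    rw [two_mul, Real.exp_add, Real.exp_log (by norm_num)]; norm_num
  have hhi : Real.exp (2 * χ) ≤ 64 / 49 := e2 ▸ Real.exp_le_exp.2 (by linarith)
  have hlo : 13 / 10 ≤ Real.exp (2 * χ) := by
    refine le_trans ?_ (Real.exp_le_exp.2 (show 2 * Real.log (8 / 7) + -(1 / 500) ≤ 2 * χ by linarith))
    rw [Real.exp_add, e2]
    nlinarith [Real.add_one_le_exp (-(1 / 500) : ℝ)]
  have hJ' := sub_nonneg.2 h1
  have hx : 0 ≤ Real.exp (2 * z) * (J' - M') + Real.exp (-4 * z) * M' := by positivity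
  refine root_gap hs (lamB_nonneg h0 h1 χ z) ?_ ?_ <;> unfold lamB <;> nlinarith

lemma exp_zP : Real.exp (2 * zP) = 40000 / 37249 ∧
    Real.exp (-4 * zP) = 1387488001 / 1600000000 := by
  have h : Real.exp zP = 200 / 193 := Real.exp_log (by norm_num)
  constructor
  · rw [two_mul, Real.exp_add, h]; norm_num
  · rw [show -4 * zP = -(zP + zP + zP + zP) by ring, Real.exp_neg, Real.exp_add, Real.exp_add,
      Real.exp_add, h]
    norm_num

lemma exp_zO : Real.exp (2 * zO) = 1600 / 1681 ∧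
    Real.exp (-4 * zO) = 2825761 / 2560000 := by
  have h : Real.exp zO = 40 / 41 := Real.exp_log (by norm_num)
  constructor
  · rw [two_mul, Real.exp_add, h]; norm_num
  · rw [show -4 * zO = -(zO + zO + zO + zO) by ring, Real.exp_neg, Real.exp_add, Real.exp_add,
      Real.exp_add, h]
    norm_num

/-- A crossing from the gap of the potentials at radius one. -/
lemma cross_of {a b : Label} {z : ℝ} (hd : b.deg = a.deg + 1) (ha : 50 ≤ a.deg)
    (hz : -(1 / 40 : ℝ) ≤ z ∧ z ≤ 9 / 250)
    (hw : Real.exp (2 * z) ≤ 11 / 10) (hw' : Real.exp (-4 * z) ≤ 12 / 10)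
    (h : Real.exp (2 * z) * ((b.deg : ℝ) * (b.deg + 2) - (b.wt : ℝ) ^ 2) +
        Real.exp (-4 * z) * (b.wt : ℝ) ^ 2 + 31 ≤
      Real.exp (2 * z) * ((a.deg : ℝ) * (a.deg + 2) - (a.wt : ℝ) ^ 2) +
        Real.exp (-4 * z) * (a.wt : ℝ) ^ 2) : Cross a b z := by
  have ha' : (50 : ℝ) ≤ a.deg := by exact_mod_cast ha
  have hb : (b.deg : ℝ) = a.deg + 1 := by exact_mod_cast hd
  have hb' : (b.deg : ℝ) ≤ 101 := by exact_mod_cast b.deg_le
  have hA := sq_le_of_le a.wt_le
  have hB := sq_le_of_le b.wt_le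
  have hA0 := sq_nonneg (a.wt : ℝ)
  have hJ : (a.deg : ℝ) * (a.deg + 2) ≤ 10200 := by nlinarith
  refine ⟨by omega, hz, fun χ s h1 h2 h3 => ?_, fun χ s h1 h2 h3 => ?_⟩
  · refine root_lamB_gap h1 h2 h3 (sq_nonneg _) hB ?_ h
    nlinarith
  · refine root_lamB_gap h1 h2 h3 hA0 hA ?_ ?_
    · simp only [mul_zero, Real.exp_zero]; nlinarith
    · simp only [mul_zero, Real.exp_zero]; rw [hb]; nlinarith

/-- Weight at most `4/5` of the degree crosses the top weight of the next degree. -/
lemma cross_P {a b : Label} (hd : b.deg = a.deg + 1) (ha : 50 ≤ a.deg)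
    (hm : 10 * a.wt ≤ 8 * a.deg) (hb : b.wt = b.deg) : Cross a b zP := by
  refine cross_of hd ha zP_mem (by rw [exp_zP.1]; norm_num) (by rw [exp_zP.2]; norm_num) ?_
  have hm' : 10 * (a.wt : ℝ) ≤ 8 * a.deg := by exact_mod_cast hm
  have ha' : (50 : ℝ) ≤ a.deg := by exact_mod_cast ha
  have h0 : (0 : ℝ) ≤ a.wt := Nat.cast_nonneg _
  have hsq : 100 * (a.wt : ℝ) ^ 2 ≤ 64 * (a.deg : ℝ) ^ 2 := by nlinarith
  rw [hb, exp_zP.1, exp_zP.2, show (b.deg : ℝ) = a.deg + 1 by exact_mod_cast hd]
  nlinarith [mul_nonneg (sub_nonneg.2 ha') (Nat.cast_nonneg a.deg : (0 : ℝ) ≤ a.deg)]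

/-- Weight at least `3/5` of the degree crosses the least weight of the next degree. -/
lemma cross_O {a b : Label} (hd : b.deg = a.deg + 1) (ha : 50 ≤ a.deg)
    (hm : 6 * a.deg ≤ 10 * a.wt) (hb : b.wt ≤ 1) : Cross a b zO := by
  refine cross_of hd ha zO_mem (by rw [exp_zO.1]; norm_num) (by rw [exp_zO.2]; norm_num) ?_
  have hm' : 6 * (a.deg : ℝ) ≤ 10 * a.wt := by exact_mod_cast hm
  have ha' : (50 : ℝ) ≤ a.deg := by exact_mod_cast ha
  have hb' : (b.wt : ℝ) ≤ 1 := by exact_mod_cast hb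
  have hbsq : (b.wt : ℝ) ^ 2 ≤ 1 := by nlinarith [(Nat.cast_nonneg b.wt : (0 : ℝ) ≤ b.wt)]
  have hsq : 36 * (a.deg : ℝ) ^ 2 ≤ 100 * (a.wt : ℝ) ^ 2 := by nlinarith
  rw [exp_zO.1, exp_zO.2, show (b.deg : ℝ) = a.deg + 1 by exact_mod_cast hd]
  nlinarith [mul_nonneg (sub_nonneg.2 ha') (Nat.cast_nonneg a.deg : (0 : ℝ) ≤ a.deg)]

/-- The top weight of degree `100` crosses the weights at most `80` of degree `101`. -/
lemma cross_top_O {a b : Label} (ha : a.deg = 100) (ha' : a.wt = 100) (hb : b.deg = 101)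
    (hm : b.wt ≤ 80) : Cross a b zO := by
  refine cross_of (by omega) (by omega) zO_mem (by rw [exp_zO.1]; norm_num)
    (by rw [exp_zO.2]; norm_num) ?_
  have hm' : (b.wt : ℝ) ≤ 80 := by exact_mod_cast hm
  rw [exp_zO.1, exp_zO.2, ha, ha', hb]
  push_cast
  nlinarith [(Nat.cast_nonneg b.wt : (0 : ℝ) ≤ b.wt)]

/-- Weight zero of degree `100` crosses the weights at least `60` of degree `101`. -/
lemma cross_top_P {a b : Label} (ha : a.deg = 100) (ha' : a.wt = 0) (hb : b.deg = 101)
    (hm : 60 ≤ b.wt) : Cross a b zP := by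
  refine cross_of (by omega) (by omega) zP_mem (by rw [exp_zP.1]; norm_num)
    (by rw [exp_zP.2]; norm_num) ?_
  have hm' : (60 : ℝ) ≤ b.wt := by exact_mod_cast hm
  rw [exp_zP.1, exp_zP.2, ha, ha', hb]
  push_cast
  nlinarith

/-! ### The tree -/

namespace Label

/-- The parent of a label in the tree. -/
def par (x : Label) : Label :=
  if h : x.1.1 < 100 then
    if x = mid then x
    else if 10 * x.wt ≤ 8 * x.deg then hubP ⟨x.1.1 + 1, by omega⟩
    else hubM ⟨x.1.1 + 1, by omega⟩
  else if x = hubP ⟨100, by omega⟩ ∨ x = hubM ⟨100, by omega⟩ then mid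
  else if 60 ≤ x.wt then hubM ⟨99, by omega⟩
  else hubP ⟨99, by omega⟩

/-- The order of attachment. -/
def rk (x : Label) : ℕ :=
  if x = mid then 0
  else if x = hubP ⟨100, by omega⟩ ∨ x = hubM ⟨100, by omega⟩ then 1
  else if x.deg = 100 then 2
  else if x.deg = 101 then 3
  else 4 + (100 - x.deg)

lemma rk_le_of_deg {x : Label} {j : ℕ} (h : x.deg = j + 1) (hj : 50 ≤ j) (hj' : j ≤ 99) :
    x.rk ≤ if j = 99 then 2 else 4 + (99 - j) := by
  unfold rk
  split_ifs <;> omega

lemma par_spec {x : Label} (hx : 50 ≤ x.deg) (hne : x ≠ mid) :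
    rk (par x) < rk x ∧ 50 ≤ (par x).deg ∧
      ∃ z, Cross x (par x) z ∨ Cross (par x) x z := by
  have hd : x.1.1 + 1 = x.deg := rfl
  by_cases h : x.1.1 < 100
  · have hnm : ¬(x = hubP ⟨100, by omega⟩ ∨ x = hubM ⟨100, by omega⟩) := by
      rintro (e | e) <;> rw [e] at h <;> simp [hubP, hubM, first] at h
    have hrk : x.rk = if x.deg = 100 then 2 else 4 + (100 - x.deg) := by
      unfold rk
      rw [if_neg hne, if_neg hnm]
      split_ifs <;> omega
    have key : ∀ y : Label, y.deg = x.deg + 1 →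
        (x.deg = 100 → y = hubP ⟨100, by omega⟩ ∨ y = hubM ⟨100, by omega⟩) →
        rk y < rk x := by
      intro y hy hy'
      rw [hrk]
      unfold rk
      by_cases h100 : x.deg = 100
      · rw [if_pos (hy' h100), if_pos h100]
        split_ifs <;> omega
      · rw [if_neg h100]
        split_ifs <;> omega
    rw [par, dif_pos h, if_neg hne]
    split_ifs with hm
    · refine ⟨key _ (by simp [hd]) (fun e => Or.inl ?_), by simp; omega,
        zP, Or.inl (cross_P (by simp [hd]) hx hm (by simp))⟩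
      congr 1; ext; show x.1.1 + 1 = 100; omega
    · refine ⟨key _ (by simp [hd]) (fun e => Or.inr ?_), by simp; omega,
        zO, Or.inl (cross_O (by simp [hd]) hx (by omega) (by simp; omega))⟩
      congr 1; ext; show x.1.1 + 1 = 100; omega
  · have h100 : x.1.1 = 100 := by have := x.1.isLt; omega
    rw [par, dif_neg h]
    by_cases hh : x = hubP ⟨100, by omega⟩ ∨ x = hubM ⟨100, by omega⟩
    · rw [if_pos hh]
      refine ⟨?_, by simp, ?_⟩
      · unfold rk
        rw [if_pos rfl, if_neg hne, if_pos hh]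
        exact Nat.one_pos
      rcases hh with e | e
      · exact ⟨zP, Or.inr (cross_P (by rw [e]; simp) (by simp) (by simp) (by rw [e]; simp))⟩
      · exact ⟨zO, Or.inr (cross_O (by rw [e]; simp) (by simp) (by simp) (by rw [e]; simp))⟩
    · rw [if_neg hh]
      have hrk : x.rk = 3 := by
        unfold rk
        rw [if_neg hne, if_neg hh, if_neg (by omega), if_pos (by omega)]
      split_ifs with hm
      · refine ⟨?_, by simp, zP, Or.inr (cross_top_P (by simp) (by simp) (by omega) hm)⟩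
        rw [hrk]; unfold rk; split_ifs <;> simp at *
      · refine ⟨?_, by simp, zO, Or.inr (cross_top_O (by simp) (by simp) (by omega) (by omega))⟩
        rw [hrk]; unfold rk; split_ifs <;> simp at *

end Label

/-- The product of a list of transpositions, the first one acting first. -/
def swaps {ι : Type*} [DecidableEq ι] (l : List (ι × ι × ℝ)) : Perm ι :=
  l.foldl (fun σ e => swap e.1 e.2.1 * σ) 1

lemma swaps_append {ι : Type*} [DecidableEq ι] (l : List (ι × ι × ℝ)) (e : ι × ι × ℝ) :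
    swaps (l ++ [e]) = swap e.1 e.2.1 * swaps l := by
  simp [swaps]

/-- A new leaf keeps one cycle. -/
lemma isCycleOn_swap_mul {ι : Type*} [DecidableEq ι] [Fintype ι] {σ : Perm ι} {V : Finset ι}
    {c q : ι} (hσ : σ.IsCycleOn V) (hout : ∀ x ∉ V, σ x = x) (hc : c ∉ V) (hq : q ∈ V) :
    (swap c q * σ).IsCycleOn (insert c V : Finset ι) ∧
      ∀ x ∉ insert c V, (swap c q * σ) x = x := by
  set τ := swap c q * σ with hτ
  have hmem : ∀ x, σ x ∈ V ↔ x ∈ V := fun x => by
    refine ⟨fun h => ?_, fun h => hσ.1.mapsTo h⟩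
    by_contra hx
    exact hx (hout x hx ▸ h)
  have hτc : τ c = q := by simp [hτ, hout c hc]
  have out : ∀ x ∉ insert c V, τ x = x := by
    intro x hx
    rw [mem_insert, not_or] at hx
    rw [hτ, Perm.mul_apply, hout x hx.2, swap_apply_of_ne_of_ne hx.1 (fun e => hx.2 (e ▸ hq))]
  have maps : ∀ x ∈ insert c V, τ x ∈ insert c V := by
    intro x hx
    rcases mem_insert.1 hx with rfl | hx
    · rw [hτc]; exact mem_insert_of_mem hq
    · rw [hτ, Perm.mul_apply]
      by_cases e : σ x = q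
      · rw [e, swap_apply_right]; exact mem_insert_self _ _
      · rw [swap_apply_of_ne_of_ne (fun h : σ x = c => hc (h ▸ (hmem x).2 hx)) e]
        exact mem_insert_of_mem ((hmem x).2 hx)
  have step : ∀ x ∈ V, τ.SameCycle x (σ x) := by
    intro x hx
    by_cases e : σ x = q
    · refine ⟨2, ?_⟩
      have : τ x = c := by rw [hτ, Perm.mul_apply, e, swap_apply_right]
      rw [show (2 : ℤ) = ((2 : ℕ) : ℤ) from rfl, zpow_natCast, pow_two, Perm.mul_apply, this, hτc, e]
    · refine ⟨1, ?_⟩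
      rw [zpow_one, hτ, Perm.mul_apply,
        swap_apply_of_ne_of_ne (fun h : σ x = c => hc (h ▸ (hmem x).2 hx)) e]
  have pw : ∀ (n : ℕ), ∀ x ∈ V, τ.SameCycle x ((σ ^ n) x) := by
    intro n
    induction n with
    | zero => intro x _; exact Perm.SameCycle.refl _ _
    | succ n ih =>
      intro x hx
      rw [pow_succ, Perm.mul_apply]
      exact (step x hx).trans (ih _ ((hmem x).2 hx))
  have toq : ∀ x ∈ insert c V, τ.SameCycle x q := by
    intro x hx
    rcases mem_insert.1 hx with rfl | hx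
    · exact ⟨1, by rw [zpow_one, hτc]⟩
    · obtain ⟨n, hn⟩ := (hσ.2 hx hq).exists_nat_pow_eq
      exact hn ▸ pw n x hx
  refine ⟨⟨⟨fun x hx => maps x hx, τ.injective.injOn, fun y hy => ?_⟩,
    fun x hx y hy => (toq x hx).trans (toq y hy).symm⟩, out⟩
  refine ⟨τ.symm y, ?_, τ.apply_symm_apply y⟩
  by_contra h
  exact h (by
    have e := out _ h
    rw [τ.apply_symm_apply] at e
    exact e ▸ hy)

/-- A tree given by parents gives a product of transpositions which is one cycle. -/
lemma exists_tree_cycle {ι : Type*} [DecidableEq ι] [Fintype ι] (root : ι) (par : ι → ι)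
    (rk : ι → ℕ) (R : ι → ι → ℝ → Prop) (V : Finset ι) (hroot : root ∈ V)
    (h : ∀ x ∈ V, x ≠ root → rk (par x) < rk x ∧ par x ∈ V ∧
      ∃ z, R x (par x) z ∨ R (par x) x z) :
    ∃ l : List (ι × ι × ℝ), (V ≠ {root} → l ≠ []) ∧ (∀ e ∈ l, R e.1 e.2.1 e.2.2) ∧
      (swaps l).IsCycleOn V ∧ ∀ x ∉ V, swaps l x = x := by
  induction V using Finset.strongInduction with
  | _ V ih =>
    rcases eq_or_ne V {root} with rfl | hne
    · exact ⟨[], fun h => absurd rfl h, by simp, by simp [swaps], by simp [swaps]⟩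
    have hs : (V.erase root).Nonempty := by
      by_contra hs
      rw [not_nonempty_iff_eq_empty, erase_eq_empty_iff] at hs
      rcases hs with rfl | e
      · simp at hroot
      · exact hne e
    obtain ⟨c, hc, hmax⟩ := exists_max_image (V.erase root) rk hs
    obtain ⟨hcr, hcV⟩ := mem_erase.1 hc
    have hpc : ∀ x ∈ V, x ≠ root → par x ≠ c := fun x hx hxr e =>
      absurd (hmax x (mem_erase.2 ⟨hxr, hx⟩)) (not_le.2 (e ▸ (h x hx hxr).1))
    obtain ⟨l, -, hR, hcyc, hout⟩ := ih (V.erase c) (erase_ssubset hcV)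
      (mem_erase.2 ⟨Ne.symm hcr, hroot⟩) fun x hx hxr => by
        obtain ⟨h1, h2, h3⟩ := h x (mem_erase.1 hx).2 hxr
        exact ⟨h1, mem_erase.2 ⟨hpc x (mem_erase.1 hx).2 hxr, h2⟩, h3⟩
    obtain ⟨h1, h2, z, h3⟩ := h c hcV hcr
    have hq : par c ∈ V.erase c := mem_erase.2 ⟨hpc c hcV hcr, h2⟩
    have hnew := isCycleOn_swap_mul hcyc hout (notMem_erase c V) hq
    rw [insert_erase hcV] at hnew
    rcases h3 with h3 | h3
    · refine ⟨l ++ [(c, par c, z)], by simp, ?_, ?_⟩
      · exact List.forall_mem_append.2 ⟨hR, by simpa using h3⟩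
      · rw [swaps_append]; exact hnew
    · refine ⟨l ++ [(par c, c, z)], by simp, ?_, ?_⟩
      · exact List.forall_mem_append.2 ⟨hR, by simpa using h3⟩
      · rw [swaps_append, swap_comm]; exact hnew

lemma rateInf_le (j : ℕ) : rateInf j ≤ 8 / 7 * ((j : ℝ) + 1) - 1 := by
  unfold rateInf Barrier.root
  have h : Real.sqrt ((1 + (0 : ℝ) / 2) ^ 2 + 64 / 49 * ((j : ℝ) * (j + 2))) ≤
      8 / 7 * ((j : ℝ) + 1) :=
    Real.sqrt_le_iff.2 ⟨by positivity, by nlinarith⟩
  linarith

/-- A sum over the labels of a function of the degree. -/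
lemma sum_label (f : ℕ → ℕ) : ∑ x : Label, f x.deg = ∑ d ∈ range 101,
    ∑ k ∈ range ((d + 1) / 2 + 1), (blockDim (d + 1) (2 * k + (d + 1) % 2) - 1) * f (d + 1) := by
  have e : { e : Label ≃ Σ d : Fin 101, Σ k : Fin ((d.1 + 1) / 2 + 1),
      Fin (blockDim (d.1 + 1) (2 * k.1 + (d.1 + 1) % 2) - 1) // ∀ x, (e x).1.1 + 1 = x.deg } :=
    ⟨Equiv.refl _, fun _ => rfl⟩
  have h : ∑ x : Label, f x.deg = ∑ x : Σ d : Fin 101, Σ k : Fin ((d.1 + 1) / 2 + 1),
      Fin (blockDim (d.1 + 1) (2 * k.1 + (d.1 + 1) % 2) - 1), f (x.1.1 + 1) :=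
    Fintype.sum_equiv e.1 _ _ fun x => by rw [e.2]
  rw [h, Fintype.sum_sigma, Finset.sum_range]
  refine sum_congr rfl fun d _ => ?_
  rw [Fintype.sum_sigma, Finset.sum_range]
  refine sum_congr rfl fun k _ => ?_
  show ∑ _y : Fin _, f (d.1 + 1) = _
  rw [sum_const, card_univ, Fintype.card_fin, smul_eq_mul]

/-- The labels of degree at least `50`. -/
def band : Finset Label := univ.filter fun x => 50 ≤ x.deg

lemma mem_band {x : Label} : x ∈ band ↔ 50 ≤ x.deg := by
  rw [band, mem_filter]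
  exact and_iff_right (mem_univ x)

lemma mean_band : ∑ x ∈ band, rateInf x.deg ≤ 99 * (band.card : ℝ) := by
  have hnat : ∑ x ∈ band, 8 * (x.deg + 1) ≤ ∑ _x ∈ band, 700 := by
    rw [band, sum_filter, sum_filter, sum_label fun j => if 50 ≤ j then 8 * (j + 1) else 0,
      sum_label fun j => if 50 ≤ j then 700 else 0]
    decide +kernel
  have hcast : ∑ x ∈ band, 8 * ((x.deg : ℝ) + 1) ≤ ∑ _x ∈ band, (700 : ℝ) := by exact_mod_cast hnat
  rw [sum_const, nsmul_eq_mul, ← mul_sum] at hcast
  calc ∑ x ∈ band, rateInf x.deg ≤ ∑ x ∈ band, (8 / 7 * ((x.deg : ℝ) + 1) - 1) :=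
        sum_le_sum fun x _ => rateInf_le _
    _ = 8 / 7 * ∑ x ∈ band, ((x.deg : ℝ) + 1) - band.card := by
        rw [sum_sub_distrib, ← mul_sum, sum_const, nsmul_eq_mul, mul_one]
    _ ≤ _ := by linarith

/-- The labels of a period: the cycle, and the mean exponent along every orbit. -/
theorem exists_cycle :
    ∃ l : List (Label × Label × ℝ), l ≠ [] ∧ (∀ e ∈ l, Cross e.1 e.2.1 e.2.2) ∧
      ∃ q : ℕ, 0 < q ∧ swaps l ^ q = 1 ∧
        ∀ x, ∑ i ∈ range q, rateInf ((swaps l ^ i) x).deg ≤ 99 * q := by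
  have hroot : Label.mid ∈ band := mem_band.2 (by rw [Label.deg_mid]; norm_num)
  obtain ⟨l, hl, hR, hcyc, hout⟩ := exists_tree_cycle Label.mid Label.par Label.rk Cross band
    hroot fun x hx hne => by
      obtain ⟨h1, h2, h3⟩ := Label.par_spec (mem_band.1 hx) hne
      exact ⟨h1, mem_band.2 h2, h3⟩
  have hne : band ≠ {Label.mid} := fun e => by
    have h : Label.hubP ⟨100, by omega⟩ ∈ band :=
      mem_band.2 (by rw [Label.deg_hubP]; norm_num)
    rw [e, mem_singleton] at h
    have h' := congrArg Label.deg h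
    rw [Label.deg_mid, Label.deg_hubP] at h'
    exact absurd h' (by norm_num)
  refine ⟨l, hl hne, hR, band.card, card_pos.2 ⟨_, hroot⟩, ?_, fun x => ?_⟩
  · ext1 x
    by_cases hx : x ∈ band
    · exact hcyc.pow_card_apply hx
    · exact Perm.pow_apply_eq_self_of_apply_eq_self (hout x hx) _
  by_cases hx : x ∈ band
  · refine le_of_eq_of_le ?_ mean_band
    refine sum_bij (fun i _ => (swaps l ^ i) x) ?_ ?_ ?_ fun _ _ => rfl
    · exact fun i _ => hcyc.1.mapsTo.perm_pow i hx
    · intro i hi i' hi' e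
      have := (hcyc.pow_apply_eq_pow_apply hx).1 e
      rw [Nat.ModEq, Nat.mod_eq_of_lt (mem_range.1 hi), Nat.mod_eq_of_lt (mem_range.1 hi')] at this
      exact this
    · intro y hy
      obtain ⟨i, hi, e⟩ := hcyc.exists_pow_eq hx hy
      exact ⟨i, mem_range.2 hi, e⟩
  · have hd : (x.deg : ℝ) ≤ 49 := by
      rw [mem_band, not_le] at hx
      exact_mod_cast Nat.le_of_lt_succ hx
    refine (sum_le_card_nsmul _ _ (99 : ℝ) fun i _ => ?_).trans_eq
      (by rw [card_range, nsmul_eq_mul, mul_comm])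
    rw [Perm.pow_apply_eq_self_of_apply_eq_self (hout x hx)]
    linarith [rateInf_le x.deg]

/-- A plan with the transpositions of a list has its product as period permutation. -/
theorem cyc_eq_swaps (g : Growth.Plan Label) (l : List (Label × Label × ℝ))
    (hN : g.N = l.length) (hA : ∀ r : Fin g.N, g.A r = (l[r.1]'(hN ▸ r.isLt)).1)
    (hB : ∀ r : Fin g.N, g.B r = (l[r.1]'(hN ▸ r.isLt)).2.1) : g.cyc = swaps l := by
  have h : ∀ n ≤ g.N, g.perm n = swaps (l.take n) := by
    intro n hn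
    induction n with
    | zero => simp [Growth.Plan.perm, swaps]
    | succ n ih =>
      have hnl : n < l.length := by omega
      rw [List.take_succ_eq_append_getElem hnl, swaps_append, ← ih (by omega)]
      show swap (g.a n) (g.b n) * g.perm n = _
      simp only [Growth.Plan.a, Growth.Plan.b, hA, hB, Nat.mod_eq_of_lt (show n < g.N by omega)]
  rw [Growth.Plan.cyc, h g.N le_rfl, hN, List.take_length]

/-- The labels outnumber the harmonic polynomials of degree at most `100`. -/
theorem card_label : euclideanCount 100 < Fintype.card Label + 1 := by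
  have h1 : euclideanCount 100 = 348551 := by
    rw [euclideanCount, ← Nat.choose_symm (by norm_num : 100 ≤ 100 + 3),
      ← Nat.choose_symm (by norm_num : 100 - 1 ≤ 100 + 2)]
    decide +kernel
  rw [h1, show Fintype.card Label = ∑ _x : Label, 1 by
    rw [sum_const, card_univ, smul_eq_mul, mul_one], sum_label fun _ => 1]
  decide +kernel

end

end Vale.Agent.P225.Sched
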