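import Vale.Agent.P225.Sched.Shape

/-!
P225 Sched: global bounds on the shape, for the exponent estimates.
-/

namespace Vale.Agent.P225.Sched

open scoped Topology ContDiff
open Real Filter

noncomputable section

namespace Params

variable {p : Params}

theorem time_tendsto : Tendsto p.time atTop atTop :=
  tendsto_atTop_mono (fun m => le_trans (by linarith [p.one_le_N0]) (p.time_ge m))
    tendsto_natCast_atTop_atTop

theorem Ok.abs_comp_none (h : p.Ok) (t : ℝ) : |p.comp none t| ≤ 1 / 20 := by
  obtain ⟨a, b⟩ := h.comp_range none t
  rw [abs_le]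
  constructor <;> linarith

/-- Left squashes are tiny. -/
theorem Ok.abs_comp_some (h : p.Ok) (a : Fin 6) (t : ℝ) : |p.comp (some a) t| ≤ 1 / 100 := by
  rcases p.comp_cases (some a) t with e | ⟨m, -, -, hax, e⟩
  · rw [e.eq_of_nhds]; norm_num
  · rw [e.eq_of_nhds]
    have hn := p.size_ge_one m
    have hl := p.abs_level_le m
    have hA : |(p.step m).amp (p.size m)| ≤ 1 / 100 := by
      revert hax hl
      cases p.step m with
      | micro b z c =>
        intro _ hl
        simp only [Step.level] at hl
        simp only [Step.amp]
        rw [abs_div, abs_of_pos (by positivity : (0 : ℝ) < p.size m ^ 3),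
          div_le_iff₀ (by positivity)]
        linarith [h.big, p.N0_le_size m, p.one_le_C, p.K_pos, p.durSum_nonneg,
          le_self_pow₀ hn (show (3 : ℕ) ≠ 0 by norm_num)]
      | round c => intro hax; simp [Step.axis] at hax
      | gap c => intro hax; simp [Step.axis] at hax
      | cross z c => intro hax; simp [Step.axis] at hax
      | slot => intro hax; simp [Step.axis] at hax
      | stay => intro hax; simp [Step.axis] at hax
    have b0 := bump_nonneg (p.time m) ((p.step m).width (p.size m)) (p.dur m) t
    have b1 := bump_le_one (p.time m) ((p.step m).width (p.size m)) (p.dur m) t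
    unfold piece
    rw [abs_mul, abs_of_nonneg b0]
    exact (mul_le_mul hA b1 b0 (by norm_num)).trans (mul_one _).le

/-- `χ` stays between `0` and `log (8 / 7)`. -/
theorem Ok.chi_bounds (h : p.Ok) (t : ℝ) : 0 ≤ p.chi t ∧ p.chi t ≤ Real.log (8 / 7) := by
  constructor
  · rcases le_or_gt t 0 with ht | ht
    · rw [p.chi_of_nonpos ht]
    · exact h.chi_nonneg ht.le
  · exact (h.chi_mono (le_max_left t p.N0)).trans (h.late (le_max_right t p.N0)).2.2.1

end Params

end

end Vale.Agent.P225.Sched
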