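import Vale.Agent.P225.Sched.Defs

/-!
P225 Sched: the list of steps of one period.

For each transposition `r`: round, composite, crossing squash, composite, round, composite.
A composite has, for each of `groups` frequency groups and each word, a closed word: the bumps
of the word, a slot, and the opposite bumps in reverse order, with gaps in between.
-/

namespace Vale.Agent.P225.Sched

noncomputable section

/-- A word of left micro squashes: axes and levels. -/
abbrev Word := List (Fin 6 × ℝ)

/-- A bump followed by a gap. -/
def bumpGap (b : Fin 6 × ℝ) : List Step := [Step.micro b.1 b.2 0, Step.gap 1]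

/-- The opposite bump. -/
def negBump (b : Fin 6 × ℝ) : Fin 6 × ℝ := (b.1, -b.2)

/-- Gap, bumps, slot, gap, opposite bumps in reverse order. -/
def closedWord (w : Word) : List Step :=
  Step.gap 1 :: (w.flatMap bumpGap ++ Step.slot :: Step.gap 1 :: (w.reverse.map negBump).flatMap bumpGap)

/-- A composite: one copy of all closed words per group. -/
def composite (groups : ℕ) (words : List Word) : List Step :=
  (List.replicate groups (words.flatMap closedWord)).flatten

/-- What is chosen at one transposition: the crossing level and three duration coefficients. -/
structure Crossing where
  /-- Level of the right squash. -/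
  z : ℝ
  /-- Round time before. -/
  before : ℝ
  /-- Time at the level. -/
  plateau : ℝ
  /-- Round time after. -/
  after : ℝ

/-- The steps of one transposition. -/
def crossingSteps (comp : List Step) (c : Crossing) : List Step :=
  (Step.round c.before :: comp) ++ (Step.cross c.z c.plateau :: comp) ++
    (Step.round c.after :: comp)

/-- The steps of one period, without the stay. -/
def periodSteps (groups : ℕ) (words : List Word) (cs : List Crossing) : List Step :=
  cs.flatMap (crossingSteps (composite groups words))

/-- The offset in a period of composite `i < 3` of transposition `r`. -/
def compOffset (groups : ℕ) (words : List Word) (r i : ℕ) : ℕ :=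
  r * (3 * ((composite groups words).length + 1)) + i * ((composite groups words).length + 1) + 1

lemma crossingSteps_length (comp : List Step) (c : Crossing) :
    (crossingSteps comp c).length = 3 * (comp.length + 1) := by
  simp [crossingSteps]; ring

lemma periodSteps_length (groups : ℕ) (words : List Word) (cs : List Crossing) :
    (periodSteps groups words cs).length =
      cs.length * (3 * ((composite groups words).length + 1)) := by
  unfold periodSteps
  induction cs with
  | nil => simp
  | cons c cs ih =>
    rw [List.flatMap_cons, List.length_append, ih, crossingSteps_length, List.length_cons]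
    ring

lemma getD_flatMap_of_length_eq {α β : Type*} (f : α → List β) {L : ℕ}
    (hf : ∀ a, (f a).length = L) (x : β) :
    ∀ (l : List α) (r k : ℕ) (hr : r < l.length), k < L →
      (l.flatMap f).getD (r * L + k) x = (f l[r]).getD k x := by
  intro l
  induction l with
  | nil => intro r k hr; simp at hr
  | cons a l ih =>
    intro r k hr hk
    rw [List.flatMap_cons]
    cases r with
    | zero =>
      rw [Nat.zero_mul, Nat.zero_add, List.getD_append _ _ _ _ (by rw [hf]; exact hk)]
      simp
    | succ r =>
      rw [List.getD_append_right _ _ _ _ (by rw [hf]; nlinarith), hf]
      have h : (r + 1) * L + k - L = r * L + k := by rw [Nat.succ_mul]; omega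
      rw [h, ih r k (by simpa using hr) hk]
      simp

/-- The steps of composite `i` of transposition `r` inside the period. -/
lemma periodSteps_getD_comp (groups : ℕ) (words : List Word) (cs : List Crossing) (r i k : ℕ)
    (hr : r < cs.length) (hi : i < 3) (hk : k < (composite groups words).length) :
    (periodSteps groups words cs).getD (compOffset groups words r i + k) Step.stay =
      (composite groups words).getD k Step.stay := by
  set C := composite groups words with hC
  have hlen : compOffset groups words r i + k =
      r * (3 * (C.length + 1)) + (i * (C.length + 1) + 1 + k) := by
    simp only [compOffset, ← hC]; ring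
  rw [hlen, periodSteps, ← hC, getD_flatMap_of_length_eq _ (crossingSteps_length C) _ _ _ _ hr
    (by nlinarith)]
  have hi' : i = 0 ∨ i = 1 ∨ i = 2 := by omega
  rcases hi' with rfl | rfl | rfl
  · unfold crossingSteps
    rw [List.getD_append _ _ _ _ (by simp; omega), List.getD_append _ _ _ _ (by simp; omega),
      show 0 * (C.length + 1) + 1 + k = k + 1 by omega, List.getD_cons_succ]
  · unfold crossingSteps
    rw [List.getD_append _ _ _ _ (by simp; omega),
      List.getD_append_right _ _ _ _ (by simp; omega), List.length_cons,
      show 1 * (C.length + 1) + 1 + k - (C.length + 1) = k + 1 by omega, List.getD_cons_succ]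
  · unfold crossingSteps
    rw [List.getD_append_right _ _ _ _ (by simp; omega), List.length_append, List.length_cons,
      List.length_cons,
      show 2 * (C.length + 1) + 1 + k - (C.length + 1 + (C.length + 1)) = k + 1 by omega,
      List.getD_cons_succ]

lemma valid_of_mem_composite (groups : ℕ) (words : List Word) :
    ∀ s ∈ composite groups words, s.Valid := by
  intro s hs
  simp only [composite, List.mem_flatten, List.mem_replicate] at hs
  obtain ⟨l, ⟨-, rfl⟩, hs⟩ := hs
  simp only [List.mem_flatMap, closedWord, bumpGap, List.mem_cons, List.mem_append,
    List.mem_map, List.not_mem_nil] at hs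
  obtain ⟨w, -, hs⟩ := hs
  rcases hs with rfl | ⟨b, -, rfl | rfl | h⟩ | rfl | rfl | ⟨b, -, rfl | rfl | h⟩ <;> trivial

lemma periodSteps_valid (groups : ℕ) (words : List Word) (cs : List Crossing)
    (hz : ∀ c ∈ cs, -(1 / 40 : ℝ) ≤ c.z ∧ c.z ≤ 9 / 250) :
    ∀ s ∈ periodSteps groups words cs, s.Valid := by
  intro s hs
  simp only [periodSteps, List.mem_flatMap, crossingSteps, List.mem_append, List.mem_cons] at hs
  obtain ⟨c, hc, ((rfl | h) | (rfl | h)) | (rfl | h)⟩ := hs
  · trivial
  · exact valid_of_mem_composite groups words s h
  · exact hz c hc
  · exact valid_of_mem_composite groups words s h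
  · trivial
  · exact valid_of_mem_composite groups words s h

/-- The positions of the slots in a list of steps. -/
def slotsOf (l : List Step) : List ℕ :=
  (List.range l.length).filter fun k => (l.getD k Step.stay).isSlot

lemma slotList_eq (p : Params) : p.slotList = slotsOf p.list := rfl

lemma slotsOf_append (a b : List Step) :
    slotsOf (a ++ b) = slotsOf a ++ (slotsOf b).map (a.length + ·) := by
  unfold slotsOf
  rw [List.length_append, List.range_add, List.filter_append, List.filter_map]
  congr 1
  · refine List.filter_congr fun k hk => ?_
    rw [List.getD_append _ _ _ _ (List.mem_range.1 hk)]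
  · congr 1
    refine List.filter_congr fun k hk => ?_
    simp only [Function.comp_apply]
    rw [List.getD_append_right _ _ _ _ (by omega), Nat.add_sub_cancel_left]

lemma slotsOf_append_stay (l : List Step) : slotsOf (l ++ [Step.stay]) = slotsOf l := by
  rw [slotsOf_append, show slotsOf [Step.stay] = [] from rfl, List.map_nil, List.append_nil]

lemma slotsOf_cons (s : Step) (hs : s.isSlot = false) (l : List Step) :
    slotsOf (s :: l) = (slotsOf l).map (1 + ·) := by
  rw [← List.singleton_append, slotsOf_append]
  simp [slotsOf, hs]

lemma slotsOf_flatMap_bumpGap (w : Word) : slotsOf (w.flatMap bumpGap) = [] := by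
  induction w with
  | nil => rfl
  | cons b w ih => rw [List.flatMap_cons, slotsOf_append, ih]; rfl

lemma slotsOf_closedWord (w : Word) : slotsOf (closedWord w) = [2 * w.length + 1] := by
  have hlen : (w.flatMap bumpGap).length = 2 * w.length := by
    induction w with
    | nil => rfl
    | cons b w ih => simp only [List.flatMap_cons, List.length_append, ih, bumpGap,
        List.length_cons, List.length_nil]; ring
  have h2 : slotsOf (Step.slot :: Step.gap 1 :: (w.reverse.map negBump).flatMap bumpGap) = [0] := by
    rw [← List.singleton_append (x := Step.slot), slotsOf_append [Step.slot],
      slotsOf_cons (Step.gap 1) rfl, slotsOf_flatMap_bumpGap]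
    rfl
  rw [closedWord, slotsOf_cons _ rfl, slotsOf_append, slotsOf_flatMap_bumpGap, h2, hlen]
  simp only [List.nil_append, List.map_cons, List.map_nil]
  congr 1
  omega

lemma slotsOf_composite_length (groups : ℕ) (words : List Word) :
    (slotsOf (composite groups words)).length = groups * words.length := by
  have hw : (slotsOf (words.flatMap closedWord)).length = words.length := by
    induction words with
    | nil => rfl
    | cons w ws ih => simp [List.flatMap_cons, slotsOf_append, slotsOf_closedWord, ih, Nat.add_comm]
  induction groups with
  | zero => simp [composite, slotsOf]
  | succ n ih =>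
    simp only [composite, List.replicate_succ, List.flatten_cons] at ih ⊢
    rw [slotsOf_append, List.length_append, List.length_map, hw, ih]
    ring

/-- The slots of a period, composite after composite: slot `q * S + s` is the `s`-th slot of
composite `q % 3` of transposition `q / 3`. -/
lemma slotsOf_periodSteps (groups : ℕ) (words : List Word) (cs : List Crossing) :
    slotsOf (periodSteps groups words cs) =
      (List.range (3 * cs.length)).flatMap fun q =>
        (slotsOf (composite groups words)).map (compOffset groups words (q / 3) (q % 3) + ·) := by
  induction cs using List.reverseRecOn with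
  | nil => simp [periodSteps, slotsOf]
  | append_singleton cs c ih =>
    have h : periodSteps groups words (cs ++ [c]) =
        periodSteps groups words cs ++ crossingSteps (composite groups words) c := by
      simp [periodSteps]
    have hr : List.range (3 * (cs ++ [c]).length) = List.range (3 * cs.length) ++
        [3 * cs.length, 3 * cs.length + 1, 3 * cs.length + 2] := by
      rw [List.length_append, List.length_singleton, Nat.mul_add, List.range_add]
      rfl
    rw [h, slotsOf_append, ih, hr, List.flatMap_append, periodSteps_length]
    congr 1
    set C := composite groups words with hC
    simp only [crossingSteps, slotsOf_append, slotsOf_cons _ (rfl : (Step.round _).isSlot = false),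
      slotsOf_cons _ (rfl : (Step.cross _ _).isSlot = false), List.length_cons,
      List.map_append, List.map_map, List.flatMap_cons, List.flatMap_nil, List.append_nil,
      List.append_assoc]
    have h0 : 3 * cs.length / 3 = cs.length := by omega
    have h1 : (3 * cs.length + 1) / 3 = cs.length := by omega
    have h2 : (3 * cs.length + 2) / 3 = cs.length := by omega
    have g0 : 3 * cs.length % 3 = 0 := by omega
    have g1 : (3 * cs.length + 1) % 3 = 1 := by omega
    have g2 : (3 * cs.length + 2) % 3 = 2 := by omega
    simp only [h0, h1, h2, g0, g1, g2, compOffset, ← hC]
    congr 1
    · refine List.map_congr_left fun k _ => ?_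
      simp only [Function.comp_apply]; ring
    congr 1
    · refine List.map_congr_left fun k _ => ?_
      simp only [Function.comp_apply]; ring
    · refine List.map_congr_left fun k _ => ?_
      simp only [Function.comp_apply]; ring

end

end Vale.Agent.P225.Sched
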