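import Vale.Agent.P225.Sched.Growth

/-!
P225: the continuous norming path.

It is the diagonal reference flow applied to the designed coefficients, each transvection being
switched on linearly during the last unit of time before its nominal time.
-/

namespace Vale.Agent.P225.Growth

open Filter Finset

noncomputable section

variable {ι : Type*} [Fintype ι] [DecidableEq ι]

/-- The diagonal operator with entries `d`. -/
def diag (d : ι → ℝ) : EuclideanSpace ℝ ι →L[ℝ] EuclideanSpace ℝ ι :=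
  ∑ a, (d a • EuclideanSpace.proj (𝕜 := ℝ) a).smulRight (EuclideanSpace.single a (1 : ℝ))

@[simp] lemma diag_apply (d : ι → ℝ) (x : EuclideanSpace ℝ ι) (b : ι) :
    diag d x b = d b * x b := by
  simp [diag, Finset.sum_apply, Pi.single_apply]

lemma norm_diag_le {d : ι → ℝ} {D : ℝ} (hD : 0 ≤ D) (h : ∀ a, |d a| ≤ D)
    (x : EuclideanSpace ℝ ι) : ‖diag d x‖ ≤ D * ‖x‖ := by
  rw [EuclideanSpace.norm_eq, EuclideanSpace.norm_eq]
  refine (Real.sqrt_le_sqrt (show ∑ a, ‖diag d x a‖ ^ 2 ≤ D ^ 2 * ∑ a, ‖x a‖ ^ 2 from ?_)).trans ?_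
  · rw [mul_sum]
    refine sum_le_sum fun a _ => ?_
    rw [diag_apply, norm_mul, mul_pow, Real.norm_eq_abs]
    gcongr
    exact h a
  · rw [Real.sqrt_mul (sq_nonneg D), Real.sqrt_sq hD]

namespace Plan

variable (p : Plan ι)

/-- The diagonal reference frame. -/
def refFrame : Frame ι (EuclideanSpace ℝ ι) where
  v a := EuclideanSpace.single a 1
  w a := EuclideanSpace.proj a
  dual a b := by simp [PiLp.single_apply]
  Φ t := diag fun a => Real.exp (p.E a t)
  Ψ t := diag fun a => Real.exp (-p.E a t)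
  ΦΨ t x := by ext a; simp [← mul_assoc, ← Real.exp_add]
  ΨΦ t x := by ext a; simp [← mul_assoc, ← Real.exp_add]

lemma norm_ref_fwd {R : ℝ} (hup : ∀ a s t, s ≤ t → p.E a t - p.E a s ≤ R * (t - s))
    (s t : ℝ) (hst : s ≤ t) (x : EuclideanSpace ℝ ι) :
    ‖p.refFrame.Φ t (p.refFrame.Ψ s x)‖ ≤ Real.exp (R * t - R * s) * ‖x‖ := by
  have e : p.refFrame.Φ t (p.refFrame.Ψ s x) =
      diag (fun a => Real.exp (p.E a t - p.E a s)) x := by
    ext a; simp [refFrame, ← mul_assoc, ← Real.exp_add, sub_eq_add_neg]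
  rw [e]
  refine norm_diag_le (Real.exp_pos _).le (fun a => ?_) x
  rw [Real.abs_exp, Real.exp_le_exp, ← mul_sub]
  exact hup a s t hst

lemma norm_ref_bwd {l : ℝ} (hlo : ∀ a s t, s ≤ t → l * (t - s) ≤ p.E a t - p.E a s)
    (s t : ℝ) (hst : s ≤ t) (x : EuclideanSpace ℝ ι) :
    ‖p.refFrame.Φ s (p.refFrame.Ψ t x)‖ ≤ Real.exp (l * s - l * t) * ‖x‖ := by
  have e : p.refFrame.Φ s (p.refFrame.Ψ t x) =
      diag (fun a => Real.exp (p.E a s - p.E a t)) x := by
    ext a; simp [refFrame, ← mul_assoc, ← Real.exp_add, sub_eq_add_neg]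
  rw [e]
  refine norm_diag_le (Real.exp_pos _).le (fun a => ?_) x
  rw [Real.abs_exp, Real.exp_le_exp, ← mul_sub]
  linarith [hlo a s t hst]

omit [Fintype ι] [DecidableEq ι] in
/-- The switch of the `k`-th transvection. -/
def ramp (k : ℕ) (t : ℝ) : ℝ := max 0 (min 1 (t - (p.τ k - 1)))

omit [Fintype ι] [DecidableEq ι] in
lemma ramp_eq_zero {k : ℕ} {t : ℝ} (h : t ≤ p.τ k - 1) : p.ramp k t = 0 :=
  max_eq_left ((min_le_right _ _).trans (sub_nonpos.2 h))

omit [Fintype ι] [DecidableEq ι] in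
lemma ramp_eq_one {k : ℕ} {t : ℝ} (h : p.τ k ≤ t) : p.ramp k t = 1 := by
  rw [ramp, min_eq_left (by linarith), max_eq_right zero_le_one]

omit [Fintype ι] [DecidableEq ι] in
lemma ramp_mem (k : ℕ) (t : ℝ) : 0 ≤ p.ramp k t ∧ p.ramp k t ≤ 1 :=
  ⟨le_max_left _ _, max_le zero_le_one (min_le_left _ _)⟩

/-- The norming path. -/
def path (t : ℝ) : EuclideanSpace ℝ ι →L[ℝ] EuclideanSpace ℝ ι :=
  (p.refFrame.Φ t).comp (((ContinuousLinearMap.id ℝ (EuclideanSpace ℝ ι)) + p.ramp (p.count t) t • p.nil p.refFrame (p.count t)).comp (p.X p.refFrame (p.count t)))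

/-- Its inverse. -/
def pathInv (t : ℝ) : EuclideanSpace ℝ ι →L[ℝ] EuclideanSpace ℝ ι :=
  ((p.Y p.refFrame (p.count t)).comp ((ContinuousLinearMap.id ℝ (EuclideanSpace ℝ ι)) - p.ramp (p.count t) t • p.nil p.refFrame (p.count t))).comp (p.refFrame.Ψ t)

lemma pathInv_path (t : ℝ) : (p.pathInv t).comp (p.path t) = (ContinuousLinearMap.id ℝ (EuclideanSpace ℝ ι)) := by
  ext1 x
  simp [path, pathInv, p.refFrame.ΨΦ, p.Y_X, p.nil_nil]

lemma path_eq (t : ℝ) (x : EuclideanSpace ℝ ι) :
    p.path t x = p.M p.refFrame t x + p.ramp (p.count t) t • p.jump p.refFrame (p.count t) t (p.M p.refFrame t x) := by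
  simp [path, M, jump, p.refFrame.ΨΦ]

lemma pathInv_eq (t : ℝ) (x : EuclideanSpace ℝ ι) :
    p.pathInv t x = p.Minv p.refFrame t (x - p.ramp (p.count t) t • p.jump p.refFrame (p.count t) t x) := by
  simp [pathInv, Minv, jump, p.refFrame.ΨΦ]

/-- Windows of the transvections, with sizes `ε`. -/
structure Windows (p : Plan ι) where
  /-- Window starts. -/
  lo : ℕ → ℝ
  lo_le : ∀ k, lo k ≤ p.τ k - 1
  τ_le : ∀ k, p.τ k ≤ lo (k + 1)
  /-- Sizes. -/
  ε : ℕ → ℝ
  /-- A bound for their sum. -/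
  S : ℝ
  sum_le : ∀ n, ∑ k ∈ range n, ε k ≤ S
  small : ∀ k, ∀ t ∈ Set.Icc (lo k) (p.τ k), ‖p.jump p.refFrame k t‖ ≤ ε k

namespace Windows

variable {p} (W : Windows p)

lemma sep (W : Windows p) (k : ℕ) : p.τ k + 1 ≤ p.τ (k + 1) := by linarith [W.τ_le k, W.lo_le (k + 1)]

lemma ε_nonneg (k : ℕ) : 0 ≤ W.ε k :=
  (norm_nonneg _).trans (W.small k (p.τ k) ⟨by linarith [W.lo_le k], le_rfl⟩)

lemma ε_le (k : ℕ) : W.ε k ≤ W.S :=
  (single_le_sum (fun i _ => W.ε_nonneg i) (mem_range.2 (Nat.lt_succ_self k))).trans (W.sum_le _)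

lemma sum_Ico_le (m n : ℕ) : ∑ k ∈ Ico m n, W.ε k ≤ W.S :=
  (sum_le_sum_of_subset_of_nonneg (fun k hk => by simp only [mem_Ico] at hk; simp [hk.2])
    fun i _ _ => W.ε_nonneg i).trans (W.sum_le n)

lemma S_nonneg : 0 ≤ W.S := by simpa using W.sum_le 0

/-- The switched part of a transvection stays small. -/
lemma ramp_jump_le (t : ℝ) (y : EuclideanSpace ℝ ι) :
    ‖p.ramp (p.count t) t • p.jump p.refFrame (p.count t) t y‖ ≤ W.ε (p.count t) * ‖y‖ := by
  set k := p.count t
  rcases le_or_gt t (p.τ k - 1) with h | h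
  · rw [p.ramp_eq_zero h, zero_smul, norm_zero]
    exact mul_nonneg (W.ε_nonneg k) (norm_nonneg y)
  · rw [norm_smul, Real.norm_eq_abs, abs_of_nonneg (p.ramp_mem k t).1]
    refine (mul_le_of_le_one_left (norm_nonneg _) (p.ramp_mem k t).2).trans ?_
    exact (p.jump p.refFrame k t).le_of_opNorm_le
      (W.small k t ⟨by linarith [W.lo_le k], (p.lt_τ_count t).le⟩) y

lemma add_jump_le (t : ℝ) (y : EuclideanSpace ℝ ι) :
    ‖y + p.ramp (p.count t) t • p.jump p.refFrame (p.count t) t y‖ ≤ Real.exp W.S * ‖y‖ := by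
  refine (norm_add_le _ _).trans ?_
  have h1 := W.ramp_jump_le t y
  have h2 := mul_le_mul_of_nonneg_right (W.ε_le (p.count t)) (norm_nonneg y)
  have h3 := mul_le_mul_of_nonneg_right (Real.add_one_le_exp W.S) (norm_nonneg y)
  linarith

lemma sub_jump_le (t : ℝ) (y : EuclideanSpace ℝ ι) :
    ‖y - p.ramp (p.count t) t • p.jump p.refFrame (p.count t) t y‖ ≤ Real.exp W.S * ‖y‖ := by
  refine (norm_sub_le _ _).trans ?_
  have h1 := W.ramp_jump_le t y
  have h2 := mul_le_mul_of_nonneg_right (W.ε_le (p.count t)) (norm_nonneg y)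
  have h3 := mul_le_mul_of_nonneg_right (Real.add_one_le_exp W.S) (norm_nonneg y)
  linarith

/-- Backward decay of the norming path. -/
theorem path_past (W : Windows p) {l : ℝ}
    (hlo : ∀ a s t, s ≤ t → l * (t - s) ≤ p.E a t - p.E a s) (t s : ℝ) (hst : s ≤ t) :
    ‖(p.path s).comp (p.pathInv t)‖ ≤ Real.exp (3 * W.S) * Real.exp (-l * (t - s)) := by
  refine ContinuousLinearMap.opNorm_le_bound _ (by positivity) fun x => ?_
  rw [ContinuousLinearMap.comp_apply, path_eq, pathInv_eq]
  refine (W.add_jump_le s _).trans ?_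
  have h := p.norm_back_le p.refFrame (L := fun u => l * u) (p.norm_ref_bwd hlo)
    (ε := W.ε) (fun k => W.small k _ ⟨by linarith [W.lo_le k], le_rfl⟩) hst
    (x - p.ramp (p.count t) t • p.jump p.refFrame (p.count t) t x)
  calc _ ≤ Real.exp W.S * (Real.exp (l * s - l * t + W.S) * (Real.exp W.S * ‖x‖)) := by
        gcongr
        refine h.trans ?_
        gcongr
        · exact W.sum_Ico_le _ _
        · exact W.sub_jump_le t x
    _ = _ := by
        rw [← mul_assoc, ← mul_assoc, ← Real.exp_add, ← Real.exp_add, ← Real.exp_add]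
        congr 2; ring

/-- Forward growth of the norming path. -/
theorem path_future (W : Windows p) {R : ℝ}
    (hup : ∀ a s t, s ≤ t → p.E a t - p.E a s ≤ R * (t - s)) (t s : ℝ) (hts : t ≤ s) :
    ‖(p.path s).comp (p.pathInv t)‖ ≤ Real.exp (3 * W.S) * Real.exp (R * (s - t)) := by
  refine ContinuousLinearMap.opNorm_le_bound _ (by positivity) fun x => ?_
  rw [ContinuousLinearMap.comp_apply, path_eq, pathInv_eq]
  refine (W.add_jump_le s _).trans ?_
  have h := p.norm_M_Minv_le p.refFrame (H := fun u => R * u) (p.norm_ref_fwd hup)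
    (ε := W.ε) (fun k => W.small k _ ⟨by linarith [W.lo_le k], le_rfl⟩) hts
    (x - p.ramp (p.count t) t • p.jump p.refFrame (p.count t) t x)
  calc _ ≤ Real.exp W.S * (Real.exp (R * s - R * t + W.S) * (Real.exp W.S * ‖x‖)) := by
        gcongr
        refine h.trans ?_
        gcongr
        · exact W.sum_Ico_le _ _
        · exact W.sub_jump_le t x
    _ = _ := by
        rw [← mul_assoc, ← mul_assoc, ← Real.exp_add, ← Real.exp_add, ← Real.exp_add]
        congr 2; ring

/-- Before a transvection, the designed value seen from the norming path. -/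
lemma ref_X_pathInv (W : Windows p) {k : ℕ} {t : ℝ} (h1 : ∀ k', k = k' + 1 → p.τ k' ≤ t)
    (h2 : t ≤ p.τ k) (x : EuclideanSpace ℝ ι) :
    p.refFrame.Φ t (p.X p.refFrame k (p.pathInv t x)) =
      x - p.ramp k t • p.jump p.refFrame k t x := by
  have hlow : k ≤ p.count t := p.le_count fun m hm => by
    obtain ⟨k', rfl⟩ : ∃ k', k = k' + 1 := ⟨k - 1, by omega⟩
    exact (p.mono (by omega : m ≤ k')).trans (h1 k' rfl)
  rcases h2.eq_or_lt with h | h
  · have hc : p.count t = k + 1 := le_antisymm (p.count_le (by linarith [W.sep k]))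
      (p.le_count fun m hm => (p.mono (by omega : m ≤ k)).trans h.ge)
    simp [pathInv, hc, Plan.Y, p.X_Y, p.ramp_eq_zero (k := k + 1) (t := t) (by linarith [W.sep k]),
      p.ramp_eq_one h.ge, p.refFrame.ΦΨ, Plan.jump]
  · have hc : p.count t = k := le_antisymm (p.count_le h) hlow
    simp [pathInv, hc, p.X_Y, p.refFrame.ΦΨ, Plan.jump]

/-- `‖A Ψ y‖ ≤ card * ‖y‖` when `A` maps the `a`-th basis vector to size `exp (E a)`. -/
lemma norm_phys_le {G : Type*} [NormedAddCommGroup G] [NormedSpace ℝ G] (p : Plan ι) {t : ℝ}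
    (A : EuclideanSpace ℝ ι →L[ℝ] G)
    (hA : ∀ a, ‖A (EuclideanSpace.single a 1)‖ ≤ Real.exp (p.E a t)) (y : EuclideanSpace ℝ ι) :
    ‖A (p.refFrame.Ψ t y)‖ ≤ Fintype.card ι * ‖y‖ := by
  have e : p.refFrame.Ψ t y = ∑ a, (Real.exp (-p.E a t) * y a) • EuclideanSpace.single a (1 : ℝ) := by
    ext b; simp [refFrame, Pi.single_apply, Finset.sum_apply]
  rw [e, map_sum]
  refine (norm_sum_le _ _).trans ?_
  refine (sum_le_card_nsmul _ _ ‖y‖ fun a _ => ?_).trans (by rw [nsmul_eq_mul]; rfl)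
  rw [map_smul, norm_smul, Real.norm_eq_abs, abs_mul, Real.abs_exp]
  calc Real.exp (-p.E a t) * |y a| * ‖A (EuclideanSpace.single a 1)‖
      ≤ Real.exp (-p.E a t) * |y a| * Real.exp (p.E a t) := by gcongr; exact hA a
    _ = |y a| := by rw [mul_right_comm, ← Real.exp_add]; simp
    _ ≤ ‖y‖ := PiLp.norm_apply_le y a

/-- The designed values are bounded by the norming path. -/
theorem X_le (W : Windows p) {G : Type*} [NormedAddCommGroup G] [NormedSpace ℝ G] {k : ℕ} {t : ℝ}
    (h1 : ∀ k', k = k' + 1 → p.τ k' ≤ t) (h2 : t ≤ p.τ k) (A : EuclideanSpace ℝ ι →L[ℝ] G)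
    (hA : ∀ a, ‖A (EuclideanSpace.single a 1)‖ ≤ Real.exp (p.E a t)) :
    ‖A.comp ((p.X p.refFrame k).comp (p.pathInv t))‖ ≤ Fintype.card ι * Real.exp W.S := by
  refine ContinuousLinearMap.opNorm_le_bound _ (by positivity) fun x => ?_
  have e : (p.X p.refFrame k) (p.pathInv t x) =
      p.refFrame.Ψ t (x - p.ramp k t • p.jump p.refFrame k t x) := by
    rw [← W.ref_X_pathInv h1 h2, p.refFrame.ΨΦ]
  rw [ContinuousLinearMap.comp_apply, ContinuousLinearMap.comp_apply, e]
  refine (norm_phys_le p A hA _).trans ?_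
  rw [mul_assoc]
  gcongr
  refine (norm_sub_le _ _).trans ?_
  have h3 := mul_le_mul_of_nonneg_right (Real.add_one_le_exp W.S) (norm_nonneg x)
  have h4 : ‖p.ramp k t • p.jump p.refFrame k t x‖ ≤ W.S * ‖x‖ := by
    rcases le_or_gt t (p.τ k - 1) with h | h
    · rw [p.ramp_eq_zero h, zero_smul, norm_zero]
      exact mul_nonneg W.S_nonneg (norm_nonneg x)
    · rw [norm_smul, Real.norm_eq_abs, abs_of_nonneg (p.ramp_mem k t).1]
      refine (mul_le_of_le_one_left (norm_nonneg _) (p.ramp_mem k t).2).trans ?_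
      refine ((p.jump p.refFrame k t).le_of_opNorm_le
        (W.small k t ⟨by linarith [W.lo_le k], h2⟩) x).trans ?_
      exact mul_le_mul_of_nonneg_right (W.ε_le k) (norm_nonneg x)
  linarith

/-- The change of the designed value in a window is as small as the transvection. -/
theorem dX_le (W : Windows p) {G : Type*} [NormedAddCommGroup G] [NormedSpace ℝ G] {k : ℕ} {t : ℝ}
    (ht : t ∈ Set.Icc (W.lo k) (p.τ k)) (A : EuclideanSpace ℝ ι →L[ℝ] G)
    (hA : ∀ a, ‖A (EuclideanSpace.single a 1)‖ ≤ Real.exp (p.E a t)) :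
    ‖A.comp ((p.X p.refFrame (k + 1) - p.X p.refFrame k).comp (p.pathInv t))‖ ≤
      Fintype.card ι * (W.ε k * Real.exp W.S) := by
  have h1 : ∀ k', k = k' + 1 → p.τ k' ≤ t := fun k' hk => (W.τ_le k').trans (hk ▸ ht.1)
  refine ContinuousLinearMap.opNorm_le_bound _ (mul_nonneg (Nat.cast_nonneg _)
    (mul_nonneg (W.ε_nonneg k) (Real.exp_pos _).le)) fun x => ?_
  set z := x - p.ramp k t • p.jump p.refFrame k t x
  have e : (p.X p.refFrame (k + 1) - p.X p.refFrame k) (p.pathInv t x) =
      p.refFrame.Ψ t (p.jump p.refFrame k t z) := by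
    rw [show z = p.refFrame.Φ t (p.X p.refFrame k (p.pathInv t x)) from
      (W.ref_X_pathInv h1 ht.2 x).symm]
    simp [Plan.X, Plan.jump, p.refFrame.ΨΦ]
  rw [ContinuousLinearMap.comp_apply, ContinuousLinearMap.comp_apply, e]
  refine (norm_phys_le p A hA _).trans ?_
  rw [mul_assoc, mul_assoc (W.ε k)]
  gcongr
  refine ((p.jump p.refFrame k t).le_of_opNorm_le (W.small k t ht) z).trans ?_
  gcongr
  · exact W.ε_nonneg k
  refine (norm_sub_le _ _).trans ?_
  have h3 := mul_le_mul_of_nonneg_right (Real.add_one_le_exp W.S) (norm_nonneg x)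
  have h4 : ‖p.ramp k t • p.jump p.refFrame k t x‖ ≤ W.S * ‖x‖ := by
    rw [norm_smul, Real.norm_eq_abs, abs_of_nonneg (p.ramp_mem k t).1]
    refine (mul_le_of_le_one_left (norm_nonneg _) (p.ramp_mem k t).2).trans ?_
    refine ((p.jump p.refFrame k t).le_of_opNorm_le (W.small k t ht) x).trans ?_
    exact mul_le_mul_of_nonneg_right (W.ε_le k) (norm_nonneg x)
  linarith

/-- All switches up to `m`, as a product. -/
def switched (p : Plan ι) : ℕ → ℝ → EuclideanSpace ℝ ι →L[ℝ] EuclideanSpace ℝ ι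
  | 0, _ => ContinuousLinearMap.id ℝ _
  | m + 1, t => (ContinuousLinearMap.id ℝ _ + p.ramp m t • p.nil p.refFrame m).comp (switched p m t)

/-- Their inverse. -/
def switchedInv (p : Plan ι) : ℕ → ℝ → EuclideanSpace ℝ ι →L[ℝ] EuclideanSpace ℝ ι
  | 0, _ => ContinuousLinearMap.id ℝ _
  | m + 1, t => (switchedInv p m t).comp (ContinuousLinearMap.id ℝ _ - p.ramp m t • p.nil p.refFrame m)

lemma switched_eq (W : Windows p) (t : ℝ) : ∀ m, p.count t < m →
    switched p m t = (ContinuousLinearMap.id ℝ _ +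
        p.ramp (p.count t) t • p.nil p.refFrame (p.count t)).comp (p.X p.refFrame (p.count t)) ∧
    switchedInv p m t = (p.Y p.refFrame (p.count t)).comp (ContinuousLinearMap.id ℝ _ -
        p.ramp (p.count t) t • p.nil p.refFrame (p.count t)) := by
  have hlo : ∀ m, m ≤ p.count t →
      switched p m t = p.X p.refFrame m ∧ switchedInv p m t = p.Y p.refFrame m := by
    intro m
    induction m with
    | zero => intro _; exact ⟨rfl, rfl⟩
    | succ m ih =>
      intro hm
      obtain ⟨h1, h2⟩ := ih (by omega)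
      simp [switched, switchedInv, h1, h2, Plan.X, Plan.Y,
        p.ramp_eq_one (p.τ_le_of_lt_count (show m < p.count t by omega))]
  intro m hm
  induction m, hm using Nat.le_induction with
  | base =>
    obtain ⟨h1, h2⟩ := hlo _ le_rfl
    simp [switched, switchedInv, h1, h2]
  | succ m hm ih =>
    have h0 : p.ramp m t = 0 := p.ramp_eq_zero (by
      obtain ⟨j, rfl⟩ : ∃ j, m = j + 1 := ⟨m - 1, by omega⟩
      linarith [W.sep j, p.lt_τ_of_count_le (show p.count t ≤ j by omega)])
    simp only [switched, switchedInv, h0, zero_smul, add_zero, sub_zero,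
      ContinuousLinearMap.id_comp, ContinuousLinearMap.comp_id, ih, and_self]

omit [Fintype ι] [DecidableEq ι] in
lemma continuous_ramp (p : Plan ι) (k : ℕ) : Continuous (p.ramp k) := by
  unfold Plan.ramp; fun_prop

lemma continuous_switched (p : Plan ι) : ∀ m,
    Continuous (switched p m) ∧ Continuous (switchedInv p m) := by
  intro m
  induction m with
  | zero => exact ⟨continuous_const, continuous_const⟩
  | succ m ih =>
    exact ⟨(continuous_const.add ((continuous_ramp p m).smul continuous_const)).clm_comp ih.1,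
      ih.2.clm_comp (continuous_const.sub ((continuous_ramp p m).smul continuous_const))⟩

/-- The norming path and its inverse are continuous. -/
theorem continuous_path (W : Windows p) (hE : ∀ a, Continuous (p.E a)) :
    Continuous p.path ∧ Continuous p.pathInv := by
  have hΦ : ∀ f : ι → ℝ → ℝ, (∀ a, Continuous (f a)) →
      Continuous fun t => diag fun a => f a t := by
    intro f hf
    unfold diag
    refine continuous_finsetSum _ fun a _ => ?_
    exact ((ContinuousLinearMap.smulRightL ℝ (EuclideanSpace ℝ ι) (EuclideanSpace ℝ ι)).flip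
      (EuclideanSpace.single a (1 : ℝ))).continuous.comp ((hf a).smul continuous_const)
  have h1 := hΦ (fun a t => Real.exp (p.E a t)) fun a => Real.continuous_exp.comp (hE a)
  have h2 := hΦ (fun a t => Real.exp (-p.E a t)) fun a => Real.continuous_exp.comp (hE a).neg
  have key : ∀ t, (p.path =ᶠ[nhds t] fun s =>
        (p.refFrame.Φ s).comp (switched p (p.count (t + 1) + 1) s)) ∧
      (p.pathInv =ᶠ[nhds t] fun s =>
        (switchedInv p (p.count (t + 1) + 1) s).comp (p.refFrame.Ψ s)) := by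
    intro t
    constructor <;>
    · filter_upwards [Iio_mem_nhds (show t < t + 1 by linarith)] with s hs
      obtain ⟨e1, e2⟩ := W.switched_eq s (p.count (t + 1) + 1)
        (Nat.lt_succ_of_le (p.count_mono (le_of_lt hs)))
      simp only [Plan.path, Plan.pathInv, e1, e2]
  exact ⟨continuous_iff_continuousAt.2 fun t =>
      ((h1.clm_comp (continuous_switched p _).1).continuousAt).congr (key t).1.symm,
    continuous_iff_continuousAt.2 fun t =>
      (((continuous_switched p _).2.clm_comp h2).continuousAt).congr (key t).2.symm⟩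

/-- Growth of the norming path at the mean rate. -/
theorem path_growth (W : Windows p) (b : Budget p) {μ : ℝ} (hμ : 0 ≤ μ) {q : ℕ} (hq : 0 < q)
    (hcyc : p.cyc ^ q = 1)
    (hmean : ∀ s, ∑ i ∈ range q, b.rate ((p.cyc ^ i) s) ≤ μ * q) {δ : ℝ} (hδ : 0 < δ) :
    ∃ C, ∀ t ≥ 0, ∀ x, ‖p.path t x‖ ≤ C * Real.exp ((μ + δ) * t) * ‖x‖ := by
  have hg := fun s => b.growth p.refFrame (κ := fun _ => 0)
    (fun d hd => ⟨0, fun t ht => by simpa using mul_nonneg hd.le ht⟩)
    (fun t _ a => by
      have e : p.refFrame.Φ t (p.refFrame.v a) = Real.exp (p.E a t) • p.refFrame.v a := by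
        ext c
        simp only [Plan.refFrame, diag_apply, PiLp.smul_apply, smul_eq_mul, PiLp.single_apply]
        split_ifs with h <;> simp [h]
      rw [e, norm_smul, Real.norm_eq_abs, Real.abs_exp, add_zero]
      simp [Plan.refFrame, PiLp.norm_single])
    s hμ hq hcyc (hmean s) hδ
  choose C hC using hg
  refine ⟨Real.exp W.S * ∑ s, max (C s) 0, fun t ht x => ?_⟩
  rw [path_eq]
  refine (W.add_jump_le t _).trans ?_
  have e : x = ∑ s, x s • p.refFrame.v s := by
    ext b; simp [refFrame, Pi.single_apply, Finset.sum_apply]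
  conv_lhs => rw [e, map_sum]
  rw [mul_assoc, mul_assoc]
  refine mul_le_mul_of_nonneg_left ((norm_sum_le _ _).trans ?_) (Real.exp_pos _).le
  rw [sum_mul]
  refine sum_le_sum fun s _ => ?_
  rw [map_smul, norm_smul, mul_comm]
  calc ‖p.M p.refFrame t (p.refFrame.v s)‖ * ‖x s‖
      ≤ max (C s) 0 * Real.exp ((μ + δ) * t) * ‖x‖ := by
        gcongr
        · exact (hC s t ht).trans (by gcongr; exact le_max_left _ _)
        · exact PiLp.norm_apply_le x s
    _ = _ := mul_assoc _ _ _

end Windows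

end Plan

end

end Vale.Agent.P225.Growth
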