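import Vale.Agent.P225.Sched.Timeline
import Vale.Agent.P225.Sched.Norming

/-!
P225 Sched: the schedule satisfies the time budget of the growth bound, and the transvections of a
transposition are exponentially small.
-/

namespace Vale.Agent.P225.Sched

open Filter Finset Asymptotics

noncomputable section

namespace Params

variable (p : Params)

lemma P_zero : p.P 0 = (p.N0 : ℝ) := by simp [P, start, time]

/-- Elapsed time grows like `n ^ 8`. -/
lemma P_ge (i : ℕ) : (((i + p.N0 : ℕ) : ℝ) ^ 8 - (p.N0 : ℝ) ^ 8) / 255 ≤ p.P i := by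
  induction i with
  | zero => rw [p.P_zero]; simp
  | succ i ih =>
    rw [p.P_succ]
    set n := ((i + p.N0 : ℕ) : ℝ) with hn
    have h1 : (1 : ℝ) ≤ n := p.one_le_size i
    have hpow : ∀ k ≤ 7, n ^ k ≤ n ^ 7 := fun k hk => pow_le_pow_right₀ h1 hk
    have hexc : 0 ≤ p.exc i := p.excAt_nonneg (Nat.cast_nonneg _)
    rw [show ((i + 1 + p.N0 : ℕ) : ℝ) = n + 1 by simp [hn]; ring]
    have e : (n + 1) ^ 8 = n ^ 8 + 8 * n ^ 7 + 28 * n ^ 6 + 56 * n ^ 5 + 70 * n ^ 4 + 56 * n ^ 3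
        + 28 * n ^ 2 + 8 * n ^ 1 + n ^ 0 := by ring
    have := hpow 0 (by norm_num)
    have := hpow 1 (by norm_num)
    have := hpow 2 (by norm_num)
    have := hpow 3 (by norm_num)
    have := hpow 4 (by norm_num)
    have := hpow 5 (by norm_num)
    have := hpow 6 (by norm_num)
    rw [div_le_iff₀ (by norm_num : (0 : ℝ) < 255)] at ih ⊢
    rw [e]
    linarith

lemma tendsto_size : Tendsto (fun i : ℕ => ((i + p.N0 : ℕ) : ℝ)) atTop atTop :=
  tendsto_natCast_atTop_atTop.comp (tendsto_add_atTop_nat p.N0)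

lemma len_isBigO (hns : Step.stay ∉ p.steps) (i : ℕ) :
    p.P (i + 1) - p.P i ≤ ((p.steps.map Step.durCoef).sum + 1) * ((i + p.N0 : ℕ) : ℝ) ^ 7 := by
  rw [p.P_succ]
  have h1 := p.exc_le hns i
  have h2 : ((i + p.N0 : ℕ) : ℝ) ^ 6 ≤ ((i + p.N0 : ℕ) : ℝ) ^ 7 :=
    pow_le_pow_right₀ (p.one_le_size i) (by norm_num)
  have h3 : 0 ≤ (p.steps.map Step.durCoef).sum := List.sum_nonneg fun x hx => by
    obtain ⟨s, _, rfl⟩ := List.mem_map.1 hx
    cases s <;> simp only [Step.durCoef] <;> positivity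
  have := mul_le_mul_of_nonneg_left h2 h3
  linarith

lemma len_small (hns : Step.stay ∉ p.steps) :
    (fun i => p.P (i + 1) - p.P i) =o[atTop] p.P := by
  set D := (p.steps.map Step.durCoef).sum + 1
  refine isLittleO_iff.2 fun c hc => ?_
  filter_upwards [p.tendsto_size.eventually_ge_atTop (510 * D / c),
    p.tendsto_size.eventually_ge_atTop (2 * (p.N0 : ℝ) ^ 8)] with i h1 h2
  set n := ((i + p.N0 : ℕ) : ℝ)
  have hn : (1 : ℝ) ≤ n := p.one_le_size i
  have h8 : n ≤ n ^ 8 := le_self_pow₀ hn (by norm_num)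
  have hP := p.P_ge i
  rw [div_le_iff₀ (by norm_num : (0 : ℝ) < 255)] at hP
  rw [div_le_iff₀ hc] at h1
  have hP0 : 0 ≤ p.P i := by
    have : (0 : ℝ) ≤ n := by linarith
    nlinarith [pow_nonneg (Nat.cast_nonneg (α := ℝ) p.N0) 8]
  rw [Real.norm_of_nonneg (p.P_len_pos i).le, Real.norm_of_nonneg hP0]
  refine (p.len_isBigO hns i).trans ?_
  have h9 := mul_le_mul_of_nonneg_right h1 (pow_nonneg (by linarith : (0 : ℝ) ≤ n) 7)
  nlinarith

lemma exc_small (hns : Step.stay ∉ p.steps) :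
    p.exc =o[atTop] fun i => p.P (i + 1) - p.P i := by
  set D := (p.steps.map Step.durCoef).sum
  refine isLittleO_iff.2 fun c hc => ?_
  filter_upwards [p.tendsto_size.eventually_ge_atTop (D / c)] with i h1
  set n := ((i + p.N0 : ℕ) : ℝ)
  rw [div_le_iff₀ hc] at h1
  have he : 0 ≤ p.exc i := p.excAt_nonneg (Nat.cast_nonneg _)
  rw [Real.norm_of_nonneg he, Real.norm_of_nonneg (p.P_len_pos i).le, p.P_succ]
  have h6 := mul_le_mul_of_nonneg_right h1 (pow_nonneg (Nat.cast_nonneg (α := ℝ) (i + p.N0)) 6)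
  have := mul_nonneg hc.le he
  have := p.exc_le hns i
  nlinarith

lemma const_small (C : ℝ) : (fun _ : ℕ => C) =o[atTop] fun i => p.P (i + 1) - p.P i := by
  refine isLittleO_iff.2 fun c hc => ?_
  filter_upwards [p.tendsto_size.eventually_ge_atTop (‖C‖ / c)] with i h1
  rw [div_le_iff₀ hc] at h1
  rw [Real.norm_of_nonneg (p.P_len_pos i).le, p.P_succ]
  have : 0 ≤ p.exc i := p.excAt_nonneg (Nat.cast_nonneg _)
  have h7 : ((i + p.N0 : ℕ) : ℝ) ≤ ((i + p.N0 : ℕ) : ℝ) ^ 7 :=
    le_self_pow₀ (p.one_le_size i) (by norm_num)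
  have := mul_le_mul_of_nonneg_left h7 hc.le
  nlinarith

/-- The time budget of the schedule. -/
def budget {ι : Type*} (g : Growth.Plan ι) (rate : ι → ℝ) (R C : ℝ)
    (hns : Step.stay ∉ p.steps)
    (hin : ∀ i, ∀ r < g.N, p.P i ≤ g.τ (3 * (i * g.N + r)) ∧
      g.τ (3 * (i * g.N + r) + 2) ≤ p.P i + p.exc i)
    (hlip : ∀ a s t, |g.E a t - g.E a s| ≤ R * |t - s|)
    (hrate : ∀ a, |rate a| ≤ R)
    (hstay : ∀ a i, g.E a (p.P (i + 1)) - g.E a (p.P i + p.exc i) ≤
      rate a * (p.P (i + 1) - (p.P i + p.exc i)) + C) :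
    Growth.Budget g where
  P := p.P
  exc := p.exc
  err _ := C
  rate := rate
  R := R
  P_nonneg := by rw [p.P_zero]; positivity
  exc_nonneg i := p.excAt_nonneg (Nat.cast_nonneg _)
  exc_le i := by
    rw [p.P_succ]
    linarith [pow_nonneg (Nat.cast_nonneg (α := ℝ) (i + p.N0)) 7]
  len_mono := p.len_mono
  len_pos := p.P_len_pos
  len_small := p.len_small hns
  exc_small := p.exc_small hns
  err_small := p.const_small C
  inside := hin
  lip := hlip
  rate_le := hrate
  stay := hstay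

end Params

end

end Vale.Agent.P225.Sched

namespace Vale.Agent.P225.Growth

open Finset

noncomputable section

variable {ι : Type*} [Fintype ι] [DecidableEq ι]

/-- A transposition: three windows ending at the times `τ`, a rising stretch `[c, d]` between the
first two, a falling stretch `[e, f]` between the last two, and a margin. -/
structure Phase (g : Plan ι) (n : ℕ) where
  /-- Window starts. -/
  a : Fin 3 → ℝ
  /-- Start of the rising stretch. -/
  c : ℝ
  /-- Its end. -/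
  d : ℝ
  /-- Start of the falling stretch. -/
  e : ℝ
  /-- Its end. -/
  f : ℝ
  /-- A bound for the slope of the difference of log scales. -/
  R : ℝ
  /-- Slope on the rising stretch. -/
  up : ℝ
  /-- Slope on the falling stretch. -/
  down : ℝ
  /-- The margin. -/
  m : ℝ
  a_le : ∀ s : Fin 3, a s ≤ g.τ (3 * n + s)
  b0_c : g.τ (3 * n) ≤ c
  c_d : c ≤ d
  d_b1 : d ≤ g.τ (3 * n + 1)
  b1_e : g.τ (3 * n + 1) ≤ e
  e_f : e ≤ f
  f_a2 : f ≤ a 2
  lip : ∀ s t, |g.diff n t - g.diff n s| ≤ R * |t - s|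
  rise : g.diff n c + up * (d - c) ≤ g.diff n d
  fall : g.diff n f ≤ g.diff n e - down * (f - e)
  margin_up : 2 * m + R * (c - g.τ (3 * n) + (g.τ (3 * n + 1) - d))
    + 2 * R * ((g.τ (3 * n) - a 0) + (g.τ (3 * n + 1) - a 1)) ≤ up * (d - c)
  margin_down : m + R * (g.τ (3 * n + 1) - g.τ (3 * n))
    + R * (e - g.τ (3 * n + 1) + (g.τ (3 * n + 2) - f)) ≤ down * (f - e)

/-- Transvections of a phase have size at most `exp (-m)` in the reference frame. -/
theorem Phase.small {g : Plan ι} {n : ℕ} (ph : Phase g n) (s : Fin 3) {t : ℝ}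
    (ht : t ∈ Set.Icc (ph.a s) (g.τ (3 * n + s))) :
    ‖g.jump g.refFrame (3 * n + s) t‖ ≤ Real.exp (-ph.m) := by
  have hR : 0 ≤ ph.R := by
    have h := ph.lip 0 1
    rw [sub_zero, abs_one, mul_one] at h
    exact (abs_nonneg _).trans h
  have hv : ∀ c : ι, ‖g.refFrame.Φ t (g.refFrame.v c)‖ ≤ Real.exp (g.E c t + 0) := fun c => by
    have e : g.refFrame.Φ t (g.refFrame.v c) = Real.exp (g.E c t) • g.refFrame.v c := by
      ext b
      simp only [Plan.refFrame, diag_apply, PiLp.smul_apply, smul_eq_mul, PiLp.single_apply]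
      split_ifs with h <;> simp [h]
    rw [e, norm_smul, Real.norm_eq_abs, Real.abs_exp, add_zero]
    simp [Plan.refFrame, PiLp.norm_single]
  have hw : ∀ c : ι, ‖(g.refFrame.w c).comp (g.refFrame.Ψ t)‖ ≤ Real.exp (-g.E c t + 0) := fun c => by
    refine ContinuousLinearMap.opNorm_le_bound _ (Real.exp_pos _).le fun x => ?_
    simp only [Plan.refFrame, ContinuousLinearMap.comp_apply, PiLp.proj_apply, diag_apply, norm_mul,
      Real.norm_eq_abs, Real.abs_exp, add_zero]
    exact mul_le_mul_of_nonneg_left (PiLp.norm_apply_le x c) (Real.exp_pos _).le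
  refine (g.norm_jump_le g.refFrame _ _ (hv _) (hw _)).trans (Real.exp_le_exp.2 ?_)
  have L : ∀ u v, u ≤ v → g.diff n v - g.diff n u ≤ ph.R * (v - u) ∧
      g.diff n u - g.diff n v ≤ ph.R * (v - u) := fun u v huv => by
    have h := abs_le.1 (ph.lip u v)
    rw [abs_of_nonneg (sub_nonneg.2 huv)] at h
    exact ⟨h.2, by linarith [h.1]⟩
  have h0 := (L _ _ ph.b0_c).2
  have h1 := (L _ _ ph.d_b1).2
  have hrise := ph.rise
  have hm := ph.margin_up
  have hbb : g.τ (3 * n) ≤ g.τ (3 * n + 1) := g.mono (by omega)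
  have p0 : 0 ≤ ph.R * (g.τ (3 * n) - ph.a 0) :=
    mul_nonneg hR (sub_nonneg.2 (by simpa using ph.a_le 0))
  have p1 : 0 ≤ ph.R * (g.τ (3 * n + 1) - ph.a 1) :=
    mul_nonneg hR (sub_nonneg.2 (by simpa using ph.a_le 1))
  rw [show (3 * n + (s : ℕ)) / 3 = n by omega, show (3 * n + (s : ℕ)) % 3 = s by omega]
  unfold Plan.gam
  fin_cases s
  · simp only [Nat.add_zero, Fin.zero_eta] at ht ⊢
    rw [if_neg (by norm_num)]
    have h2 := (L _ _ ht.2).2
    have h3 : ph.R * (g.τ (3 * n) - t) ≤ ph.R * (g.τ (3 * n) - ph.a 0) :=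
      mul_le_mul_of_nonneg_left (by linarith [ht.1]) hR
    linarith
  · simp only [Fin.mk_one] at ht ⊢
    simp only [if_true]
    have h2 := (L _ _ ht.2).1
    have h3 : ph.R * (g.τ (3 * n + 1) - t) ≤ ph.R * (g.τ (3 * n + 1) - ph.a 1) :=
      mul_le_mul_of_nonneg_left (by linarith [ht.1]) hR
    linarith
  · simp only [Fin.reduceFinMk] at ht ⊢
    rw [if_neg (by norm_num)]
    have h2 := (L _ _ (show ph.f ≤ t by linarith [ph.f_a2, ht.1])).1
    have h3 : ph.R * (t - ph.f) ≤ ph.R * (g.τ (3 * n + 2) - ph.f) :=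
      mul_le_mul_of_nonneg_left (by linarith [ht.2]) hR
    have h4 := (L _ _ ph.b1_e).1
    have h5 := (L _ _ hbb).1
    have h6 := ph.fall
    have h7 := ph.margin_down
    have h8 : 0 ≤ ph.R * (g.τ (3 * n + 1) - g.τ (3 * n)) := mul_nonneg hR (sub_nonneg.2 hbb)
    linarith

end

end Vale.Agent.P225.Growth
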