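import Vale.Agent.P225.Sched.Scalar

/-!
P225: scalar potentials of the shape path.

On the weight block `m` of degree `j` the potential is `lamW` up to `lamDev`; on a whole
degree it lies between `e^{∓ 4 B}` times the round one when all squashes are at most `B`. Also
basic facts on the reference exponent `pW` and its integral `expo`.
-/

namespace Vale.Agent.P225.Sched

open Vale.Agent.P225.Barrier
open scoped RealInnerProductSpace

noncomputable section

/-- `e^{2χ} (e^{2b} (J - M) + e^{-4b} M)`. -/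
def lamB (J M χ b : ℝ) : ℝ :=
  Real.exp (2 * χ) * (Real.exp (2 * b) * (J - M) + Real.exp (-4 * b) * M)

theorem lamB_zero (J M χ : ℝ) : lamB J M χ 0 = Real.exp (2 * χ) * J := by simp [lamB]

theorem lamB_nonneg {J M : ℝ} (h0 : 0 ≤ M) (h1 : M ≤ J) (χ b : ℝ) : 0 ≤ lamB J M χ b := by
  have := sub_nonneg.2 h1
  unfold lamB
  positivity

theorem lamB_bounds {J M χ b B : ℝ} (h0 : 0 ≤ M) (h1 : M ≤ J) (hb : |b| ≤ B) :
    Real.exp (2 * χ) * Real.exp (-4 * B) * J ≤ lamB J M χ b ∧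
      lamB J M χ b ≤ Real.exp (2 * χ) * Real.exp (4 * B) * J := by
  have h := abs_le.1 hb
  have hB : 0 ≤ B := (abs_nonneg b).trans hb
  have hJM := sub_nonneg.2 h1
  have e1 : Real.exp (-4 * B) ≤ Real.exp (2 * b) := Real.exp_le_exp.2 (by linarith)
  have e2 : Real.exp (-4 * B) ≤ Real.exp (-4 * b) := Real.exp_le_exp.2 (by linarith)
  have e3 : Real.exp (2 * b) ≤ Real.exp (4 * B) := Real.exp_le_exp.2 (by linarith)
  have e4 : Real.exp (-4 * b) ≤ Real.exp (4 * B) := Real.exp_le_exp.2 (by linarith)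
  rw [lamB, mul_assoc, mul_assoc]
  constructor <;> refine mul_le_mul_of_nonneg_left ?_ (Real.exp_pos _).le
  · nlinarith [mul_le_mul_of_nonneg_right e1 hJM, mul_le_mul_of_nonneg_right e2 h0]
  · nlinarith [mul_le_mul_of_nonneg_right e3 hJM, mul_le_mul_of_nonneg_right e4 h0]

theorem hasDerivAt_lamB {J M : ℝ} (h0 : 0 ≤ M) (h1 : M ≤ J) {χ b : ℝ → ℝ} {χ' b' t : ℝ}
    (hχ : HasDerivAt χ χ' t) (hb : HasDerivAt b b' t) :
    ∃ d, HasDerivAt (fun u => lamB J M (χ u) (b u)) d t ∧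
      |d| ≤ (2 * |χ'| + 4 * |b'|) * lamB J M (χ t) (b t) := by
  have hd := (hχ.const_mul 2).exp.mul
    (((hb.const_mul 2).exp.mul_const (J - M)).add ((hb.const_mul (-4)).exp.mul_const M))
  refine ⟨_, hd, ?_⟩
  set A := Real.exp (2 * χ t)
  set B₁ := Real.exp (2 * b t) * (J - M)
  set B₂ := Real.exp (-4 * b t) * M
  have hA : 0 ≤ A := (Real.exp_pos _).le
  have hB₁ : 0 ≤ B₁ := mul_nonneg (Real.exp_pos _).le (sub_nonneg.2 h1)
  have hB₂ : 0 ≤ B₂ := mul_nonneg (Real.exp_pos _).le h0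
  show |_| ≤ (2 * |χ'| + 4 * |b'|) * (A * (B₁ + B₂))
  have p1 := mul_nonneg hA hB₁
  have p2 := mul_nonneg hA hB₂
  simp only [Pi.add_apply]
  rw [abs_le]
  constructor <;>
    nlinarith [mul_nonneg p1 (show 0 ≤ |χ'| + χ' by linarith [neg_abs_le χ']),
      mul_nonneg p1 (show 0 ≤ |χ'| - χ' by linarith [le_abs_self χ']),
      mul_nonneg p2 (show 0 ≤ |χ'| + χ' by linarith [neg_abs_le χ']),
      mul_nonneg p2 (show 0 ≤ |χ'| - χ' by linarith [le_abs_self χ']),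
      mul_nonneg p1 (show 0 ≤ |b'| + b' by linarith [neg_abs_le b']),
      mul_nonneg p1 (show 0 ≤ |b'| - b' by linarith [le_abs_self b']),
      mul_nonneg p2 (show 0 ≤ |b'| + b' by linarith [neg_abs_le b']),
      mul_nonneg p2 (show 0 ≤ |b'| - b' by linarith [le_abs_self b']),
      mul_nonneg p1 (abs_nonneg b'), mul_nonneg p2 (abs_nonneg b')]

variable (sh : Shape)

theorem sq_le_of_le {j m : ℕ} (hm : m ≤ j) : (m : ℝ) ^ 2 ≤ (j : ℝ) * (j + 2) := by
  have : (m : ℝ) ≤ j := by exact_mod_cast hm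
  nlinarith [(Nat.cast_nonneg m : (0 : ℝ) ≤ m)]

theorem lamW_nonneg {j m : ℕ} (hm : m ≤ j) (t : ℝ) : 0 ≤ lamW sh j m t :=
  lamB_nonneg (sq_nonneg _) (sq_le_of_le hm) _ _

theorem continuous_drift : Continuous sh.drift := by
  have := sh.smooth_χ.continuous_deriv (by norm_num)
  unfold Shape.drift
  fun_prop

theorem continuous_lamW (j m : ℕ) : Continuous (lamW sh j m) := by
  have := sh.smooth_χ.continuous
  have := sh.smooth_β.continuous
  unfold lamW
  fun_prop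

theorem continuous_pW (j m : ℕ) : Continuous (pW sh j m) :=
  root_continuous.comp ((continuous_drift sh).prodMk (continuous_lamW sh j m))

theorem hasDerivAt_expo (j m : ℕ) (t : ℝ) : HasDerivAt (expo sh j m) (pW sh j m t) t :=
  intervalIntegral.integral_hasDerivAt_right ((continuous_pW sh j m).intervalIntegrable 0 t)
    ((continuous_pW sh j m).stronglyMeasurableAtFilter MeasureTheory.volume (nhds t))
    (continuous_pW sh j m).continuousAt

theorem expo_sub (j m : ℕ) (a b : ℝ) :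
    expo sh j m b - expo sh j m a = ∫ u in a..b, pW sh j m u := by
  have h := continuous_pW sh j m
  exact intervalIntegral.integral_interval_sub_left (h.intervalIntegrable 0 b)
    (h.intervalIntegrable 0 a)

theorem lamW_start {j : ℕ} (m : ℕ) {t : ℝ} (ht : t ≤ 0) :
    lamW sh j m t = (j : ℝ) * (j + 2) := by
  rw [lamW, (sh.start t ht).1, (sh.start t ht).2.1]
  simp

theorem drift_start {t : ℝ} (ht : t ≤ 0) : sh.drift t = 0 := by
  have h : ∀ u < 0, deriv sh.χ u = 0 := fun u hu => by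
    have e : sh.χ =ᶠ[nhds u] fun _ => (0 : ℝ) :=
      Filter.eventually_of_mem (Iio_mem_nhds hu) fun v hv => (sh.start v (le_of_lt hv)).1
    rw [e.deriv_eq, deriv_const]
  rcases ht.lt_or_eq with h1 | h1
  · simp [Shape.drift, h t h1]
  · subst h1
    have hc := sh.smooth_χ.continuous_deriv (by norm_num : (1 : WithTop ℕ∞) ≤ _)
    have hlim : Filter.Tendsto (deriv sh.χ) (nhdsWithin 0 (Set.Iio 0)) (nhds 0) :=
      Filter.Tendsto.congr' (Filter.eventually_of_mem self_mem_nhdsWithin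
        fun u hu => (h u hu).symm) tendsto_const_nhds
    have := tendsto_nhds_unique ((hc.tendsto 0).mono_left nhdsWithin_le_nhds) hlim
    simp [Shape.drift, this]

theorem pW_start {j : ℕ} (m : ℕ) {t : ℝ} (ht : t ≤ 0) : pW sh j m t = j := by
  rw [pW, drift_start sh ht, lamW_start sh m ht, root_round]

/-- The speed of the instantaneous exponent. -/
theorem hasDerivAt_pW {j m : ℕ} (hm : m ≤ j) (hj : 0 < j) (t : ℝ) :
    HasDerivAt (pW sh j m) (deriv (pW sh j m) t) t ∧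
      |deriv (pW sh j m) t| ≤ 3 * |deriv (deriv sh.χ) t| +
        Real.sqrt (lamW sh j m t) * (|deriv sh.χ t| + 2 * |deriv sh.β t|) := by
  have hχ : ContDiff ℝ (1 + 1) sh.χ := sh.smooth_χ.of_le (by norm_cast)
  have h2 : Differentiable ℝ (deriv sh.χ) :=
    ((contDiff_succ_iff_deriv.1 hχ).2.2).differentiable (by norm_num)
  have hs : HasDerivAt sh.drift (-3 * deriv (deriv sh.χ) t) t :=
    (h2 t).hasDerivAt.const_mul (-3)
  obtain ⟨d, hd, hd'⟩ := hasDerivAt_lamB (χ := sh.χ) (b := sh.β) (t := t)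
    (sq_nonneg (m : ℝ)) (sq_le_of_le hm)
    ((sh.smooth_χ.differentiable (by norm_num)) t).hasDerivAt
    ((sh.smooth_β.differentiable (by norm_num)) t).hasDerivAt
  have hpos : 0 < lamW sh j m t := by
    have hb := (lamB_bounds (χ := sh.χ t) (sq_nonneg (m : ℝ)) (sq_le_of_le hm)
      (le_refl |sh.β t|)).1
    have : (0 : ℝ) < j := by exact_mod_cast hj
    exact lt_of_lt_of_le (by positivity) hb
  obtain ⟨p', hp, -, hp'⟩ := hasDerivAt_root hs hd hpos
  have hp2 : HasDerivAt (pW sh j m) p' t := hp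
  refine ⟨by rw [hp2.deriv]; exact hp2, ?_⟩
  rw [hp2.deriv]
  refine hp'.trans (add_le_add (by rw [abs_mul]; norm_num) ?_)
  have hr := Real.sqrt_pos.2 hpos
  rw [div_le_iff₀ (by positivity)]
  refine hd'.trans (le_of_eq ?_)
  show _ * lamW sh j m t = _
  simp only [lamW, lamB] at hpos ⊢
  linear_combination (-2 * (|deriv sh.χ t| + 2 * |deriv sh.β t|)) *
    Real.mul_self_sqrt hpos.le

/-! ### The potential as a quadratic form -/

variable (H : Harm)

theorem norm_elAxis_sq_le (j : ℕ) (a : Fin 6) (x : V j) :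
    ‖Shape.elAxis H j a x‖ ^ 2 ≤ (j : ℝ) * (j + 2) * ‖x‖ ^ 2 := by
  have hn : ∑ k, axisVec a k ^ 2 = 1 := by
    have : (Real.sqrt 2)⁻¹ ^ 2 = (1 / 2 : ℝ) := by
      rw [inv_pow, Real.sq_sqrt (by norm_num)]; norm_num
    fin_cases a <;> simp [axisVec, Fin.sum_univ_three] <;> norm_num [this]
  have hk : ∑ k, ‖H.EL j k x‖ ^ 2 = (j : ℝ) * (j + 2) * ‖x‖ ^ 2 := by
    have h := congrArg (fun y => ⟪x, y⟫) (H.casimir_left j x)
    simp only [inner_sum, inner_smul_right, real_inner_self_eq_norm_sq] at h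
    have e : ∀ k, ⟪x, H.EL j k (H.EL j k x)⟫ = -‖H.EL j k x‖ ^ 2 := fun k => by
      rw [← real_inner_self_eq_norm_sq, H.skew_left, neg_neg]
    simp only [e, Finset.sum_neg_distrib] at h
    linarith
  have e : Shape.elAxis H j a x = ∑ k, axisVec a k • H.EL j k x := by
    simp [Shape.elAxis]
  calc ‖Shape.elAxis H j a x‖ ^ 2 ≤ (∑ k, |axisVec a k| * ‖H.EL j k x‖) ^ 2 := by
        rw [e]
        refine pow_le_pow_left₀ (norm_nonneg _) ((norm_sum_le _ _).trans ?_) 2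
        simp [norm_smul]
    _ ≤ (∑ k, |axisVec a k| ^ 2) * ∑ k, ‖H.EL j k x‖ ^ 2 :=
        Finset.sum_mul_sq_le_sq_mul_sq _ _ _
    _ = _ := by simp only [sq_abs, hn, one_mul, hk]

theorem norm_ER_sq_le (j : ℕ) (x : V j) :
    ‖H.ER j 0 x‖ ^ 2 ≤ (j : ℝ) * (j + 2) * ‖x‖ ^ 2 := by
  have h := congrArg (fun y => ⟪x, y⟫) (H.casimir_right j x)
  simp only [inner_sum, inner_smul_right, real_inner_self_eq_norm_sq] at h
  have e : ∀ k, ⟪x, H.ER j k (H.ER j k x)⟫ = -‖H.ER j k x‖ ^ 2 := fun k => by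
    rw [← real_inner_self_eq_norm_sq, H.skew_right, neg_neg]
  simp only [e, Fin.sum_univ_three] at h
  nlinarith [sq_nonneg ‖H.ER j 1 x‖, sq_nonneg ‖H.ER j 2 x‖]

/-- The quadratic form of `Shape.lam`. -/
theorem form_lam (j : ℕ) (t : ℝ) (x : V j) :
    ⟪x, sh.lam H j t x⟫ =
      Real.exp (2 * sh.χ t) * ((j : ℝ) * (j + 2) * ‖x‖ ^ 2 +
        (Real.exp (2 * sh.β t) - 1) * ((j : ℝ) * (j + 2) * ‖x‖ ^ 2 - ‖H.ER j 0 x‖ ^ 2) +
        (Real.exp (-4 * sh.β t) - 1) * ‖H.ER j 0 x‖ ^ 2 +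
        ∑ a, ((Real.exp (2 * sh.γ a t) - 1) *
            ((j : ℝ) * (j + 2) * ‖x‖ ^ 2 - ‖Shape.elAxis H j a x‖ ^ 2) +
          (Real.exp (-4 * sh.γ a t) - 1) * ‖Shape.elAxis H j a x‖ ^ 2)) := by
  have hA : ∀ a, ⟪x, Shape.elAxis H j a (Shape.elAxis H j a x)⟫ =
      -‖Shape.elAxis H j a x‖ ^ 2 := fun a => by
    have hs : ∀ u v : V j, ⟪Shape.elAxis H j a u, v⟫ = -⟪u, Shape.elAxis H j a v⟫ := fun u v => by
      simp only [Shape.elAxis, sum_apply, smul_apply,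
        sum_inner, inner_sum, real_inner_smul_left, inner_smul_right, H.skew_left,
        ← Finset.sum_neg_distrib, mul_neg]
    rw [← real_inner_self_eq_norm_sq, hs, neg_neg]
  have hR : ⟪x, H.ER j 0 (H.ER j 0 x)⟫ = -‖H.ER j 0 x‖ ^ 2 := by
    rw [← real_inner_self_eq_norm_sq, H.skew_right, neg_neg]
  simp only [Shape.lam, smul_apply, add_apply,
    sum_apply, neg_apply, ContinuousLinearMap.comp_apply,
    ContinuousLinearMap.id_apply, inner_smul_right, inner_add_right, inner_sum, inner_neg_right,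
    real_inner_self_eq_norm_sq, hA, hR]
  simp only [neg_neg, sub_eq_add_neg]

/-- On a weight block the potential is `lamW`, up to `lamDev`. -/
theorem form_lam_block {j m : ℕ} (t : ℝ) (x : V j)
    (hx : H.ER j 0 (H.ER j 0 x) = (-((m : ℝ) ^ 2)) • x) :
    |⟪x, sh.lam H j t x⟫ - lamW sh j m t * ‖x‖ ^ 2| ≤ lamDev sh j t * ‖x‖ ^ 2 := by
  have hR : ‖H.ER j 0 x‖ ^ 2 = (m : ℝ) ^ 2 * ‖x‖ ^ 2 := by
    rw [← real_inner_self_eq_norm_sq, H.skew_right, hx, inner_smul_right,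
      real_inner_self_eq_norm_sq]
    ring
  rw [form_lam, hR]
  set J := (j : ℝ) * (j + 2)
  set S := ∑ a, ((Real.exp (2 * sh.γ a t) - 1) * (J * ‖x‖ ^ 2 - ‖Shape.elAxis H j a x‖ ^ 2) +
    (Real.exp (-4 * sh.γ a t) - 1) * ‖Shape.elAxis H j a x‖ ^ 2)
  have hS : |S| ≤ J * (∑ a, (|Real.exp (2 * sh.γ a t) - 1| + |Real.exp (-4 * sh.γ a t) - 1|)) *
      ‖x‖ ^ 2 := by
    refine (Finset.abs_sum_le_sum_abs _ _).trans ?_
    rw [Finset.mul_sum, Finset.sum_mul]
    refine Finset.sum_le_sum fun a _ => ?_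
    have hL := norm_elAxis_sq_le H j a x
    have hL0 := sq_nonneg ‖Shape.elAxis H j a x‖
    refine (abs_add_le _ _).trans ?_
    rw [abs_mul, abs_mul, abs_of_nonneg (sub_nonneg.2 hL), abs_of_nonneg hL0]
    have hA := abs_nonneg (Real.exp (2 * sh.γ a t) - 1)
    have hB := abs_nonneg (Real.exp (-4 * sh.γ a t) - 1)
    nlinarith [mul_nonneg hA hL0, mul_nonneg hB (sub_nonneg.2 hL)]
  rw [show Real.exp (2 * sh.χ t) * (J * ‖x‖ ^ 2 +
        (Real.exp (2 * sh.β t) - 1) * (J * ‖x‖ ^ 2 - (m : ℝ) ^ 2 * ‖x‖ ^ 2) +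
        (Real.exp (-4 * sh.β t) - 1) * ((m : ℝ) ^ 2 * ‖x‖ ^ 2) + S) - lamW sh j m t * ‖x‖ ^ 2 =
      Real.exp (2 * sh.χ t) * S by simp only [lamW]; ring,
    abs_mul, Real.abs_exp]
  refine (mul_le_mul_of_nonneg_left hS (Real.exp_pos _).le).trans (le_of_eq ?_)
  simp only [lamDev, J]
  ring

/-- On a whole degree the potential is between the round ones at `∓ 4 B`. -/
theorem form_lam_bounds (j : ℕ) (t B : ℝ) (x : V j) (hβ : |sh.β t| ≤ B)
    (hγ : ∀ a, |sh.γ a t| ≤ B) :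
    Real.exp (2 * sh.χ t) * Real.exp (-4 * B) * ((j : ℝ) * (j + 2)) * ‖x‖ ^ 2 ≤
        ⟪x, sh.lam H j t x⟫ ∧
      ⟪x, sh.lam H j t x⟫ ≤
        Real.exp (2 * sh.χ t) * Real.exp (4 * B) * ((j : ℝ) * (j + 2)) * ‖x‖ ^ 2 := by
  set J := (j : ℝ) * (j + 2)
  obtain ⟨M, b, hM0, hM1, hb, he⟩ : ∃ M b, 0 ≤ M ∧ M ≤ J * ‖x‖ ^ 2 ∧ |b| ≤ B ∧
      ⟪x, sh.lam H j t x⟫ = lamB (J * ‖x‖ ^ 2) M (sh.χ t) b := by
    rw [form_lam]
    by_cases h0 : ∀ a, sh.γ a t = 0
    · exact ⟨_, sh.β t, sq_nonneg _, norm_ER_sq_le H j x, hβ, by simp [h0, lamB, J]; ring⟩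
    · push Not at h0
      obtain ⟨a, ha⟩ := h0
      have hb0 : sh.β t = 0 := by
        by_contra h
        exact ha (sh.single_β t a h)
      refine ⟨_, sh.γ a t, sq_nonneg _, norm_elAxis_sq_le H j a x, hγ a, ?_⟩
      rw [Finset.sum_eq_single a (fun b _ hb => by simp [sh.single_γ t a b (Ne.symm hb) ha])
        (by simp)]
      simp [hb0, lamB, J]
      ring
  obtain ⟨h1, h2⟩ := lamB_bounds (χ := sh.χ t) hM0 hM1 hb
  rw [he]
  constructor <;> nlinarith

end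

end Vale.Agent.P225.Sched
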