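import Vale.Agent.P225.Sched.ShapeFacts
import Vale.Agent.P225.Sched.Potential

/-!
P225 Sched: the regular scalar solution `qW` of a weight block and its integral `expoR`.

-/

namespace Vale.Agent.P225.Sched

open scoped Topology ContDiff Interval
open Real Filter Set MeasureTheory Vale.Agent.P225.Barrier

noncomputable section

/-- A bound for exponents of degree `j`. -/
def speed (j : ℕ) : ℝ := 2 * ((j : ℝ) + 1)

theorem abs_exp_sub_one_le' {x : ℝ} (h : |x| ≤ 1) : |Real.exp x - 1| ≤ 2 * |x| :=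
  Real.abs_exp_sub_one_le h

namespace Params

variable {p : Params}

/-! ### The potential -/

theorem Ok.exp_chi_bounds (h : p.Ok) (t : ℝ) :
    1 ≤ Real.exp (2 * p.chi t) ∧ Real.exp (2 * p.chi t) ≤ 64 / 49 := by
  obtain ⟨h0, h1⟩ := h.chi_bounds t
  refine ⟨one_le_exp (by linarith), ?_⟩
  rw [← exp_two_L]
  exact exp_le_exp.2 (by linarith)

theorem Ok.drift_bounds (h : p.Ok) (t : ℝ) :
    -(3 / 16) ≤ p.shape.drift t ∧ p.shape.drift t ≤ 0 := by
  rw [p.shape_drift]
  constructor <;> linarith [h.rate_nonneg t, h.rate_le t]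

theorem Ok.lamW_bounds (h : p.Ok) {j m : ℕ} (hm : m ≤ j) (t : ℝ) :
    4 / 5 * ((j : ℝ) * (j + 2)) ≤ lamW p.shape j m t ∧
      lamW p.shape j m t ≤ 2 * ((j : ℝ) * (j + 2)) := by
  obtain ⟨h0, h1⟩ := h.exp_chi_bounds t
  have hb := lamB_bounds (χ := p.chi t) (b := p.comp none t) (B := 1 / 20)
    (sq_nonneg (m : ℝ)) (sq_le_of_le hm) (h.abs_comp_none t)
  have hJ : (0 : ℝ) ≤ (j : ℝ) * (j + 2) := by positivity
  have e1 : (4 / 5 : ℝ) ≤ Real.exp (-4 * (1 / 20)) := by
    linarith [add_one_le_exp (-4 * (1 / 20) : ℝ)]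
  have e2 : Real.exp (4 * (1 / 20)) ≤ 5 / 4 := by
    have hp := exp_pos (4 * (1 / 20) : ℝ)
    have : Real.exp (4 * (1 / 20)) * Real.exp (-4 * (1 / 20)) = 1 := by
      rw [← Real.exp_add]; norm_num
    nlinarith
  constructor
  · refine le_trans ?_ hb.1
    refine mul_le_mul_of_nonneg_right ?_ hJ
    nlinarith
  · refine le_trans hb.2 ?_
    refine mul_le_mul_of_nonneg_right ?_ hJ
    nlinarith [exp_pos (4 * (1 / 20) : ℝ)]

theorem continuous_lamDev (sh : Shape) (j : ℕ) : Continuous (lamDev sh j) := by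
  have := sh.smooth_χ.continuous
  have := fun a => (sh.smooth_γ a).continuous
  unfold lamDev
  fun_prop

theorem lamDev_nonneg (sh : Shape) (j : ℕ) (t : ℝ) : 0 ≤ lamDev sh j t := by
  unfold lamDev
  exact mul_nonneg (by positivity) (Finset.sum_nonneg fun a _ => by positivity)

theorem Ok.lamDev_le_sum (h : p.Ok) (j : ℕ) (t : ℝ) :
    lamDev p.shape j t ≤ 16 * ((j : ℝ) * (j + 2)) * ∑ a, |p.comp (some a) t| := by
  obtain ⟨h0, h1⟩ := h.exp_chi_bounds t
  have hterm : ∀ a, |Real.exp (2 * p.comp (some a) t) - 1| +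
      |Real.exp (-4 * p.comp (some a) t) - 1| ≤ 12 * |p.comp (some a) t| := fun a => by
    have hb := h.abs_comp_some a t
    have e1 := abs_exp_sub_one_le' (x := 2 * p.comp (some a) t)
      (by rw [abs_mul, abs_two]; linarith)
    have e2 := abs_exp_sub_one_le' (x := -4 * p.comp (some a) t)
      (by rw [abs_mul]; norm_num; linarith)
    rw [abs_mul, abs_two] at e1
    rw [abs_mul, abs_neg, abs_of_pos (by norm_num : (0 : ℝ) < 4)] at e2
    linarith
  have hS : (∑ a, (|Real.exp (2 * p.comp (some a) t) - 1| +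
      |Real.exp (-4 * p.comp (some a) t) - 1|)) ≤ 12 * ∑ a, |p.comp (some a) t| := by
    rw [Finset.mul_sum]; exact Finset.sum_le_sum fun a _ => hterm a
  calc lamDev p.shape j t
      = Real.exp (2 * p.chi t) * ((j : ℝ) * (j + 2)) * ∑ a,
        (|Real.exp (2 * p.comp (some a) t) - 1| + |Real.exp (-4 * p.comp (some a) t) - 1|) := rfl
    _ ≤ (4 / 3 * ((j : ℝ) * (j + 2))) * (12 * ∑ a, |p.comp (some a) t|) := by
        refine mul_le_mul ?_ hS (Finset.sum_nonneg fun a _ => by positivity) (by positivity)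
        exact mul_le_mul_of_nonneg_right (by linarith) (by positivity)
    _ = 16 * ((j : ℝ) * (j + 2)) * ∑ a, |p.comp (some a) t| := by ring

theorem Ok.lamDev_small (h : p.Ok) (j : ℕ) (t : ℝ) :
    lamDev p.shape j t ≤ 1 / 5 * ((j : ℝ) * (j + 2)) := by
  refine (h.lamDev_le_sum j t).trans ?_
  obtain ⟨o, ho⟩ := p.comp_single t
  have h0 := ho.self_of_nhds
  have hS : ∑ a, |p.comp (some a) t| ≤ 1 / 100 := by
    cases o with
    | none => simp [h0 _ (Option.some_ne_none _)]
    | some b =>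
      rw [Finset.sum_eq_single b (fun a _ hab => by rw [h0 _ (by simpa using hab), abs_zero])
        (by simp)]
      exact h.abs_comp_some b t
  nlinarith [show (0 : ℝ) ≤ (j : ℝ) * (j + 2) by positivity]

theorem Ok.sqrt_lamW_le (h : p.Ok) {j m : ℕ} (hm : m ≤ j) (t : ℝ) :
    Real.sqrt (lamW p.shape j m t) ≤ speed j := by
  refine Real.sqrt_le_iff.2 ⟨by unfold speed; positivity, ?_⟩
  refine (h.lamW_bounds hm t).2.trans ?_
  unfold speed
  nlinarith [sq_nonneg (j : ℝ)]

theorem Ok.pW_bounds (h : p.Ok) {j m : ℕ} (hm : m ≤ j) (t : ℝ) :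
    0 ≤ pW p.shape j m t ∧ pW p.shape j m t ≤ speed j ∧ (1 ≤ j → 1 / 2 ≤ pW p.shape j m t) := by
  obtain ⟨hs1, hs2⟩ := h.drift_bounds t
  obtain ⟨hl1, hl2⟩ := h.lamW_bounds hm t
  have h0 := root_nonneg (s := p.shape.drift t) (lamW_nonneg p.shape hm t)
  refine ⟨h0, (root_le_sqrt (by linarith) (lamW_nonneg p.shape hm t)).trans
    (h.sqrt_lamW_le hm t), fun hj => ?_⟩
  have e := root_eq (s := p.shape.drift t) (lamW_nonneg p.shape hm t)
  have hj' : (1 : ℝ) ≤ j := by exact_mod_cast hj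
  unfold pW
  by_contra hc
  push Not at hc
  have : (3 : ℝ) ≤ (j : ℝ) * (j + 2) := by nlinarith
  nlinarith

/-- A scalar potential between `lamW - lamDev` and `lamW + lamDev` and its regular solution. -/
structure NearBlock (p : Params) (j m : ℕ) (lam q : ℝ → ℝ) : Prop where
  cont : Continuous lam
  near : ∀ t, |lam t - lamW p.shape j m t| ≤ lamDev p.shape j t
  ric : IsRic p.shape.drift lam q
  start : q 0 = j
  nonneg : ∀ t, 0 ≤ t → 0 ≤ q t

/-- The regular solution of any potential near the block. -/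
theorem Ok.exists_nearBlock (h : p.Ok) {j m : ℕ} (hm : m ≤ j) {lam : ℝ → ℝ}
    (hc : Continuous lam) (hn : ∀ t, |lam t - lamW p.shape j m t| ≤ lamDev p.shape j t) :
    ∃ q, NearBlock p j m lam q ∧ (∀ t ≤ 0, q t = j) ∧
      ∀ t, root (1 / 2) (3 / 5 * ((j : ℝ) * (j + 2))) ≤ q t ∧
        q t ≤ root (-(1 / 2)) (11 / 5 * ((j : ℝ) * (j + 2))) := by
  have hd0 : ∀ t ≤ 0, lamDev p.shape j t = 0 := fun t ht => by
    simp [lamDev, ((p.shape).start t ht).2.2]
  obtain ⟨q, h1, h2, h3⟩ := exists_riccati (lam := lam) (l₀ := 3 / 5 * ((j : ℝ) * (j + 2)))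
    (l₁ := 11 / 5 * ((j : ℝ) * (j + 2))) j (continuous_drift p.shape)
    (fun t => abs_le.2 ⟨by linarith [(h.drift_bounds t).1], by linarith [(h.drift_bounds t).2]⟩)
    hc (by positivity) (fun t => by
      obtain ⟨a, b⟩ := h.lamW_bounds hm t
      have := abs_le.1 (hn t)
      have := h.lamDev_small j t
      constructor <;> linarith)
    (fun t ht => by
      refine ⟨drift_start p.shape ht, ?_⟩
      have := hn t
      rw [hd0 t ht, lamW_start p.shape m ht] at this
      linarith [abs_le.1 this])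
  exact ⟨q, ⟨hc, hn, h1, h2 0 le_rfl, fun t _ => (root_nonneg (by positivity)).trans (h3 t).1⟩,
    h2, h3⟩

end Params

open Classical in
/-- The regular solution of the scalar Riccati equation of a weight block: it is `j` for `t ≤ 0`
(and zero if there is none). -/
def qW (sh : Shape) (j m : ℕ) : ℝ → ℝ :=
  if h : ∃ q : ℝ → ℝ, IsRic sh.drift (lamW sh j m) q ∧ (∀ t ≤ 0, q t = j) ∧ ∀ t, 0 ≤ q t
  then h.choose else 0

/-- The log scale of the regular solution of a weight block. -/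
def expoR (sh : Shape) (j m : ℕ) (t : ℝ) : ℝ := ∫ u in (0 : ℝ)..t, qW sh j m u

namespace Params

variable {p : Params}

theorem Ok.qW_spec (h : p.Ok) {j m : ℕ} (hm : m ≤ j) :
    IsRic p.shape.drift (lamW p.shape j m) (qW p.shape j m) ∧
      (∀ t ≤ 0, qW p.shape j m t = j) ∧ ∀ t, 0 ≤ qW p.shape j m t := by
  have hex : ∃ q : ℝ → ℝ, IsRic p.shape.drift (lamW p.shape j m) q ∧
      (∀ t ≤ 0, q t = j) ∧ ∀ t, 0 ≤ q t := by
    obtain ⟨q, h1, h2, h3⟩ := h.exists_nearBlock hm (continuous_lamW p.shape j m)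
      (fun t => by simpa using lamDev_nonneg p.shape j t)
    exact ⟨q, h1.ric, h2, fun t => (root_nonneg (by positivity)).trans (h3 t).1⟩
  rw [qW, dif_pos hex]
  exact hex.choose_spec

theorem Ok.isRic_qW (h : p.Ok) {j m : ℕ} (hm : m ≤ j) :
    IsRic p.shape.drift (lamW p.shape j m) (qW p.shape j m) := (h.qW_spec hm).1

theorem Ok.qW_start (h : p.Ok) {j m : ℕ} (hm : m ≤ j) {t : ℝ} (ht : t ≤ 0) :
    qW p.shape j m t = j := (h.qW_spec hm).2.1 t ht

theorem Ok.qW_nonneg (h : p.Ok) {j m : ℕ} (hm : m ≤ j) (t : ℝ) : 0 ≤ qW p.shape j m t :=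
  (h.qW_spec hm).2.2 t

theorem Ok.qW_near (h : p.Ok) {j m : ℕ} (hm : m ≤ j) :
    NearBlock p j m (lamW p.shape j m) (qW p.shape j m) :=
  ⟨continuous_lamW _ j m, fun t => by simpa using lamDev_nonneg p.shape j t, h.isRic_qW hm,
    h.qW_start hm le_rfl, fun t _ => h.qW_nonneg hm t⟩

theorem Ok.continuous_qW (h : p.Ok) {j m : ℕ} (hm : m ≤ j) : Continuous (qW p.shape j m) :=
  (h.isRic_qW hm).continuous

theorem Ok.hasDerivAt_expoR (h : p.Ok) {j m : ℕ} (hm : m ≤ j) (t : ℝ) :
    HasDerivAt (expoR p.shape j m) (qW p.shape j m t) t :=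
  ((h.continuous_qW hm).integral_hasStrictDerivAt 0 t).hasDerivAt

theorem Ok.continuous_expoR (h : p.Ok) {j m : ℕ} (hm : m ≤ j) :
    Continuous (expoR p.shape j m) :=
  continuous_iff_continuousAt.2 fun t => (h.hasDerivAt_expoR hm t).continuousAt

theorem Ok.expoR_sub (h : p.Ok) {j m : ℕ} (hm : m ≤ j) (a b : ℝ) :
    expoR p.shape j m b - expoR p.shape j m a = ∫ u in a..b, qW p.shape j m u :=
  intervalIntegral.integral_interval_sub_left ((h.continuous_qW hm).intervalIntegrable 0 b)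
    ((h.continuous_qW hm).intervalIntegrable 0 a)

theorem Ok.expoR_start (h : p.Ok) {j m : ℕ} (hm : m ≤ j) {t : ℝ} (ht : t ≤ 0) :
    expoR p.shape j m t = j * t := by
  unfold expoR
  rw [intervalIntegral.integral_congr (g := fun _ => (j : ℝ))]
  · simp [mul_comm]
  · intro u hu
    rw [uIcc_of_ge ht] at hu
    exact h.qW_start hm hu.2

/-- `qW` lies between `1/2` (for `j ≥ 1`) and `speed j = 2 (j + 1)`. -/
theorem Ok.qW_bounds (h : p.Ok) {j m : ℕ} (hm : m ≤ j) (t : ℝ) :
    qW p.shape j m t ≤ speed j ∧ (1 ≤ j → 1 / 2 ≤ qW p.shape j m t) := by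
  set q := qW p.shape j m
  have hq := h.isRic_qW (j := j) hm
  have hn := h.qW_nonneg (j := j) hm
  rcases le_or_gt t 0 with ht | ht
  · rw [show q t = j from h.qW_start hm ht]
    refine ⟨by unfold speed; linarith [Nat.cast_nonneg (α := ℝ) j], fun hj => ?_⟩
    have : (1 : ℝ) ≤ j := by exact_mod_cast hj
    linarith
  have hj0 : qW p.shape j m 0 = j := h.qW_start hm le_rfl
  have hc : ∀ (x : ℝ), 0 ≤ x → ∀ u ∈ Icc (0 : ℝ) t, 0 ≤ q u + x + 2 + p.shape.drift u :=
    fun x hx u _ => by linarith [hn u, (h.drift_bounds u).1]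
  refine ⟨?_, fun hj => ?_⟩
  · refine hq.le_super (h := fun _ => speed j) (h' := fun _ => 0) (a := 0) (b := t)
      (fun u _ => hasDerivAt_const u _) (fun u _ => ?_) (hc _ (by unfold speed; positivity)) ?_
      ⟨ht.le, le_rfl⟩
    · have := (h.lamW_bounds hm u).2
      have := (h.drift_bounds u).1
      have hs : (0 : ℝ) ≤ speed j := by unfold speed; positivity
      simp only [zero_add]
      unfold speed at hs ⊢
      nlinarith [sq_nonneg (j : ℝ)]
    · rw [hj0]; unfold speed; linarith [Nat.cast_nonneg (α := ℝ) j]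
  · have hj' : (1 : ℝ) ≤ j := by exact_mod_cast hj
    refine hq.sub_le (l := fun _ => (1 / 2 : ℝ)) (l' := fun _ => 0) (a := 0) (b := t)
      (fun u _ => hasDerivAt_const u _) (fun u _ => ?_) (hc _ (by norm_num)) ?_ ⟨ht.le, le_rfl⟩
    · have := (h.lamW_bounds hm u).1
      have := (h.drift_bounds u).2
      have : (3 : ℝ) ≤ (j : ℝ) * (j + 2) := by nlinarith
      linarith
    · rw [hj0]; linarith

theorem Ok.expoR_lip (h : p.Ok) {j m : ℕ} (hm : m ≤ j) (s t : ℝ) :
    |expoR p.shape j m t - expoR p.shape j m s| ≤ speed j * |t - s| := by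
  rw [h.expoR_sub hm, ← Real.norm_eq_abs]
  refine intervalIntegral.norm_integral_le_of_norm_le_const fun u _ => ?_
  rw [Real.norm_eq_abs, abs_of_nonneg (h.qW_nonneg hm u)]
  exact (h.qW_bounds hm u).1

theorem Ok.expoR_mono (h : p.Ok) {j m : ℕ} (hm : m ≤ j) (hj : 1 ≤ j) {s t : ℝ} (hst : s ≤ t) :
    (t - s) / 2 ≤ expoR p.shape j m t - expoR p.shape j m s := by
  rw [h.expoR_sub hm]
  have := intervalIntegral.integral_mono_on hst (intervalIntegrable_const (c := (1 / 2 : ℝ))
    (μ := volume)) ((h.continuous_qW hm).intervalIntegrable s t)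
    fun u _ => (h.qW_bounds hm u).2 hj
  simpa [div_eq_mul_inv, mul_comm] using this

end Params

end

end Vale.Agent.P225.Sched
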