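import Vale.Agent.P225.Sched.ShapeFacts
import Vale.Agent.P225.Sched.Steps
import Vale.Agent.P225.Sched.Potential
import Vale.Agent.P225.Sched.Budget
import Vale.Agent.P225.Sched.ExpoR

/-!
P225 Sched: the designed evolution on the schedule.

`Design` lists the labels, the transpositions with their crossing levels, and the composite.
The durations around a crossing are chosen here. For every admissible first size this gives the
plan of transvections, their smallness, the norming path and its mean growth.
-/

namespace Vale.Agent.P225.Sched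

open Finset

noncomputable section

/-- The eigenvalue data of a design. -/
def muW (j m : ℕ) (z : ℝ) : ℝ := lamB ((j : ℝ) * (j + 2)) ((m : ℝ) ^ 2) 0 z

/-- Labels, transpositions and composite. -/
structure Design where
  /-- A bound for the degrees. -/
  J0 : ℕ
  /-- The number of labels. -/
  d : ℕ
  /-- Degree of a label. -/
  deg : Fin d → ℕ
  /-- Weight of a label. -/
  wt : Fin d → ℕ
  deg_pos : ∀ l, 1 ≤ deg l
  deg_le : ∀ l, deg l ≤ J0
  wt_le : ∀ l, wt l ≤ deg l
  /-- The number of transpositions per period. -/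
  T : ℕ
  T_pos : 0 < T
  /-- The label of lower degree. -/
  A : Fin T → Fin d
  /-- The label of higher degree. -/
  B : Fin T → Fin d
  ne : ∀ r, A r ≠ B r
  /-- The crossing level. -/
  z : Fin T → ℝ
  z_range : ∀ r, -(1 / 40 : ℝ) ≤ z r ∧ z r ≤ 9 / 250
  /-- The gap of the potentials. -/
  g : ℝ
  g_pos : 0 < g
  round_gap : ∀ r, muW (deg (A r)) (wt (A r)) 0 + g ≤ muW (deg (B r)) (wt (B r)) 0
  cross_gap : ∀ r, muW (deg (B r)) (wt (B r)) (z r) + g ≤ muW (deg (A r)) (wt (A r)) (z r)
  /-- Copies in a composite. -/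
  groups : ℕ
  groups_pos : 0 < groups
  /-- The words of a composite. -/
  words : List Word
  words_ne : words ≠ []

namespace Design

variable (D : Design)

/-- The steps of a composite. -/
def comp : List Step := composite D.groups D.words

/-- Their number. -/
def L : ℕ := D.comp.length

/-- A bound for all exponents. -/
def rMax : ℝ := 2 * ((D.J0 : ℝ) + 1)

/-- The least speed of the exponent differences. -/
def gain : ℝ := D.g / (2 * D.rMax + 3)

/-- Time at the crossing level. -/
def plateau : ℝ :=
  2 * (2 + 4 * D.rMax + 10 * D.rMax * (2 * D.L) + (2 * D.rMax + D.gain)) / D.gain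

/-- Round time after the crossing. -/
def after : ℝ :=
  2 * (1 + 2 * D.rMax * (2 + D.plateau + 2 * (2 * D.L)) + (2 * D.rMax + D.gain)) / D.gain

/-- The crossings. -/
def crossings : List Crossing :=
  List.ofFn fun r => ⟨D.z r, 1, D.plateau, D.after⟩

/-- The steps of a period. -/
def steps : List Step := periodSteps D.groups D.words D.crossings

/-- The parameters with first size `N + 1`. -/
def params (N : ℕ) : Params := ⟨D.steps, N⟩

/-- Index of the step ending the `k`-th composite. -/
def endIdx (k : ℕ) : ℕ := (k + 1) * (D.L + 1) + k / (3 * D.T)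

/-- Index of the first step of the `k`-th composite. -/
def begIdx (k : ℕ) : ℕ := k * (D.L + 1) + 1 + k / (3 * D.T)

lemma L_pos : 0 < D.L := by
  obtain ⟨w, ws, hw⟩ := List.exists_cons_of_ne_nil D.words_ne
  obtain ⟨n, hn⟩ : ∃ n, D.groups = n + 1 := ⟨D.groups - 1, by have := D.groups_pos; omega⟩
  simp [L, comp, composite, hn, hw, List.replicate_succ, closedWord]

lemma endIdx_mono : Monotone D.endIdx := fun a b h => by
  unfold endIdx
  exact Nat.add_le_add (Nat.mul_le_mul_right _ (Nat.succ_le_succ h)) (Nat.div_le_div_right h)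

lemma rMax_pos : 0 < D.rMax := by unfold rMax; positivity

lemma gain_pos : 0 < D.gain := div_pos D.g_pos (by linarith [D.rMax_pos])

lemma plateau_pos : 0 < D.plateau :=
  div_pos (by have := D.rMax_pos; have := D.gain_pos; positivity) D.gain_pos

lemma after_pos : 0 < D.after :=
  div_pos (by have := D.rMax_pos; have := D.gain_pos; have := D.plateau_pos; positivity) D.gain_pos

lemma steps_length : D.steps.length = D.T * (3 * (D.L + 1)) := by
  simp [steps, periodSteps_length, crossings, L, comp]

lemma stay_not_mem : Step.stay ∉ D.steps := by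
  have hb : ∀ l : Word, Step.stay ∉ l.flatMap bumpGap := fun l h => by
    simp [List.mem_flatMap, bumpGap] at h
  have hc : Step.stay ∉ D.comp := fun h => by
    simp only [comp, composite, List.mem_flatten, List.mem_replicate] at h
    obtain ⟨l, ⟨-, rfl⟩, h⟩ := h
    simp only [List.mem_flatMap, closedWord, List.mem_cons, List.mem_append] at h
    obtain ⟨w, -, h⟩ := h
    rcases h with h | h | h | h | h
    · cases h
    · exact hb _ (List.mem_flatMap.2 h)
    · cases h
    · cases h
    · exact hb _ (List.mem_flatMap.2 h)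
  intro h
  simp only [steps, periodSteps, List.mem_flatMap, crossingSteps, List.mem_append,
    List.mem_cons] at h
  obtain ⟨c, -, ((h | h) | (h | h)) | (h | h)⟩ := h
  · cases h
  · exact hc h
  · cases h
  · exact hc h
  · cases h
  · exact hc h

lemma steps_valid : ∀ s ∈ D.steps, s.Valid := by
  refine periodSteps_valid _ _ _ fun c hc => ?_
  simp only [crossings, List.mem_ofFn] at hc
  obtain ⟨r, rfl⟩ := hc
  exact D.z_range r

variable (N : ℕ)

lemma params_len : (D.params N).len = D.T * (3 * (D.L + 1)) + 1 := by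
  rw [Params.len_eq]; exact congrArg (· + 1) D.steps_length

/-- The `k`-th composite is the `k % (3 T)`-th of period `k / (3 T)`. -/
lemma idx_split (k : ℕ) :
    ∃ i r s, r < D.T ∧ s < 3 ∧ k = 3 * (i * D.T + r) + s ∧ k / (3 * D.T) = i ∧
      D.begIdx k = i * (D.params N).len + (r * (3 * (D.L + 1)) + s * (D.L + 1) + 1) ∧
      D.endIdx k = i * (D.params N).len + (r * (3 * (D.L + 1)) + (s + 1) * (D.L + 1)) := by
  have hT := D.T_pos
  have h := Nat.div_add_mod k (3 * D.T)
  have hlt := Nat.mod_lt k (show 0 < 3 * D.T by omega)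
  set q := k % (3 * D.T)
  set i := k / (3 * D.T) with hi
  have hk : k = 3 * (i * D.T + q / 3) + q % 3 := by
    rw [show 3 * D.T * i = 3 * (i * D.T) by ring] at h
    omega
  refine ⟨i, q / 3, q % 3, by omega, by omega, hk, rfl, ?_, ?_⟩
  · rw [begIdx, ← hi, D.params_len]
    conv_lhs => rw [hk]
    ring
  · rw [endIdx, ← hi, D.params_len]
    conv_lhs => rw [hk]
    ring

lemma step_eq (i r k : ℕ) (hr : r < D.T) (hk : k < 3 * (D.L + 1)) :
    (D.params N).step (i * (D.params N).len + (r * (3 * (D.L + 1)) + k)) =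
      (crossingSteps D.comp ⟨D.z ⟨r, hr⟩, 1, D.plateau, D.after⟩).getD k Step.stay ∧
    (D.params N).size (i * (D.params N).len + (r * (3 * (D.L + 1)) + k)) =
      ((i + (D.params N).N0 : ℕ) : ℝ) := by
  have hlt : r * (3 * (D.L + 1)) + k < D.steps.length := by
    rw [D.steps_length]
    have := Nat.mul_le_mul_right (3 * (D.L + 1)) (show r + 1 ≤ D.T from hr)
    rw [Nat.succ_mul] at this
    omega
  have hlt' : r * (3 * (D.L + 1)) + k < (D.params N).len := by
    rw [D.params_len, ← D.steps_length]; omega
  obtain ⟨e1, e2⟩ := (D.params N).start_step i _ hlt'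
  refine ⟨?_, e2⟩
  rw [e1]
  show (D.steps ++ [Step.stay]).getD _ _ = _
  rw [List.getD_append _ _ _ _ hlt]
  show (D.crossings.flatMap (crossingSteps D.comp)).getD _ _ = _
  rw [show 3 * (D.L + 1) = 3 * (D.comp.length + 1) from rfl] at hk ⊢
  rw [getD_flatMap_of_length_eq _ (crossingSteps_length _) _ _ _ _
    (show r < D.crossings.length by simpa [crossings] using hr) hk]
  simp [crossings, comp]

lemma getD_block (c : Crossing) (s k : ℕ) (hs : s < 3) (hk : k < D.L) :
    (crossingSteps D.comp c).getD (s * (D.L + 1) + 1 + k) Step.stay = D.comp.getD k Step.stay := by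
  have := periodSteps_getD_comp D.groups D.words [c] 0 s k (by simp) hs hk
  simpa [periodSteps, compOffset, L, comp, Nat.add_assoc, Nat.add_comm, Nat.add_left_comm] using this

lemma comp_dur_le {s : Step} (hs : s ∈ D.comp) {n : ℝ} (hn : 1 ≤ n) : s.dur n ≤ 2 * n ^ 3 := by
  have h3 : 1 ≤ n ^ 3 := one_le_pow₀ hn
  have h1 : n ≤ n ^ 3 := le_self_pow₀ hn (by norm_num)
  have key : s = Step.slot ∨ s = Step.gap 1 ∨ ∃ a z, s = Step.micro a z 0 := by
    simp only [comp, composite, List.mem_flatten, List.mem_replicate] at hs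
    obtain ⟨l, ⟨-, rfl⟩, hs⟩ := hs
    simp only [List.mem_flatMap, closedWord, bumpGap, List.mem_cons, List.mem_append,
      List.mem_map, List.not_mem_nil, or_false] at hs
    obtain ⟨w, -, hs⟩ := hs
    rcases hs with rfl | ⟨b, -, rfl | rfl⟩ | rfl | rfl | ⟨b, -, rfl | rfl⟩
    · exact Or.inr (Or.inl rfl)
    · exact Or.inr (Or.inr ⟨_, _, rfl⟩)
    · exact Or.inr (Or.inl rfl)
    · exact Or.inl rfl
    · exact Or.inr (Or.inl rfl)
    · exact Or.inr (Or.inr ⟨_, _, rfl⟩)
    · exact Or.inr (Or.inl rfl)
  rcases key with rfl | rfl | ⟨a, z, rfl⟩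
  · simp only [Step.dur]; linarith
  · norm_num [Step.dur]; linarith
  · norm_num [Step.dur]

/-- A composite lasts `O (n ^ 3)`. -/
lemma comp_time_le (k : ℕ) :
    (D.params N).time (D.endIdx k) ≤ (D.params N).time (D.begIdx k) +
      2 * D.L * ((k / (3 * D.T) + (D.params N).N0 : ℕ) : ℝ) ^ 3 := by
  obtain ⟨i, r, s, hr, hs, -, hi, hb, he⟩ := D.idx_split N k
  rw [hi]
  set n := ((i + (D.params N).N0 : ℕ) : ℝ)
  have hn : 1 ≤ n := (D.params N).one_le_size i
  have key : ∀ j ≤ D.L, (D.params N).time (D.begIdx k + j) ≤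
      (D.params N).time (D.begIdx k) + j * (2 * n ^ 3) := by
    intro j
    induction j with
    | zero => intro _; simp
    | succ j ih =>
      intro hj
      rw [← Nat.add_assoc, Params.time_succ]
      have hk : s * (D.L + 1) + 1 + j < 3 * (D.L + 1) := by
        have := Nat.mul_le_mul_right (D.L + 1) (show s + 1 ≤ 3 from hs)
        rw [Nat.succ_mul] at this
        omega
      obtain ⟨e1, e2⟩ := D.step_eq N i r _ hr hk
      have hidx : D.begIdx k + j =
          i * (D.params N).len + (r * (3 * (D.L + 1)) + (s * (D.L + 1) + 1 + j)) := by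
        rw [hb]; ring
      have hd : (D.params N).dur (D.begIdx k + j) ≤ 2 * n ^ 3 := by
        rw [Params.dur, hidx, e1, e2, D.getD_block _ s j hs hj]
        refine D.comp_dur_le ?_ hn
        rw [List.getD_eq_getElem _ _ (show j < D.comp.length from hj)]
        exact List.getElem_mem _
      have := ih (by omega)
      push_cast
      linarith
  have := key D.L le_rfl
  rw [show D.begIdx k + D.L = D.endIdx k by rw [hb, he]; ring] at this
  linarith

/-- The plan of transvections: composite `k` ends at `τ k`. -/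
def plan : Growth.Plan (Fin D.d) where
  N := D.T
  N_pos := D.T_pos
  A := D.A
  B := D.B
  ne := D.ne
  τ k := (D.params N).time (D.endIdx k)
  mono := (D.params N).time_strictMono.monotone.comp D.endIdx_mono
  tendsto := by
    refine Filter.tendsto_atTop_mono (fun k => ?_) tendsto_natCast_atTop_atTop
    refine le_trans ?_ ((D.params N).time_ge (D.endIdx k))
    have : k ≤ D.endIdx k :=
      (Nat.le_succ k).trans ((Nat.le_mul_of_pos_right _ D.L.succ_pos).trans (Nat.le_add_right _ _))
    have h' : (k : ℝ) ≤ D.endIdx k := by exact_mod_cast this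
    linarith [Nat.cast_nonneg (α := ℝ) (D.params N).N0]
  E l := expoR (D.params N).shape (D.deg l) (D.wt l)

variable {N} {D}

section

variable (h : (D.params N).Ok)

include h

lemma drift_mem (t : ℝ) :
    -(1 / 2 : ℝ) ≤ (D.params N).shape.drift t ∧ (D.params N).shape.drift t ≤ 0 := by
  rw [Params.shape_drift]
  constructor <;> linarith [h.rate_nonneg t, h.rate_le t]

lemma qW_le_rMax {j m : ℕ} (hm : m ≤ j) (hj : j ≤ D.J0) (t : ℝ) :
    0 ≤ qW (D.params N).shape j m t ∧ qW (D.params N).shape j m t ≤ D.rMax := by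
  refine ⟨h.qW_nonneg hm t, (h.qW_bounds hm t).1.trans ?_⟩
  have : (j : ℝ) ≤ D.J0 := by exact_mod_cast hj
  unfold speed rMax
  linarith

lemma plan_lip (l : Fin D.d) (s t : ℝ) :
    |(D.plan N).E l t - (D.plan N).E l s| ≤ D.rMax * |t - s| := by
  refine (h.expoR_lip (D.wt_le l) s t).trans ?_
  gcongr
  have : (D.deg l : ℝ) ≤ D.J0 := by exact_mod_cast D.deg_le l
  unfold speed rMax
  linarith

lemma plan_lo (l : Fin D.d) (s t : ℝ) (hst : s ≤ t) :
    1 / 2 * (t - s) ≤ (D.plan N).E l t - (D.plan N).E l s :=
  le_of_eq_of_le (by ring) (h.expoR_mono (D.wt_le l) (D.deg_pos l) hst)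

lemma plan_up (l : Fin D.d) (s t : ℝ) (hst : s ≤ t) :
    (D.plan N).E l t - (D.plan N).E l s ≤ D.rMax * (t - s) := by
  have := plan_lip h l s t
  rw [abs_of_nonneg (show 0 ≤ t - s by linarith)] at this
  exact (le_abs_self _).trans this

lemma diff_lip (n : ℕ) (s t : ℝ) :
    |(D.plan N).diff n t - (D.plan N).diff n s| ≤ 2 * D.rMax * |t - s| := by
  have := (abs_sub _ _).trans (add_le_add (plan_lip h ((D.plan N).a n) s t)
    (plan_lip h ((D.plan N).b n) s t))
  rw [two_mul, add_mul]
  refine le_trans (le_of_eq (congrArg abs ?_)) this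
  simp only [Growth.Plan.diff]; ring

omit h in
lemma gain_mul (D : Design) : D.gain * (2 * D.rMax + 3) = D.g :=
  div_mul_cancel₀ _ (by linarith [D.rMax_pos])

/-- On an interval at a fixed level the gap of the potentials separates the log scales. -/
lemma gap_integral {j m j' m' : ℕ} (hm : m ≤ j) (hj : j ≤ D.J0) (hm' : m' ≤ j')
    (hj' : j' ≤ D.J0) {a b z : ℝ} (hab : a ≤ b)
    (hz : ∀ u ∈ Set.Icc a b, (D.params N).comp none u = z)
    (hg : muW j m z + D.g ≤ muW j' m' z) :
    expoR (D.params N).shape j m b - expoR (D.params N).shape j m a +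
        (D.gain * (b - a) - 2 * D.rMax - D.gain) ≤
      expoR (D.params N).shape j' m' b - expoR (D.params N).shape j' m' a := by
  set sh := (D.params N).shape
  set q := qW sh j m
  set q' := qW sh j' m'
  set K := 2 * D.rMax + D.gain with hK
  have hK0 : 0 ≤ K := by linarith [D.rMax_pos, D.gain_pos]
  set f : ℝ → ℝ := fun u => D.gain - K * Real.exp (-(u - a)) with hf
  have hfd : ∀ u, HasDerivAt f (K * Real.exp (-(u - a))) u := fun u =>
    (((((hasDerivAt_id' u).sub_const a).neg).exp.const_mul K).const_sub D.gain).congr_deriv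
      (by simp only [Pi.neg_apply]; ring)
  have hpt : ∀ t ∈ Set.Icc a b, 0 ≤ q' t - q t - f t := fun t ht => by
    refine Barrier.nonneg_of_deriv (e := fun u => q' u - q u - f u)
      (((h.continuous_qW hm').sub (h.continuous_qW hm)).sub (by fun_prop)).continuousOn
      (fun u _ => (((h.isRic_qW hm' u).sub (h.isRic_qW hm u)).sub
        (hfd u)).hasDerivWithinAt) ?_ (fun u hu hneg => ?_) ht
    · have := qW_le_rMax h hm hj a
      have := qW_le_rMax h hm' hj' a
      simp only [hf, sub_self, neg_zero, Real.exp_zero, mul_one]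
      linarith [D.rMax_pos]
    obtain ⟨a0, a1⟩ := qW_le_rMax h hm hj u
    obtain ⟨b0, b1⟩ := qW_le_rMax h hm' hj' u
    obtain ⟨d1, d2⟩ := drift_mem h u
    have hlam : lamW sh j m u + D.g ≤ lamW sh j' m' u := by
      have he : 1 ≤ Real.exp (2 * (D.params N).chi u) :=
        Real.one_le_exp (by linarith [(h.chi_bounds u).1])
      have e : ∀ a b : ℕ, lamW sh a b u = Real.exp (2 * (D.params N).chi u) * muW a b z :=
        fun a b => by
        have hB : sh.β u = z := hz u (Set.Ico_subset_Icc_self hu)
        simp only [lamW, muW, lamB, hB]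
        simp [sh, Params.shape]
      rw [e, e]
      calc _ ≤ Real.exp (2 * (D.params N).chi u) * muW j m z +
            Real.exp (2 * (D.params N).chi u) * D.g := by
            gcongr; exact le_mul_of_one_le_left D.g_pos.le he
        _ ≤ _ := by rw [← mul_add]; gcongr
    have c1 : 1 ≤ q' u + q u + 2 + sh.drift u := by linarith
    have c2 : q' u + q u + 2 + sh.drift u ≤ 2 * D.rMax + 3 := by linarith
    have hE : 0 ≤ K * Real.exp (-(u - a)) := mul_nonneg hK0 (Real.exp_pos _).le
    have hfu : f u = D.gain - K * Real.exp (-(u - a)) := rfl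
    nlinarith [gain_mul D, mul_nonneg (sub_nonneg.2 c1) hE,
      mul_le_mul_of_nonneg_left c2 D.gain_pos.le,
      mul_le_mul_of_nonneg_left hneg.le (show 0 ≤ q' u + q u + 2 + sh.drift u by linarith)]
  have hint := intervalIntegral.integral_mono_on hab
    ((show Continuous fun u => qW sh j m u + f u from
      (h.continuous_qW hm).add (by fun_prop)).intervalIntegrable a b)
    ((h.continuous_qW hm').intervalIntegrable a b) (μ := MeasureTheory.volume)
    (fun u hu => show q u + f u ≤ q' u by linarith [hpt u hu])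
  rw [intervalIntegral.integral_add ((h.continuous_qW hm).intervalIntegrable a b)
    ((show Continuous f by fun_prop).intervalIntegrable a b),
    intervalIntegral.integral_eq_sub_of_hasDerivAt
      (f := fun u => D.gain * u + K * Real.exp (-(u - a)))
      (fun u _ => (((hasDerivAt_id' u).const_mul D.gain).add
        ((((hasDerivAt_id' u).sub_const a).neg).exp.const_mul K)).congr_deriv
          (by simp only [hf, Pi.neg_apply]; ring))
      ((show Continuous f by fun_prop).intervalIntegrable a b)] at hint
  rw [h.expoR_sub hm, h.expoR_sub hm']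
  simp only [sub_self, neg_zero, Real.exp_zero, mul_one] at hint
  nlinarith [mul_nonneg hK0 (Real.exp_pos (-(b - a))).le]

/-- In a round stretch a log scale grows at most at the final round rate. -/
lemma stay_le {j m : ℕ} (hm : m ≤ j) (hj : j ≤ D.J0) {a b : ℝ} (hab : a ≤ b)
    (hround : ∀ u ∈ Set.Icc a b, (D.params N).comp none u = 0) :
    expoR (D.params N).shape j m b - expoR (D.params N).shape j m a ≤
      rateInf j * (b - a) + 3 * D.rMax := by
  set p := D.params N
  set q := qW p.shape j m
  set P := rateInf j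
  have hP0 : 0 ≤ P := Barrier.root_nonneg (by positivity)
  have hP1 : P ≤ D.rMax := by
    refine (Barrier.root_le_sqrt (by norm_num) (by positivity)).trans ?_
    rw [Real.sqrt_le_iff]
    refine ⟨D.rMax_pos.le, ?_⟩
    have : (j : ℝ) ≤ D.J0 := by exact_mod_cast hj
    have := Nat.cast_nonneg (α := ℝ) j
    unfold rMax
    nlinarith
  have hrd : ∀ u, HasDerivAt p.rate (deriv p.rate u) u := fun u =>
    ((p.contDiff_rate.differentiable (by norm_num)) u).hasDerivAt
  set F : ℝ → ℝ := fun u => P + D.rMax * Real.exp (-(u - a)) + 6 * D.rMax * p.rate u with hF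
  have hFd : ∀ u, HasDerivAt F
      (-(D.rMax * Real.exp (-(u - a))) + 6 * D.rMax * deriv p.rate u) u := fun u =>
    ((((((hasDerivAt_id' u).sub_const a).neg).exp.const_mul D.rMax).const_add P).add
      ((hrd u).const_mul (6 * D.rMax))).congr_deriv (by simp only [Pi.neg_apply]; ring)
  have hFc : Continuous F := continuous_iff_continuousAt.2 fun u => (hFd u).continuousAt
  have hpt : ∀ t ∈ Set.Icc a b, 0 ≤ F t - q t := fun t ht => by
    refine Barrier.nonneg_of_deriv (e := fun u => F u - q u)
      (hFc.sub (h.continuous_qW hm)).continuousOn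
      (fun u _ => ((hFd u).sub (h.isRic_qW hm u)).hasDerivWithinAt) ?_
      (fun u hu hneg => ?_) ht
    · have := (qW_le_rMax h hm hj a).2
      have := h.rate_nonneg a
      simp only [hF, sub_self, neg_zero, Real.exp_zero, mul_one]
      nlinarith [D.rMax_pos]
    have hq0 := (qW_le_rMax h hm hj u).1
    have hr := h.rate_nonneg u
    have hd : p.shape.drift u = -3 * p.rate u := p.shape_drift u
    have he : lamW p.shape j m u ≤ 64 / 49 * ((j : ℝ) * (j + 2)) := by
      simp only [lamW]
      rw [show p.shape.β u = 0 from hround u (Set.Ico_subset_Icc_self hu)]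
      simp only [mul_zero, Real.exp_zero, one_mul]
      rw [sub_add_cancel]
      gcongr
      rw [← Params.exp_two_L]
      exact Real.exp_le_exp.2 (by show 2 * p.chi u ≤ _; linarith [(h.chi_bounds u).2])
    have eP : P ^ 2 + (2 + 0) * P = 64 / 49 * ((j : ℝ) * (j + 2)) :=
      Barrier.root_eq (by positivity)
    have hE : 0 ≤ D.rMax * Real.exp (-(u - a)) := mul_nonneg D.rMax_pos.le (Real.exp_pos _).le
    have hc : 1 ≤ q u + P + 2 + p.shape.drift u := by linarith [(drift_mem h u).1]
    have hFu : F u = P + D.rMax * Real.exp (-(u - a)) + 6 * D.rMax * p.rate u := rfl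
    nlinarith [mul_le_mul_of_nonneg_left (h.deriv_rate_ge u) D.rMax_pos.le,
      mul_le_mul_of_nonneg_right hP1 hr, mul_nonneg D.rMax_pos.le hr,
      mul_le_mul hc (show D.rMax * Real.exp (-(u - a)) + 6 * D.rMax * p.rate u ≤ q u - P by linarith)
        (add_nonneg hE (mul_nonneg (mul_nonneg (by norm_num) D.rMax_pos.le) hr)) (by linarith)]
  have hint := intervalIntegral.integral_mono_on hab
    ((h.continuous_qW hm).intervalIntegrable a b) (hFc.intervalIntegrable a b)
    (μ := MeasureTheory.volume) (fun u hu => show q u ≤ F u by linarith [hpt u hu])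
  rw [intervalIntegral.integral_eq_sub_of_hasDerivAt
    (f := fun u => P * u - D.rMax * Real.exp (-(u - a)) + 6 * D.rMax * p.chi u)
    (fun u _ => ((((hasDerivAt_id' u).const_mul P).sub
      ((((hasDerivAt_id' u).sub_const a).neg).exp.const_mul D.rMax)).add
        ((p.hasDerivAt_chi u).const_mul (6 * D.rMax))).congr_deriv (by simp only [hF, Pi.neg_apply]; ring))
    (hFc.intervalIntegrable a b)] at hint
  rw [h.expoR_sub hm]
  simp only [sub_self, neg_zero, Real.exp_zero, mul_one] at hint
  have hl : Real.log (8 / 7 : ℝ) ≤ 1 / 7 := by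
    have := Real.log_le_sub_one_of_pos (show (0 : ℝ) < 8 / 7 by norm_num)
    linarith
  have h1 : D.rMax * p.chi b ≤ D.rMax * (1 / 7) :=
    mul_le_mul_of_nonneg_left ((h.chi_bounds b).2.trans hl) D.rMax_pos.le
  nlinarith [mul_nonneg D.rMax_pos.le (h.chi_bounds a).1,
    mul_nonneg D.rMax_pos.le (Real.exp_pos (-(b - a))).le, D.rMax_pos]

omit h in
/-- The landmarks of a transposition. -/
lemma phase_times (n : ℕ) : ∃ (o1 o2 : ℕ) (r : Fin D.T) (m : ℝ),
    1 ≤ m ∧ m = ((n / D.T + (D.params N).N0 : ℕ) : ℝ) ^ 6 ∧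
      (D.plan N).a n = D.A r ∧ (D.plan N).b n = D.B r ∧
      (D.plan N).τ (3 * n) = (D.params N).time o1 ∧
      (D.plan N).τ (3 * n + 1) = (D.params N).time o2 ∧
      D.begIdx (3 * n + 1) = o1 + 1 ∧ D.begIdx (3 * n + 2) = o2 + 1 ∧
      ((D.params N).step o1 = Step.cross (D.z r) D.plateau ∧ (D.params N).size o1 ^ 6 = m) ∧
      (D.params N).step o2 = Step.round D.after ∧
      (D.params N).time (o1 + 1) = (D.params N).time o1 + (2 + D.plateau) * m ∧
      (D.params N).time (o2 + 1) = (D.params N).time o2 + (D.after * m + 1) ∧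
      ∀ s < 3, (D.params N).time (D.begIdx (3 * n + s)) ≤ (D.plan N).τ (3 * n + s) ∧
        (D.plan N).τ (3 * n + s) ≤ (D.params N).time (D.begIdx (3 * n + s)) + 2 * D.L * m := by
  have hr : n % D.T < D.T := Nat.mod_lt _ D.T_pos
  have hn1 := (D.params N).one_le_size (n / D.T)
  have hdiv : ∀ s < 3, (3 * n + s) / (3 * D.T) = n / D.T := fun s hs => by
    rw [← Nat.div_div_eq_div_mul, show (3 * n + s) / 3 = n by omega]
  have hbeg : ∀ s < 3, D.begIdx (3 * n + s) =
      n / D.T * (D.params N).len + (n % D.T * (3 * (D.L + 1)) + s * (D.L + 1)) + 1 ∧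
      D.endIdx (3 * n + s) = D.begIdx (3 * n + s) + D.L := by
    intro s hs
    rw [begIdx, endIdx, hdiv s hs, D.params_len]
    refine ⟨?_, by ring⟩
    conv_lhs => enter [1, 1, 1, 1, 2]; rw [← Nat.div_add_mod n D.T]
    ring
  obtain ⟨e1, s1⟩ := D.step_eq N (n / D.T) (n % D.T) (1 * (D.L + 1)) hr (by omega)
  obtain ⟨e2, s2⟩ := D.step_eq N (n / D.T) (n % D.T) (2 * (D.L + 1)) hr (by omega)
  have c1 := e1.trans (show _ = Step.cross (D.z ⟨n % D.T, hr⟩) D.plateau by
    unfold crossingSteps
    rw [List.getD_append _ _ _ _ (by simp [L]),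
      List.getD_append_right _ _ _ _ (by simp [L])]
    simp [L])
  have c2 := e2.trans (show _ = Step.round D.after by
    unfold crossingSteps
    rw [List.getD_append_right _ _ _ _ (by simp [L, two_mul]), List.length_append,
      List.length_cons, List.length_cons,
      show 2 * (D.L + 1) - (D.comp.length + 1 + (D.comp.length + 1)) = 0 by unfold L; omega,
      List.getD_cons_zero])
  refine ⟨_, _, ⟨n % D.T, hr⟩, _, one_le_pow₀ hn1, rfl, rfl, rfl, ?_, ?_,
    (hbeg 1 (by norm_num)).1, (hbeg 2 (by norm_num)).1, ⟨c1, by rw [s1]⟩, c2, ?_, ?_, fun s hs => ?_⟩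
  · show (D.params N).time (D.endIdx (3 * n)) = _
    obtain ⟨u1, u2⟩ := hbeg 0 (by norm_num)
    congr 1
    rw [show 3 * n = 3 * n + 0 from rfl, u2, u1]; ring
  · show (D.params N).time (D.endIdx (3 * n + 1)) = _
    obtain ⟨u1, u2⟩ := hbeg 1 (by norm_num)
    congr 1
    rw [u2, u1]; ring
  · rw [Params.time_succ, Params.dur, c1, s1]
    simp [Step.dur, max_eq_left D.plateau_pos.le]
  · rw [Params.time_succ, Params.dur, c2, s2]
    simp [Step.dur, max_eq_left D.after_pos.le]
  · refine ⟨(D.params N).time_strictMono.monotone (by rw [(hbeg s hs).2]; omega), ?_⟩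
    refine (D.comp_time_le N (3 * n + s)).trans ?_
    rw [hdiv s hs]
    gcongr
    norm_num

/-- The phase of a transposition. -/
lemma exists_phase (n : ℕ) : ∃ ph : Growth.Phase (D.plan N) n,
    (∀ s : Fin 3, ph.a s = (D.params N).time (D.begIdx (3 * n + s))) ∧
    ph.m = ((n / D.T + (D.params N).N0 : ℕ) : ℝ) ^ 6 := by
  obtain ⟨o1, o2, r, m, hm, hm', hA, hB, t0, t1, a1, a2, ⟨c1, s1⟩, c2, d1, d2, hwin⟩ :=
    D.phase_times (N := N) n
  rw [← hm']
  obtain ⟨-, l0⟩ := hwin 0 (by norm_num)
  obtain ⟨h1, l1⟩ := hwin 1 (by norm_num)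
  obtain ⟨-, l2⟩ := hwin 2 (by norm_num)
  rw [Nat.add_zero, t0] at l0
  rw [a1, t1] at l1 h1
  rw [a2] at l2
  have hR := D.rMax_pos
  have hg := D.gain_pos
  have hpl := D.plateau_pos
  have haf := D.after_pos
  have hRL : 0 ≤ D.rMax * D.L := by positivity
  have eg1 : D.gain / 2 * D.plateau * m =
      (2 + 4 * D.rMax + 10 * D.rMax * (2 * D.L) + (2 * D.rMax + D.gain)) * m := by
    rw [plateau]; field_simp
  have eg2 : D.gain / 2 * D.after * m =
      (1 + 2 * D.rMax * (2 + D.plateau + 2 * (2 * D.L)) + (2 * D.rMax + D.gain)) * m := by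
    rw [after]; field_simp
  have k1 := mul_le_mul_of_nonneg_right hm (show 0 ≤ 2 + 4 * D.rMax + 10 * D.rMax * (2 * D.L) +
    (2 * D.rMax + D.gain) by positivity)
  have k2 := mul_le_mul_of_nonneg_right hm (show 0 ≤ 1 + 2 * D.rMax * (2 + D.plateau + 2 * (2 * D.L)) +
    (2 * D.rMax + D.gain) by positivity)
  refine ⟨{ a := fun s => (D.params N).time (D.begIdx (3 * n + s))
            c := (D.params N).time o1 + m
            d := (D.params N).time (o1 + 1) - m
            e := (D.params N).time o2
            f := (D.params N).time (o2 + 1)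
            R := 2 * D.rMax
            up := D.gain / 2
            down := D.gain / 2
            m := m
            a_le := fun s => (hwin s s.2).1
            b0_c := by rw [t0]; linarith
            c_d := by rw [d1]; nlinarith
            d_b1 := by rw [t1]; linarith
            b1_e := t1.le
            e_f := by rw [d2]; nlinarith
            f_a2 := by show _ ≤ (D.params N).time (D.begIdx (3 * n + 2)); rw [a2]
            lip := diff_lip h n
            rise := ?_
            fall := ?_
            margin_up := ?_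
            margin_down := ?_ }, fun s => rfl, rfl⟩
  · have hzc : ∀ u ∈ Set.Icc ((D.params N).time o1 + m) ((D.params N).time (o1 + 1) - m),
        (D.params N).comp none u = D.z r := fun u hu => by
      have := (D.params N).comp_plateau (m := o1) (t := u)
        (by rw [c1]; simp only [Step.width]; rw [s1]; exact hu.1)
        (by rw [c1]; simp only [Step.width]; rw [s1]; exact hu.2)
      rw [c1] at this
      exact this
    have := gap_integral h (D.wt_le (D.B r)) (D.deg_le _) (D.wt_le (D.A r)) (D.deg_le _)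
      (show (D.params N).time o1 + m ≤ (D.params N).time (o1 + 1) - m by rw [d1]; nlinarith) hzc
      (D.cross_gap r)
    rw [show (D.params N).time (o1 + 1) - m - ((D.params N).time o1 + m) = D.plateau * m by
      rw [d1]; ring] at this ⊢
    simp only [Growth.Plan.diff, hA, hB]
    show expoR _ _ _ _ - expoR _ _ _ _ + _ ≤ expoR _ _ _ _ - expoR _ _ _ _
    nlinarith
  · have := gap_integral h (D.wt_le (D.A r)) (D.deg_le _) (D.wt_le (D.B r)) (D.deg_le _)
      ((D.params N).time_strictMono.monotone (Nat.le_succ o2)) (z := 0)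
      (fun u hu => ((D.params N).comp_of_round hu.1 hu.2 (by rw [c2]; rfl) none).eq_of_nhds)
      (D.round_gap r)
    rw [show (D.params N).time (o2 + 1) - (D.params N).time o2 = D.after * m + 1 by
      rw [d2]; ring] at this ⊢
    simp only [Growth.Plan.diff, hA, hB]
    show expoR _ _ _ _ - expoR _ _ _ _ ≤ expoR _ _ _ _ - expoR _ _ _ _ - _
    nlinarith
  · show 2 * m + 2 * D.rMax * ((D.params N).time o1 + m - (D.plan N).τ (3 * n) +
      ((D.plan N).τ (3 * n + 1) - ((D.params N).time (o1 + 1) - m))) +
      2 * (2 * D.rMax) * ((D.plan N).τ (3 * n) - (D.params N).time (D.begIdx (3 * n + 0)) +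
        ((D.plan N).τ (3 * n + 1) - (D.params N).time (D.begIdx (3 * n + 1)))) ≤
      D.gain / 2 * ((D.params N).time (o1 + 1) - m - ((D.params N).time o1 + m))
    simp only [Nat.add_zero]
    rw [t0, t1, a1, d1]
    rw [d1] at l1
    linarith only [mul_le_mul_of_nonneg_left l0 hR.le, mul_le_mul_of_nonneg_left l1 hR.le, eg1,
      mul_pos hR (zero_lt_one.trans_le hm), mul_pos hg (zero_lt_one.trans_le hm),
      mul_nonneg hRL (zero_le_one.trans hm)]
  · show m + 2 * D.rMax * ((D.plan N).τ (3 * n + 1) - (D.plan N).τ (3 * n)) +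
      2 * D.rMax * ((D.params N).time o2 - (D.plan N).τ (3 * n + 1) +
        ((D.plan N).τ (3 * n + 2) - (D.params N).time (o2 + 1))) ≤
      D.gain / 2 * ((D.params N).time (o2 + 1) - (D.params N).time o2)
    rw [t0, t1, d2]
    rw [d2] at l2
    rw [d1] at l1
    linarith only [mul_le_mul_of_nonneg_left l1 hR.le, mul_le_mul_of_nonneg_left l2 hR.le, eg2, hg,
      mul_pos hR (zero_lt_one.trans_le hm), mul_pos hg (zero_lt_one.trans_le hm),
      mul_nonneg hRL (zero_le_one.trans hm)]

/-- A bound for the sum of the sizes of all transvections. -/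
def sumBd (_ : (D.params N).Ok) : ℝ := 6 * D.T * Real.exp (-((D.params N).N0 : ℝ))

/-- The windows of the transvections with their sizes. -/
def windows : Growth.Plan.Windows (D.plan N) where
  lo k := (D.params N).time (D.begIdx k)
  lo_le k := by
    obtain ⟨i, r, s, -, -, -, -, hb, he⟩ := D.idx_split N k
    have h1 : D.begIdx k < D.endIdx k := by
      rw [hb, he]
      have := D.L_pos
      nlinarith
    have h2 := (D.params N).one_le_dur (D.begIdx k)
    have h3 := (D.params N).time_strictMono.monotone (Nat.succ_le_of_lt h1)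
    rw [Params.time_succ] at h3
    show _ ≤ (D.params N).time (D.endIdx k) - 1
    linarith
  τ_le k := by
    refine (D.params N).time_strictMono.monotone ?_
    unfold endIdx begIdx
    exact Nat.add_le_add (Nat.le_succ _) (Nat.div_le_div_right (Nat.le_succ k))
  ε k := Real.exp (-((k / (3 * D.T) + (D.params N).N0 : ℕ) : ℝ) ^ 6)
  S := sumBd h
  sum_le n := by
    set N0 := (D.params N).N0
    set q := 3 * D.T
    have hq : 0 < q := by have := D.T_pos; omega
    calc ∑ k ∈ range n, Real.exp (-((k / q + N0 : ℕ) : ℝ) ^ 6)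
        ≤ ∑ k ∈ range (n * q), Real.exp (-(N0 : ℝ)) * (1 / 2) ^ (k / q) := by
          refine (sum_le_sum fun k _ => ?_).trans
            (sum_le_sum_of_subset_of_nonneg (range_subset_range.2 (Nat.le_mul_of_pos_right n hq))
              fun k _ _ => by positivity)
          have h1 : ((k / q + N0 : ℕ) : ℝ) ≤ ((k / q + N0 : ℕ) : ℝ) ^ 6 :=
            le_self_pow₀ ((D.params N).one_le_size (k / q)) (by norm_num)
          refine (Real.exp_le_exp.2 (neg_le_neg h1)).trans ?_
          rw [Nat.cast_add, neg_add, Real.exp_add, mul_comm]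
          gcongr
          rw [show -((k / q : ℕ) : ℝ) = ((k / q : ℕ) : ℝ) * (-1) by ring, Real.exp_nat_mul]
          gcongr
          linarith [Real.exp_neg_one_lt_half]
      _ = Real.exp (-(N0 : ℝ)) * ((q : ℝ) * ∑ i ∈ range n, (1 / 2 : ℝ) ^ i) := by
          rw [← mul_sum]
          congr 1
          induction n with
          | zero => simp
          | succ n ih =>
            rw [Nat.succ_mul, sum_range_add, ih, sum_range_succ _ n, mul_add]
            congr 1
            rw [sum_congr rfl fun x hx => by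
              rw [show (n * q + x) / q = n by
                rw [Nat.mul_comm, Nat.mul_add_div hq, Nat.div_eq_of_lt (mem_range.1 hx), Nat.add_zero]]]
            simp
      _ ≤ Real.exp (-(N0 : ℝ)) * ((q : ℝ) * 2) := by gcongr; exact sum_geometric_two_le n
      _ = sumBd h := by simp [sumBd, q, N0]; ring
  small k t ht := by
    obtain ⟨ph, ha, hm⟩ := exists_phase h (k / 3)
    have hk : 3 * (k / 3) + k % 3 = k := Nat.div_add_mod k 3
    have hs := ph.small ⟨k % 3, Nat.mod_lt _ (by norm_num)⟩ (t := t)
      (by rw [ha]; simp only [hk]; exact ht)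
    simp only [hk, hm, Nat.div_div_eq_div_mul] at hs
    exact hs

/-- The time budget. -/
def budget : Growth.Budget (D.plan N) :=
  (D.params N).budget (D.plan N) (fun l => rateInf (D.deg l)) D.rMax (3 * D.rMax) D.stay_not_mem
    (fun i r hr => by
      have hT : r < D.T := hr
      have e : ∀ s < 3, (3 * (i * D.T + r) + s) / (3 * D.T) = i := fun s hs => by
        rw [← Nat.div_div_eq_div_mul, show (3 * (i * D.T + r) + s) / 3 = i * D.T + r by omega,
          Nat.mul_comm i, Nat.mul_add_div D.T_pos, Nat.div_eq_of_lt hT, Nat.add_zero]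
      have hlen : D.steps.length = (D.params N).steps.length := rfl
      have m1 := Nat.mul_le_mul_right (3 * (D.L + 1)) (show r + 1 ≤ D.T from hT)
      have e0 : D.endIdx (3 * (i * D.T + r)) = i * (D.params N).len +
          (r * (3 * (D.L + 1)) + (D.L + 1)) := by
        rw [endIdx, show (3 * (i * D.T + r)) / (3 * D.T) = i from e 0 (by norm_num), D.params_len]
        ring
      have e2 : D.endIdx (3 * (i * D.T + r) + 2) = i * (D.params N).len +
          (r + 1) * (3 * (D.L + 1)) := by
        rw [endIdx, e 2 (by norm_num), D.params_len]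
        ring
      constructor
      · show _ ≤ (D.params N).time (D.endIdx (3 * (i * D.T + r)))
        rw [e0]
        exact ((D.params N).start_mem i _ (by
          rw [← hlen, D.steps_length]; rw [Nat.succ_mul] at m1; omega)).1
      · show (D.params N).time (D.endIdx (3 * (i * D.T + r) + 2)) ≤ _
        rw [e2]
        exact ((D.params N).start_mem i _ (by rw [← hlen, D.steps_length]; exact m1)).2)
    (plan_lip h)
    (fun l => by
      rw [rateInf, abs_of_nonneg (Barrier.root_nonneg (by positivity))]
      refine (Barrier.root_le_sqrt (by norm_num) (by positivity)).trans ?_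
      rw [Real.sqrt_le_iff]
      refine ⟨D.rMax_pos.le, ?_⟩
      have : (D.deg l : ℝ) ≤ D.J0 := by exact_mod_cast D.deg_le l
      have := Nat.cast_nonneg (α := ℝ) (D.deg l)
      unfold rMax
      nlinarith)
    (fun l i => by
      set p := D.params N
      set a := p.P i + p.exc i with ha
      set b := p.P (i + 1)
      set j := D.deg l
      have hab : a ≤ b := by
        show a ≤ p.P (i + 1)
        rw [p.P_succ]
        linarith [pow_nonneg (Nat.cast_nonneg (α := ℝ) (i + p.N0)) 7]
      show expoR p.shape j (D.wt l) b - expoR p.shape j (D.wt l) a ≤ _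
      exact stay_le h (D.wt_le l) (D.deg_le l) hab fun u hu => by
        have hk : p.steps.length < p.len := by rw [p.len_eq]; omega
        obtain ⟨e1, -⟩ := p.start_step i _ hk
        refine (p.comp_of_round (m := i * p.len + p.steps.length) ?_ ?_ ?_ none).eq_of_nhds
        · exact le_of_eq_of_le (p.start_end i) hu.1
        · refine hu.2.trans (le_of_eq ?_)
          show p.P (i + 1) = _
          rw [← p.start_len]
          simp [Params.start, p.len_eq, Nat.add_assoc]
        · rw [e1]; simp [Params.list, Step.amp])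

/-- The norming path grows at most at the mean round rate. -/
theorem path_growth {μ : ℝ} (hμ : 0 ≤ μ) {q : ℕ} (hq : 0 < q)
    (hcyc : (D.plan N).cyc ^ q = 1)
    (hmean : ∀ s, ∑ i ∈ range q, rateInf (D.deg (((D.plan N).cyc ^ i) s)) ≤ μ * q)
    {δ : ℝ} (hδ : 0 < δ) :
    ∃ C, ∀ t ≥ 0, ∀ x, ‖(D.plan N).path t x‖ ≤ C * Real.exp ((μ + δ) * t) * ‖x‖ :=
  (windows h).path_growth (budget h) hμ hq hcyc hmean hδ

/-- Backward decay of the norming path. -/
theorem path_past (t s : ℝ) (hst : s ≤ t) (x : EuclideanSpace ℝ (Fin D.d)) :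
    ‖(D.plan N).path s x‖ ≤
      Real.exp (3 * sumBd h) * Real.exp (-(1 / 2) * (t - s)) * ‖(D.plan N).path t x‖ := by
  have h1 := ((D.plan N).path s).comp ((D.plan N).pathInv t)
    |>.le_of_opNorm_le ((windows h).path_past (plan_lo h) t s hst) ((D.plan N).path t x)
  have e := DFunLike.congr_fun ((D.plan N).pathInv_path t) x
  simp only [ContinuousLinearMap.comp_apply, ContinuousLinearMap.id_apply] at e h1
  rw [e] at h1
  exact h1

/-- Forward growth of the norming path. -/
theorem path_future (t s : ℝ) (hts : t ≤ s) (x : EuclideanSpace ℝ (Fin D.d)) :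
    ‖(D.plan N).path s x‖ ≤
      Real.exp (3 * sumBd h) * Real.exp (D.rMax * (s - t)) * ‖(D.plan N).path t x‖ := by
  have h1 := ((D.plan N).path s).comp ((D.plan N).pathInv t)
    |>.le_of_opNorm_le ((windows h).path_future (plan_up h) t s hts) ((D.plan N).path t x)
  have e := DFunLike.congr_fun ((D.plan N).pathInv_path t) x
  simp only [ContinuousLinearMap.comp_apply, ContinuousLinearMap.id_apply] at e h1
  rw [e] at h1
  exact h1

/-- The designed values, seen through any frame of size `exp E` on the labels. -/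
theorem X_le {G : Type*} [NormedAddCommGroup G] [NormedSpace ℝ G] {k : ℕ} {t : ℝ}
    (h1 : ∀ k', k = k' + 1 → (D.plan N).τ k' ≤ t) (h2 : t ≤ (D.plan N).τ k)
    (A : EuclideanSpace ℝ (Fin D.d) →L[ℝ] G) {K : ℝ} (hK : 0 < K)
    (hA : ∀ l, ‖A (EuclideanSpace.single l 1)‖ ≤ K * Real.exp ((D.plan N).E l t))
    (x : EuclideanSpace ℝ (Fin D.d)) :
    ‖A ((D.plan N).X (D.plan N).refFrame k x)‖ ≤
      K * (D.d * Real.exp (sumBd h)) * ‖(D.plan N).path t x‖ := by
  have hA' : ∀ l, ‖(K⁻¹ • A) (EuclideanSpace.single l 1)‖ ≤ Real.exp ((D.plan N).E l t) := fun l => by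
    rw [smul_apply, norm_smul, Real.norm_eq_abs, abs_of_pos (inv_pos.2 hK),
      inv_mul_le_iff₀ hK]
    exact hA l
  have h3 := ((K⁻¹ • A).comp (((D.plan N).X (D.plan N).refFrame k).comp ((D.plan N).pathInv t)))
    |>.le_of_opNorm_le ((windows h).X_le h1 h2 _ hA') ((D.plan N).path t x)
  have e := DFunLike.congr_fun ((D.plan N).pathInv_path t) x
  simp only [ContinuousLinearMap.comp_apply, ContinuousLinearMap.id_apply] at e h3
  rw [e, smul_apply, norm_smul, Real.norm_eq_abs, abs_of_pos (inv_pos.2 hK), inv_mul_le_iff₀ hK,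
    Fintype.card_fin] at h3
  refine h3.trans (le_of_eq ?_)
  show K * (_ * Real.exp (windows h).S * _) = _
  rw [show (windows h).S = sumBd h from rfl]
  ring

/-- The designed jumps are exponentially small. -/
theorem dX_le {G : Type*} [NormedAddCommGroup G] [NormedSpace ℝ G] {k : ℕ} {t : ℝ}
    (ht : t ∈ Set.Icc ((D.params N).time (D.begIdx k)) ((D.plan N).τ k))
    (A : EuclideanSpace ℝ (Fin D.d) →L[ℝ] G) {K : ℝ} (hK : 0 < K)
    (hA : ∀ l, ‖A (EuclideanSpace.single l 1)‖ ≤ K * Real.exp ((D.plan N).E l t))
    (x : EuclideanSpace ℝ (Fin D.d)) :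
    ‖A (((D.plan N).X (D.plan N).refFrame (k + 1) - (D.plan N).X (D.plan N).refFrame k) x)‖ ≤
      K * (D.d * Real.exp (sumBd h)) *
        Real.exp (-((k / (3 * D.T) + (D.params N).N0 : ℕ) : ℝ) ^ 6) *
          ‖(D.plan N).path t x‖ := by
  have hA' : ∀ l, ‖(K⁻¹ • A) (EuclideanSpace.single l 1)‖ ≤ Real.exp ((D.plan N).E l t) := fun l => by
    rw [smul_apply, norm_smul, Real.norm_eq_abs, abs_of_pos (inv_pos.2 hK),
      inv_mul_le_iff₀ hK]
    exact hA l
  have h3 := ((K⁻¹ • A).comp ((((D.plan N).X (D.plan N).refFrame (k + 1) -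
      (D.plan N).X (D.plan N).refFrame k)).comp ((D.plan N).pathInv t)))
    |>.le_of_opNorm_le ((windows h).dX_le ht _ hA') ((D.plan N).path t x)
  have e := DFunLike.congr_fun ((D.plan N).pathInv_path t) x
  simp only [ContinuousLinearMap.comp_apply, ContinuousLinearMap.id_apply] at e h3
  rw [e, smul_apply, norm_smul, Real.norm_eq_abs, abs_of_pos (inv_pos.2 hK), inv_mul_le_iff₀ hK,
    Fintype.card_fin] at h3
  refine h3.trans (le_of_eq ?_)
  show K * (_ * (Real.exp _ * Real.exp (sumBd h)) * _) = _
  ring

/-- The norming path is continuous. -/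
theorem continuous_path : Continuous (D.plan N).path :=
  ((windows h).continuous_path fun l => h.continuous_expoR (D.wt_le l)).1

end

end Design

end

end Vale.Agent.P225.Sched
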