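import Vale.Agent.P225.Sched.ExpoR

/-!
P225 Sched: exponent integrals of the schedule.

The regular scalar solutions of the weight blocks stay within `allow` of the reference exponent
`expo`; the exponent is Lipschitz, and on round stretches it grows at most at the final round rate.
All constants depend on the list of steps and on the degree only.
-/

namespace Vale.Agent.P225.Sched

open scoped Topology ContDiff Interval
open Real Filter Set MeasureTheory Vale.Agent.P225.Barrier

noncomputable section

namespace Params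

variable {p : Params}

theorem Ok.expo_lip (h : p.Ok) {j m : ℕ} (hm : m ≤ j) (s t : ℝ) :
    |expo p.shape j m t - expo p.shape j m s| ≤ speed j * |t - s| := by
  rw [expo_sub]
  rw [← Real.norm_eq_abs]
  refine intervalIntegral.norm_integral_le_of_norm_le_const fun u _ => ?_
  obtain ⟨a, b, -⟩ := h.pW_bounds hm u
  rw [Real.norm_eq_abs, abs_of_nonneg a]
  exact b

theorem rateInf_le (j : ℕ) : rateInf j ≤ 8 / 7 * ((j : ℝ) + 1) - 1 := by
  rw [rateInf, root, sub_le_iff_le_add]
  refine (Real.sqrt_le_iff.2 ⟨by positivity, ?_⟩).trans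
    (show 8 / 7 * ((j : ℝ) + 1) ≤ _ by linarith)
  nlinarith [sq_nonneg (j : ℝ)]

/-- On round times the exponent is at most the final round rate, up to the drift. -/
theorem Ok.pW_round_le (h : p.Ok) {j m : ℕ} (t : ℝ) (hb : p.comp none t = 0) :
    pW p.shape j m t ≤ rateInf j + 3 / 2 * p.rate t := by
  have hl : lamW p.shape j m t = Real.exp (2 * p.chi t) * ((j : ℝ) * (j + 2)) := by
    simp [lamW, shape, hb]
  have hl' : lamW p.shape j m t ≤ 64 / 49 * ((j : ℝ) * (j + 2)) := by
    rw [hl]; exact mul_le_mul_of_nonneg_right (h.exp_chi_bounds t).2 (by positivity)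
  obtain ⟨hs1, hs2⟩ := h.drift_bounds t
  have h1 := (root_anti hs2 (by linarith)
    (show (0 : ℝ) ≤ 64 / 49 * ((j : ℝ) * (j + 2)) by positivity)).2
  have h2 := root_mono (p.shape.drift t) hl'
  rw [p.shape_drift] at h1 h2
  unfold pW rateInf
  rw [p.shape_drift]
  linarith

theorem Ok.expo_round_le (h : p.Ok) {j m : ℕ} {a b : ℝ} (hab : a ≤ b)
    (hb : ∀ t ∈ Icc a b, p.comp none t = 0) :
    expo p.shape j m b - expo p.shape j m a ≤ rateInf j * (b - a) + 1 := by
  rw [expo_sub]
  have hc : Continuous fun t => rateInf j + 3 / 2 * p.rate t := by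
    have := p.contDiff_rate.continuous
    fun_prop
  refine (intervalIntegral.integral_mono_on hab ((continuous_pW _ j m).intervalIntegrable _ _)
    (hc.intervalIntegrable _ _) fun t ht => h.pW_round_le t (hb t ht)).trans ?_
  have e : (∫ t in a..b, p.rate t) = p.chi b - p.chi a :=
    intervalIntegral.integral_eq_sub_of_hasDerivAt (fun t _ => p.hasDerivAt_chi t)
      (p.contDiff_rate.continuous.intervalIntegrable a b)
  have hi : IntervalIntegrable (fun t => 3 / 2 * p.rate t) volume a b :=
    (continuous_const.mul p.contDiff_rate.continuous).intervalIntegrable a b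
  rw [intervalIntegral.integral_add intervalIntegrable_const hi,
    intervalIntegral.integral_const, intervalIntegral.integral_const_mul, e, smul_eq_mul]
  nlinarith [(h.chi_bounds b).2, (h.chi_bounds a).1, log_87.2]

/-! ### Counting periods -/

/-- A step where a squash lives is short. -/
theorem piece_dur_le (m : ℕ) (h : (p.step m).amp (p.size m) ≠ 0) :
    p.dur m ≤ (p.step m).durCoef * p.size m ^ 6 := by
  have hn := p.size_ge_one m
  unfold dur
  revert h
  cases p.step m with
  | cross z c => intro _; simp only [Step.dur, Step.durCoef]; exact le_of_eq (by ring)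
  | micro a z c =>
    intro _
    simp only [Step.dur, Step.durCoef]
    calc (2 + max c 0) * p.size m ^ 3 ≤ (2 + max c 0) * p.size m ^ 6 := by
          gcongr <;> norm_num
      _ = (max c 0 + 2) * p.size m ^ 6 := by ring
  | round c => simp [Step.amp]
  | gap c => simp [Step.amp]
  | slot => simp [Step.amp]
  | stay => simp [Step.amp]

/-- Integrals of functions paid step by step grow like the number of periods. -/
theorem integral_le_periods {f : ℝ → ℝ} (hc : Continuous f) (h0 : ∀ t, 0 ≤ f t)
    (hearly : ∀ t ≤ (p.N0 : ℝ), f t = 0) {B : ℝ} (hB : 0 ≤ B)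
    (hstep : ∀ k, (∫ u in p.time k..p.time (k + 1), f u) ≤ B * (p.step k).durCoef)
    {t : ℝ} (ht : 0 ≤ t) :
    (∫ u in (0 : ℝ)..t, f u) ≤ 2 * B * p.durSum * (t + (p.N0 : ℝ) ^ 8) ^ (1 / 8 : ℝ) := by
  have hint : ∀ a b, IntervalIntegrable f volume a b := fun a b => hc.intervalIntegrable a b
  have hrhs : 0 ≤ 2 * B * p.durSum * (t + (p.N0 : ℝ) ^ 8) ^ (1 / 8 : ℝ) := by
    have := p.durSum_nonneg
    positivity
  have hfirst : ∀ s, s ≤ (p.N0 : ℝ) → 0 ≤ s → (∫ u in (0 : ℝ)..s, f u) = 0 := fun s hs hs0 => by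
    rw [intervalIntegral.integral_congr (g := fun _ => (0 : ℝ))]
    · simp
    · intro u hu
      rw [uIcc_of_le hs0] at hu
      exact hearly u (hu.2.trans hs)
  rcases le_or_gt t p.N0 with hN | hN
  · rw [hfirst t hN ht]; exact hrhs
  obtain ⟨k, hk1, hk2⟩ := p.exists_index hN.le
  have hsum : ∀ l, (∫ u in (0 : ℝ)..p.time l, f u) ≤
      B * ∑ r ∈ Finset.range l, (p.step r).durCoef := by
    intro l
    induction l with
    | zero => simp only [time]; rw [hfirst _ le_rfl (Nat.cast_nonneg _)]; simp
    | succ l ih =>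
      rw [← intervalIntegral.integral_add_adjacent_intervals (hint 0 (p.time l))
        (hint (p.time l) _), Finset.sum_range_succ, mul_add]
      linarith [hstep l]
  have hper : ∀ i, ∑ r ∈ Finset.range (i * p.len), (p.step r).durCoef = (i : ℝ) * p.durSum := by
    intro i
    induction i with
    | zero => simp
    | succ i ih =>
      rw [Nat.succ_mul, Finset.sum_range_add, ih]
      have : ∑ r ∈ Finset.range p.len, (p.step (i * p.len + r)).durCoef = p.durSum := by
        rw [durSum, ← sum_getD Step.durCoef Step.stay p.list]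
        exact Finset.sum_congr rfl fun r hr => by
          rw [(p.start_step i r (Finset.mem_range.1 hr)).1]
      rw [this]
      push_cast
      ring
  set i := k / p.len
  have hki : k + 1 ≤ (i + 1) * p.len := by
    have h1 := Nat.mod_lt k p.len_pos
    have h2 : i * p.len + k % p.len = k := Nat.div_add_mod' k p.len
    rw [Nat.succ_mul]
    omega
  have hti : t ≤ p.time ((i + 1) * p.len) := hk2.le.trans (p.time_strictMono.monotone hki)
  have h1 : (∫ u in (0 : ℝ)..t, f u) ≤ ∫ u in (0 : ℝ)..p.time ((i + 1) * p.len), f u := by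
    rw [← intervalIntegral.integral_add_adjacent_intervals (hint 0 t) (hint t (p.time ((i + 1) * p.len)))]
    linarith [intervalIntegral.integral_nonneg (μ := volume) hti fun u _ => h0 u]
  have h2 := hsum ((i + 1) * p.len)
  rw [hper] at h2
  push_cast at h2
  have hP := p.period_start_ge i
  have hPt : p.start i 0 ≤ t := by
    refine le_trans (p.time_strictMono.monotone ?_) hk1
    simpa using Nat.div_mul_le_self k p.len
  set n : ℝ := ((i + p.N0 : ℕ) : ℝ)
  have hn1 : (i : ℝ) + 1 ≤ n := by simp only [n]; push_cast; linarith [p.one_le_N0]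
  have hn : n ≤ 2 * (t + (p.N0 : ℝ) ^ 8) ^ (1 / 8 : ℝ) := by
    have hn0 : 0 ≤ n := Nat.cast_nonneg _
    have h8 : (n / 2) ^ 8 ≤ t + (p.N0 : ℝ) ^ 8 := by
      rw [div_pow]
      have : n ^ 8 / 2 ^ 8 ≤ n ^ 8 / 255 := by gcongr; norm_num
      linarith
    have := Real.rpow_le_rpow (by positivity) h8 (by norm_num : (0 : ℝ) ≤ ((8 : ℕ) : ℝ)⁻¹)
    rw [Real.pow_rpow_inv_natCast (by positivity) (by norm_num)] at this
    rw [show (1 / 8 : ℝ) = ((8 : ℕ) : ℝ)⁻¹ by norm_num]
    linarith
  calc (∫ u in (0 : ℝ)..t, f u) ≤ B * (((i : ℝ) + 1) * p.durSum) := h1.trans h2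
    _ ≤ B * (2 * (t + (p.N0 : ℝ) ^ 8) ^ (1 / 8 : ℝ) * p.durSum) := by
        gcongr
        · exact p.durSum_nonneg
        · linarith
    _ = _ := by ring

/-- A bound proportional to the squash's level over one step. -/
theorem integral_piece_le (o : Option (Fin 6)) {g : ℝ → ℝ} (hg : Continuous g) {k : ℕ} {B : ℝ}
    (hB : 0 ≤ B)
    (hzero : ∀ t ∈ Icc (p.time k) (p.time (k + 1)), p.comp o =ᶠ[𝓝 t] (fun _ => 0) → g t = 0)
    (hle : ∀ t ∈ Icc (p.time k) (p.time (k + 1)), g t ≤ B / p.size k ^ 6) :
    (∫ u in p.time k..p.time (k + 1), g u) ≤ B * (p.step k).durCoef := by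
  have hd := one_le_durCoef (p.step k)
  have hlt : p.time k ≤ p.time (k + 1) := p.time_strictMono.monotone (Nat.le_succ k)
  by_cases hz : (p.step k).amp (p.size k) = 0
  · rw [intervalIntegral.integral_congr (g := fun _ => (0 : ℝ))]
    · simp; nlinarith
    · intro u hu
      rw [uIcc_of_le hlt] at hu
      exact hzero u hu (p.comp_of_round hu.1 hu.2 hz o)
  · refine (intervalIntegral.integral_mono_on hlt (hg.intervalIntegrable _ _)
      intervalIntegrable_const hle).trans ?_
    have hn : 0 < p.size k ^ 6 := by have := p.size_ge_one k; positivity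
    rw [intervalIntegral.integral_const, smul_eq_mul, p.time_succ, add_sub_cancel_left]
    calc p.dur k * (B / p.size k ^ 6)
        ≤ (p.step k).durCoef * p.size k ^ 6 * (B / p.size k ^ 6) := by
          gcongr; exact piece_dur_le k hz
      _ = B * (p.step k).durCoef := by rw [mul_assoc, mul_div_cancel₀ _ hn.ne', mul_comm]

/-- `∫ |β'|` is linear in the number of periods. -/
theorem integral_deriv_beta_le {t : ℝ} (ht : 0 ≤ t) :
    (∫ u in (0 : ℝ)..t, |deriv (p.comp none) u|) ≤
      2 * p.K * p.durSum * (t + (p.N0 : ℝ) ^ 8) ^ (1 / 8 : ℝ) := by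
  have hc : Continuous fun u => |deriv (p.comp none) u| :=
    ((p.contDiff_comp none).continuous_deriv (by norm_num)).abs
  refine integral_le_periods hc (fun u => abs_nonneg _) (fun u hu => ?_) p.K_pos.le
    (fun k => integral_piece_le none hc p.K_pos.le (fun u _ e => by simp [e.deriv_eq])
      fun u hu => (abs_deriv_comp_le none hu.1 hu.2).1) ht
  have e : p.comp none =ᶠ[𝓝 u] fun _ => 0 := by
    filter_upwards [Iio_mem_nhds (show u < (p.N0 : ℝ) + 1 / 2 by linarith)] with v hv
    exact p.comp_eq_zero_early hv.le none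
  simp [e.deriv_eq]

theorem abs_piece_le (k : ℕ) (t : ℝ) : |p.piece k t| ≤ |(p.step k).amp (p.size k)| := by
  unfold piece
  rw [abs_mul, abs_of_nonneg (bump_nonneg _ _ _ _)]
  exact mul_le_of_le_one_right (abs_nonneg _) (bump_le_one _ _ _ _)

/-- `∫ |γ|` is linear in the number of periods. -/
theorem integral_gamma_le (a : Fin 6) {t : ℝ} (ht : 0 ≤ t) :
    (∫ u in (0 : ℝ)..t, |p.comp (some a) u|) ≤
      2 * p.levelSum * p.durSum * (t + (p.N0 : ℝ) ^ 8) ^ (1 / 8 : ℝ) := by
  have hc : Continuous fun u => |p.comp (some a) u| := (p.contDiff_comp _).continuous.abs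
  have hL : 0 ≤ p.levelSum := by linarith [p.one_le_levelSum]
  refine integral_le_periods hc (fun u => abs_nonneg _) (fun u hu => ?_) hL (fun k => ?_) ht
  · simp [p.comp_eq_zero_early (show u ≤ (p.N0 : ℝ) + 1 / 2 by linarith)]
  have hlt : p.time k ≤ p.time (k + 1) := p.time_strictMono.monotone (Nat.le_succ k)
  have hd := one_le_durCoef (p.step k)
  by_cases hax : (p.step k).axis = some a
  · have hl := p.abs_level_le k
    have hn := p.size_ge_one k
    have key : |(p.step k).amp (p.size k)| * p.dur k ≤ p.levelSum * (p.step k).durCoef := by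
      unfold dur
      revert hax hl
      cases p.step k with
      | micro b z c =>
        intro _ hl
        simp only [Step.level] at hl
        simp only [Step.amp, Step.dur, Step.durCoef]
        rw [abs_div, abs_of_pos (by positivity : (0 : ℝ) < p.size k ^ 3)]
        field_simp
        nlinarith [le_max_right c 0]
      | round c => intro hax; simp [Step.axis] at hax
      | gap c => intro hax; simp [Step.axis] at hax
      | cross z c => intro hax; simp [Step.axis] at hax
      | slot => intro hax; simp [Step.axis] at hax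
      | stay => intro hax; simp [Step.axis] at hax
    refine (intervalIntegral.integral_mono_on hlt (hc.intervalIntegrable _ _)
      (intervalIntegrable_const (c := |(p.step k).amp (p.size k)|)) fun u hu => ?_).trans ?_
    · rw [p.comp_eq_piece (m := k) (s := u) (by linarith [hu.1]) (by linarith [hu.2]), if_pos hax]
      exact p.abs_piece_le k u
    · rw [intervalIntegral.integral_const, smul_eq_mul, p.time_succ, add_sub_cancel_left,
        mul_comm]
      exact key
  · rw [intervalIntegral.integral_congr (g := fun _ => (0 : ℝ))]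
    · simp; nlinarith
    · intro u hu
      rw [uIcc_of_le hlt] at hu
      simp [p.comp_eq_piece (m := k) (s := u) (by linarith [hu.1]) (by linarith [hu.2]),
        if_neg hax]

/-! ### Riccati solutions against the reference exponent -/

theorem Ok.abs_deriv_rate_le (h : p.Ok) {t : ℝ} (ht : 0 ≤ t) :
    |deriv p.rate t| ≤ stepBound + 1 ∧ (1 ≤ t → |deriv p.rate t| ≤ p.rate t) := by
  refine ⟨?_, h.deriv_rate_abs⟩
  rw [(hasDerivAt_rate ht).deriv]
  set X := p.A * Real.exp (-t / 4) with hX
  set Y := p.C * p.tail t with hY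
  have hX0 : 0 ≤ X := (mul_pos h.A_pos (exp_pos _)).le
  have hY0 : 0 ≤ Y := mul_nonneg (by linarith [p.one_le_C]) (p.tail_pos ht).le
  have hX1 : X ≤ 1 / 21 := (mul_le_of_le_one_right h.A_pos.le
    (exp_le_one_iff.2 (by linarith))).trans h.A_le
  have hY1 : Y ≤ 1 / 1000000 := by
    refine (mul_le_mul_of_nonneg_left (p.tail_le ht) (by linarith [p.one_le_C])).trans ?_
    rw [mul_one_div]
    exact h.C_div
  have hD : 3 / 2 ≤ t + (p.N0 : ℝ) ^ 8 := by
    linarith [p.N0_le_pow, h.big, p.one_le_C, p.K_pos, p.one_le_levelSum, p.durSum_nonneg]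
  have hZ : p.C * (3 / 2) * p.tail t / (t + (p.N0 : ℝ) ^ 8) ≤ Y := by
    rw [div_le_iff₀ (by linarith)]
    nlinarith [hY]
  have hZ0 : 0 ≤ p.C * (3 / 2) * p.tail t / (t + (p.N0 : ℝ) ^ 8) :=
    div_nonneg (mul_nonneg (by linarith [p.one_le_C]) (p.tail_pos ht).le) (by linarith)
  have s1 := abs_le.1 (abs_deriv_sigma_le t)
  have s2 := smoothTransition.nonneg t
  have s3 := smoothTransition.le_one t
  have s4 := deriv_sigma_nonneg t
  rw [abs_le]
  constructor <;> nlinarith [one_le_stepBound]

theorem Ok.integral_abs_deriv_rate (h : p.Ok) {t : ℝ} (ht : 0 ≤ t) :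
    (∫ u in (0 : ℝ)..t, |deriv p.rate u|) ≤ stepBound + 2 := by
  have hc : Continuous fun u => |deriv p.rate u| :=
    (p.contDiff_rate.continuous_deriv (by norm_num)).abs
  have hi := fun a b => hc.intervalIntegrable (μ := volume) a b
  set T := max t 1
  have h1 : (∫ u in (0 : ℝ)..t, |deriv p.rate u|) ≤ ∫ u in (0 : ℝ)..T, |deriv p.rate u| := by
    rw [← intervalIntegral.integral_add_adjacent_intervals (hi 0 t) (hi t T)]
    linarith [intervalIntegral.integral_nonneg (μ := volume) (le_max_left t 1)
      fun u _ => abs_nonneg (deriv p.rate u)]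
  refine h1.trans ?_
  rw [← intervalIntegral.integral_add_adjacent_intervals (hi 0 1) (hi 1 T)]
  have h2 : (∫ u in (0 : ℝ)..1, |deriv p.rate u|) ≤ stepBound + 1 := by
    refine (intervalIntegral.integral_mono_on zero_le_one (hi _ _) intervalIntegrable_const
      fun u hu => (h.abs_deriv_rate_le hu.1).1).trans ?_
    simp
  have h3 : (∫ u in (1 : ℝ)..T, |deriv p.rate u|) ≤ 1 := by
    refine (intervalIntegral.integral_mono_on (le_max_right t 1) (hi _ _)
      (p.contDiff_rate.continuous.intervalIntegrable _ _)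
      fun u hu => (h.abs_deriv_rate_le (by linarith [hu.1])).2 hu.1).trans ?_
    rw [intervalIntegral.integral_eq_sub_of_hasDerivAt (fun u _ => p.hasDerivAt_chi u)
      (p.contDiff_rate.continuous.intervalIntegrable 1 T)]
    linarith [(h.chi_bounds T).2, (h.chi_bounds 1).1, log_87.2]
  linarith

theorem Ok.abs_deriv_pW_le (h : p.Ok) {j m : ℕ} (hm : m ≤ j) (hj : 0 < j) (t : ℝ) :
    |deriv (pW p.shape j m) t| ≤
      3 * |deriv p.rate t| + speed j * (p.rate t + 2 * |deriv (p.comp none) t|) := by
  refine ((hasDerivAt_pW p.shape hm hj t).2).trans ?_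
  simp only [shape, p.deriv_chi, abs_of_nonneg (h.rate_nonneg t)]
  have := mul_le_mul_of_nonneg_right (h.sqrt_lamW_le hm t)
    (show 0 ≤ p.rate t + 2 * |deriv (p.comp none) t| by
      have := h.rate_nonneg t
      positivity)
  simp only [shape] at this
  linarith

theorem continuous_deriv_pW {j m : ℕ} (hm : m ≤ j) (hj : 0 < j) (sh : Shape) :
    Continuous (deriv (pW sh j m)) := by
  have hs : ContDiff ℝ 1 sh.drift := by
    unfold Shape.drift
    exact contDiff_const.mul ((contDiff_infty_iff_deriv.1 sh.smooth_χ).2.of_le (by norm_cast))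
  have hl : ContDiff ℝ 1 (lamW sh j m) := by
    have := sh.smooth_χ.of_le (show (1 : WithTop ℕ∞) ≤ ∞ by norm_cast)
    have := sh.smooth_β.of_le (show (1 : WithTop ℕ∞) ≤ ∞ by norm_cast)
    unfold lamW
    fun_prop
  have hne : ∀ t, (1 + sh.drift t / 2) ^ 2 + lamW sh j m t ≠ 0 := fun t => by
    have hb := (lamB_bounds (χ := sh.χ t) (sq_nonneg (m : ℝ)) (sq_le_of_le hm)
      (le_refl |sh.β t|)).1
    have : (0 : ℝ) < j := by exact_mod_cast hj
    have : 0 < lamW sh j m t := lt_of_lt_of_le (by positivity) hb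
    positivity
  have : ContDiff ℝ 1 (pW sh j m) := by
    unfold pW root
    exact (((contDiff_const.add (hs.div_const 2)).pow 2).add hl).sqrt hne |>.sub
      (contDiff_const.add (hs.div_const 2))
  exact this.continuous_deriv le_rfl

theorem Ok.integral_abs_deriv_pW (h : p.Ok) {j m : ℕ} (hm : m ≤ j) (hj : 0 < j) {t : ℝ}
    (ht : 0 ≤ t) :
    (∫ u in (0 : ℝ)..t, |deriv (pW p.shape j m) u|) ≤
      3 * (stepBound + 2) + speed j *
        (1 + 4 * p.K * p.durSum * (t + (p.N0 : ℝ) ^ 8) ^ (1 / 8 : ℝ)) := by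
  have c1 : Continuous fun u => |deriv p.rate u| :=
    (p.contDiff_rate.continuous_deriv (by norm_num)).abs
  have c2 : Continuous fun u => |deriv (p.comp none) u| :=
    ((p.contDiff_comp none).continuous_deriv (by norm_num)).abs
  have c3 := p.contDiff_rate.continuous
  refine (intervalIntegral.integral_mono_on ht
    ((continuous_deriv_pW hm hj p.shape).abs.intervalIntegrable _ _)
    ((continuous_const.mul c1).add (continuous_const.mul
      (c3.add (continuous_const.mul c2))) |>.intervalIntegrable _ _)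
    fun u _ => h.abs_deriv_pW_le hm hj u).trans ?_
  simp only [Pi.add_apply, Pi.mul_apply]
  rw [intervalIntegral.integral_add, intervalIntegral.integral_const_mul,
    intervalIntegral.integral_const_mul, intervalIntegral.integral_add,
    intervalIntegral.integral_const_mul,
    intervalIntegral.integral_eq_sub_of_hasDerivAt (fun u _ => p.hasDerivAt_chi u)
      (c3.intervalIntegrable 0 t)]
  · have hr : 0 ≤ speed j := by unfold speed; positivity
    have e2 : p.chi t - p.chi 0 + 2 * ∫ u in (0 : ℝ)..t, |deriv (p.comp none) u| ≤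
        1 + 4 * p.K * p.durSum * (t + (p.N0 : ℝ) ^ 8) ^ (1 / 8 : ℝ) := by
      linarith [(h.chi_bounds t).2, (h.chi_bounds 0).1, log_87.2,
        integral_deriv_beta_le (p := p) ht]
    nlinarith [h.integral_abs_deriv_rate ht, mul_le_mul_of_nonneg_left e2 hr]
  · exact c3.intervalIntegrable _ _
  · exact (continuous_const.mul c2).intervalIntegrable _ _
  · exact (continuous_const.mul c1).intervalIntegrable _ _
  · exact (continuous_const.mul (c3.add (continuous_const.mul c2))).intervalIntegrable _ _

variable (p)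

/-- The constant of the allowance in degree `j`; it depends on the steps and on `j` only. -/
def expC (j : ℕ) : ℝ :=
  3 * (stepBound + 2) + speed j + 4 * speed j * p.K * p.durSum +
    192 * ((j : ℝ) * (j + 2)) * p.levelSum * p.durSum

theorem expC_congr {q : Params} (h : p.steps = q.steps) (j : ℕ) : p.expC j = q.expC j := by
  simp only [expC, K, durSum, levelSum, list, h]

variable {p}

theorem Ok.nearBlock_pos (h : p.Ok) {j m : ℕ} (hm : m ≤ j) {lam q : ℝ → ℝ}
    (hq : NearBlock p j m lam q) {t : ℝ} (ht : 0 ≤ t) :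
    3 / 2 ≤ q t + pW p.shape j m t + 2 + p.shape.drift t := by
  linarith [hq.nonneg t ht, (h.pW_bounds hm t).1, (h.drift_bounds t).1]

/-- The solution stays within `allow` of the reference exponent, in `L¹`. -/
theorem Ok.integral_dist_le (h : p.Ok) {j m : ℕ} (hm : m ≤ j) (hj : 0 < j) {lam q : ℝ → ℝ}
    (hq : NearBlock p j m lam q) {t : ℝ} (ht : 0 ≤ t) :
    (∫ u in (0 : ℝ)..t, |q u - pW p.shape j m u|) ≤ allow p (p.expC j) t := by
  set P := pW p.shape j m
  have hP := fun u => (hasDerivAt_pW p.shape hm hj u).1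
  have hcP : Continuous P := continuous_pW _ j m
  have e : (fun u => lam u - P u ^ 2 - (2 + p.shape.drift u) * P u - deriv P u) =
      fun u => (lam u - lamW p.shape j m u) - deriv P u := funext fun u => by
    have := root_eq (s := p.shape.drift u) (lamW_nonneg p.shape hm u)
    simp only [P, pW]
    linarith
  have cdev : Continuous fun u => (lam u - lamW p.shape j m u) - deriv P u :=
    (hq.cont.sub (continuous_lamW _ j m)).sub (continuous_deriv_pW hm hj p.shape)
  have h1 := (hq.ric.dist_curve (fun u _ => hP u) ht (by norm_num : (0 : ℝ) < 3 / 2)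
    (fun u hu => h.nearBlock_pos hm hq hu.1) (by rw [e]; exact cdev)).1
  rw [hq.start, pW_start p.shape m le_rfl, sub_self, abs_zero, zero_add] at h1
  have e' : ∀ u, lam u - pW p.shape j m u ^ 2 - (2 + p.shape.drift u) * pW p.shape j m u -
      deriv (pW p.shape j m) u = (lam u - lamW p.shape j m u) - deriv P u := fun u => congrFun e u
  simp only [e'] at h1
  have cG : Continuous fun u => ∑ a, |p.comp (some a) u| :=
    continuous_finset_sum _ fun a _ => (p.contDiff_comp _).continuous.abs
  set J := (j : ℝ) * (j + 2)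
  have hJ : 0 ≤ J := by positivity
  have h2 : (∫ u in (0 : ℝ)..t, |(lam u - lamW p.shape j m u) - deriv P u|) ≤
      (∫ u in (0 : ℝ)..t, 16 * J * ∑ a, |p.comp (some a) u|) +
        ∫ u in (0 : ℝ)..t, |deriv P u| := by
    have i1 : IntervalIntegrable (fun u => 16 * J * ∑ a, |p.comp (some a) u|) volume 0 t :=
      (continuous_const.mul cG).intervalIntegrable _ _
    have i2 : IntervalIntegrable (fun u => |deriv P u|) volume 0 t :=
      (continuous_deriv_pW hm hj p.shape).abs.intervalIntegrable _ _
    rw [← intervalIntegral.integral_add i1 i2]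
    refine intervalIntegral.integral_mono_on ht (cdev.abs.intervalIntegrable _ _)
      (((continuous_const.mul cG).add (continuous_deriv_pW hm hj p.shape).abs).intervalIntegrable _ _)
      fun u _ => (abs_sub _ _).trans ?_
    linarith [hq.near u, h.lamDev_le_sum j u]
  set Z := (t + (p.N0 : ℝ) ^ 8) ^ (1 / 8 : ℝ)
  have hZ : 1 ≤ Z := Real.one_le_rpow (by linarith [p.N0_le_pow, p.one_le_N0]) (by norm_num)
  have h3 : (∫ u in (0 : ℝ)..t, 16 * J * ∑ a, |p.comp (some a) u|) ≤
      192 * J * p.levelSum * p.durSum * Z := by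
    rw [intervalIntegral.integral_const_mul, intervalIntegral.integral_finsetSum fun a _ =>
      ((p.contDiff_comp _).continuous.abs.intervalIntegrable _ _)]
    have : ∑ a, (∫ u in (0 : ℝ)..t, |p.comp (some a) u|) ≤
        6 * (2 * p.levelSum * p.durSum * Z) := by
      refine (Finset.sum_le_sum fun a _ => integral_gamma_le a ht).trans (le_of_eq ?_)
      simp [Finset.sum_const, Z]
    calc 16 * J * ∑ a, (∫ u in (0 : ℝ)..t, |p.comp (some a) u|)
        ≤ 16 * J * (6 * (2 * p.levelSum * p.durSum * Z)) := by gcongr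
      _ = _ := by ring
  have h4 := h.integral_abs_deriv_pW hm hj ht
  have hr : 0 ≤ speed j := by unfold speed; positivity
  have h5 : 0 ≤ (3 * (stepBound + 2) + speed j) * (Z - 1) :=
    mul_nonneg (by linarith [one_le_stepBound]) (by linarith)
  have hI : 0 ≤ ∫ u in (0 : ℝ)..t, |(lam u - lamW p.shape j m u) - deriv P u| :=
    intervalIntegral.integral_nonneg ht fun u _ => abs_nonneg _
  calc (∫ u in (0 : ℝ)..t, |q u - P u|)
      ≤ (∫ u in (0 : ℝ)..t, |(lam u - lamW p.shape j m u) - deriv P u|) / (3 / 2) := h1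
    _ ≤ ∫ u in (0 : ℝ)..t, |(lam u - lamW p.shape j m u) - deriv P u| := by
        rw [div_le_iff₀ (by norm_num)]; linarith
    _ ≤ allow p (p.expC j) t := by
        unfold allow expC
        linarith [show (3 * (stepBound + 2) + speed j) * (Z - 1) =
          (3 * (stepBound + 2) + speed j) * Z - (3 * (stepBound + 2) + speed j) by ring,
          show speed j * (1 + 4 * p.K * p.durSum * Z) =
            speed j + 4 * speed j * p.K * p.durSum * Z by ring]

/-- The log scale of the solution stays within `allow` of `expo`. -/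
theorem Ok.expo_close (h : p.Ok) {j m : ℕ} (hm : m ≤ j) (hj : 0 < j) {lam q : ℝ → ℝ}
    (hq : NearBlock p j m lam q) {t : ℝ} (ht : 0 ≤ t) :
    |(∫ u in (0 : ℝ)..t, q u) - expo p.shape j m t| ≤ allow p (p.expC j) t :=
  (abs_integral_sub_le hq.ric.continuous (continuous_pW _ j m) ht).trans
    (h.integral_dist_le hm hj hq ht)

/-- The barriers of a weight block. -/
theorem Ok.exists_barriers (h : p.Ok) {j m : ℕ} (hm : m ≤ j) (hj : 0 < j) :
    ∃ qlo qhi : ℝ → ℝ,
      IsRic p.shape.drift (fun t => lamW p.shape j m t - lamDev p.shape j t) qlo ∧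
      IsRic p.shape.drift (fun t => lamW p.shape j m t + lamDev p.shape j t) qhi ∧
      (∀ t ≤ 0, qlo t = j ∧ qhi t = j) ∧ (∀ t, 0 ≤ qlo t ∧ 0 ≤ qhi t) ∧
      ∀ t, 0 ≤ t → |(∫ u in (0 : ℝ)..t, qlo u) - expo p.shape j m t| ≤ allow p (p.expC j) t ∧
        |(∫ u in (0 : ℝ)..t, qhi u) - expo p.shape j m t| ≤ allow p (p.expC j) t := by
  obtain ⟨ql, hl, hl0, hlb⟩ := h.exists_nearBlock hm
    ((continuous_lamW p.shape j m).sub (continuous_lamDev p.shape j))
    (fun t => by simp [abs_of_nonneg (lamDev_nonneg p.shape j t)])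
  obtain ⟨qh, hh, hh0, hhb⟩ := h.exists_nearBlock hm
    ((continuous_lamW p.shape j m).add (continuous_lamDev p.shape j))
    (fun t => by simp [abs_of_nonneg (lamDev_nonneg p.shape j t)])
  exact ⟨ql, qh, hl.ric, hh.ric, fun t ht => ⟨hl0 t ht, hh0 t ht⟩,
    fun t => ⟨(root_nonneg (by positivity)).trans (hlb t).1,
      (root_nonneg (by positivity)).trans (hhb t).1⟩,
    fun t ht => ⟨h.expo_close hm hj hl ht, h.expo_close hm hj hh ht⟩⟩

theorem Ok.rate_antitone (h : p.Ok) {a t : ℝ} (ha : 1 ≤ a) (hat : a ≤ t) :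
    p.rate t ≤ p.rate a := by
  rw [rate_eq ha, rate_eq (ha.trans hat)]
  refine add_le_add (mul_le_mul_of_nonneg_left (exp_le_exp.2 (by linarith)) h.A_pos.le)
    (mul_le_mul_of_nonneg_left ?_ (by linarith [p.one_le_C]))
  exact rpow_le_rpow_of_nonpos (by linarith [p.N0_le_pow, p.one_le_N0]) (by linarith) (by norm_num)

/-- After a stretch with small `β'` and no left squash the solution is close to the root. -/
theorem Ok.dist_root_le (h : p.Ok) {j m : ℕ} (hm : m ≤ j) (hj : 0 < j) {lam q : ℝ → ℝ}
    (hq : NearBlock p j m lam q) {a b t B : ℝ} (ha : 1 ≤ a) (ht : t ∈ Icc a b)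
    (hlam : ∀ u ∈ Icc a b, lam u = lamW p.shape j m u) (hB0 : 0 ≤ B)
    (hB : ∀ u ∈ Icc a b, |deriv (p.comp none) u| ≤ B) :
    |q t - pW p.shape j m t| ≤ |q a - pW p.shape j m a| * Real.exp (-(3 / 2) * (t - a)) +
      ((3 + speed j) * p.rate a + 2 * speed j * B) / (3 / 2) := by
  have hr : 0 ≤ speed j := by unfold speed; positivity
  have hra := h.rate_nonneg a
  refine decay_sup (e := fun u => q u - pW p.shape j m u)
    (c := fun u => q u + pW p.shape j m u + 2 + p.shape.drift u)
    (r := fun u => -deriv (pW p.shape j m) u) (b := b) (by norm_num) (by positivity)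
    (fun u hu => ((hq.ric u).sub ((hasDerivAt_pW p.shape hm hj u).1)).congr_deriv ?_)
    (fun u hu => h.nearBlock_pos hm hq (by linarith [hu.1])) (fun u hu => ?_) ht
  · have := root_eq (s := p.shape.drift u) (lamW_nonneg p.shape hm u)
    rw [hlam u hu]
    simp only [pW]
    linear_combination -this
  · rw [abs_neg]
    refine (h.abs_deriv_pW_le hm hj u).trans ?_
    have h1 := h.deriv_rate_abs (ha.trans hu.1)
    have h2 := h.rate_antitone ha hu.1
    have h3 := mul_le_mul_of_nonneg_left (add_le_add h2 (mul_le_mul_of_nonneg_left (hB u hu)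
      (by norm_num : (0 : ℝ) ≤ 2))) hr
    nlinarith

/-- `expoR` stays within `allow` of `expo`. -/
theorem Ok.expoR_close (h : p.Ok) {j m : ℕ} (hm : m ≤ j) (hj : 0 < j) {t : ℝ} (ht : 0 ≤ t) :
    |expoR p.shape j m t - expo p.shape j m t| ≤ allow p (p.expC j) t :=
  h.expo_close hm hj (h.qW_near hm) ht

/-- The regular solution and the root differ by at most `speed j`. -/
theorem Ok.abs_qW_sub_pW_le (h : p.Ok) {j m : ℕ} (hm : m ≤ j) (t : ℝ) :
    |qW p.shape j m t - pW p.shape j m t| ≤ speed j := by
  rw [abs_le]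
  constructor <;>
    linarith [h.qW_nonneg hm t, (h.qW_bounds hm t).1, (h.pW_bounds hm t).1, (h.pW_bounds hm t).2.1]

/-- On a stretch with small `β'` the regular solution approaches the root. -/
theorem Ok.qW_dist_root (h : p.Ok) {j m : ℕ} (hm : m ≤ j) (hj : 0 < j) {a t B : ℝ} (ha : 1 ≤ a)
    (hat : a ≤ t) (hB0 : 0 ≤ B) (hB : ∀ u ∈ Icc a t, |deriv (p.comp none) u| ≤ B) :
    |qW p.shape j m t - pW p.shape j m t| ≤ speed j * Real.exp (-(3 / 2) * (t - a)) +
      ((3 + speed j) * p.rate a + 2 * speed j * B) / (3 / 2) :=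
  (h.dist_root_le hm hj (h.qW_near hm) (b := t) ha ⟨hat, le_rfl⟩ (fun _ _ => rfl) hB0 hB).trans
    (add_le_add (mul_le_mul_of_nonneg_right (h.abs_qW_sub_pW_le hm a) (exp_pos _).le) le_rfl)

/-- At round times the root is the final round rate, up to the tail of `χ` and the drift. -/
theorem Ok.abs_pW_sub_rateInf (h : p.Ok) {j m : ℕ} (t : ℝ) (hb : p.comp none t = 0) :
    |pW p.shape j m t - rateInf j| ≤
      2 * speed j * (Real.log (8 / 7) - p.chi t) + 3 / 2 * p.rate t := by
  set J := (j : ℝ) * (j + 2)
  have hJ : 0 ≤ J := by positivity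
  have hl : lamW p.shape j m t = Real.exp (2 * p.chi t) * J := by
    simp [lamW, shape, hb, J]
  obtain ⟨hs1, hs2⟩ := h.drift_bounds t
  obtain ⟨e1, e2⟩ := h.exp_chi_bounds t
  obtain ⟨c1, c2⟩ := h.chi_bounds t
  have hJ' : (0 : ℝ) ≤ 64 / 49 * J := by positivity
  obtain ⟨a1, a2⟩ := root_anti hs2 (by linarith) hJ'
  have b1 := root_mono (p.shape.drift t)
    (mul_le_mul_of_nonneg_right e2 hJ : Real.exp (2 * p.chi t) * J ≤ 64 / 49 * J)
  have b2 : root (p.shape.drift t) (64 / 49 * J) - root (p.shape.drift t)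
      (Real.exp (2 * p.chi t) * J) ≤ 2 * speed j * (Real.log (8 / 7) - p.chi t) := by
    set s := p.shape.drift t
    set l := Real.exp (2 * p.chi t) * J
    set r1 := root s (64 / 49 * J)
    set r0 := root s l
    have q1 : r1 ^ 2 + (2 + s) * r1 = 64 / 49 * J := root_eq hJ'
    have q0 : r0 ^ 2 + (2 + s) * r0 = l := root_eq (mul_nonneg (exp_pos _).le hJ)
    have n1 : 0 ≤ r1 := root_nonneg hJ'
    have n0 : 0 ≤ r0 := root_nonneg (mul_nonneg (exp_pos _).le hJ)
    have hd : (64 / 49 : ℝ) * J - l ≤ 3 * (Real.log (8 / 7) - p.chi t) * J := by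
      have hm' : Real.exp (2 * Real.log (8 / 7)) *
          (1 + 2 * (p.chi t - Real.log (8 / 7))) ≤ Real.exp (2 * p.chi t) := by
        calc _ ≤ Real.exp (2 * Real.log (8 / 7)) *
              Real.exp (2 * (p.chi t - Real.log (8 / 7))) :=
            mul_le_mul_of_nonneg_left
              (by linarith [add_one_le_exp (2 * (p.chi t - Real.log (8 / 7)))]) (exp_pos _).le
          _ = _ := by rw [← Real.exp_add]; ring_nf
      rw [exp_two_L] at hm'
      have := mul_le_mul_of_nonneg_right hm' hJ
      nlinarith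
    have hfac : (r1 - r0) * (r1 + r0 + 2 + s) = 64 / 49 * J - l := by
      rw [← q1, ← q0]; ring
    rcases Nat.eq_zero_or_pos j with h0 | h0
    · have : J = 0 := by simp [J, h0]
      have h10 : r1 ≤ r0 := by
        simp only [r1, r0, l, this, mul_zero, le_refl]
      have : 0 ≤ 2 * speed j * (Real.log (8 / 7) - p.chi t) :=
        mul_nonneg (by unfold speed; positivity) (by linarith)
      linarith
    · have hj1 : (1 : ℝ) ≤ j := by exact_mod_cast h0
      have hsum : (j : ℝ) + 1 ≤ r1 + r0 + 2 + s := by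
        have hl0 : J ≤ l := le_mul_of_one_le_left hJ e1
        have hr0 : (j : ℝ) ≤ r0 :=
          calc (j : ℝ) = root 0 J := (root_round j).symm
            _ ≤ root s J := (root_anti hs2 (by linarith) hJ).1
            _ ≤ r0 := root_mono s hl0
        linarith
      have h3 : (r1 - r0) * ((j : ℝ) + 1) ≤ 3 * (Real.log (8 / 7) - p.chi t) * J := by
        have : 0 ≤ r1 - r0 := by linarith [b1]
        nlinarith
      unfold speed
      have hJj : J ≤ ((j : ℝ) + 1) * (j + 1) := by simp only [J]; nlinarith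
      have h4 : 0 ≤ Real.log (8 / 7) - p.chi t := by linarith
      nlinarith [mul_le_mul_of_nonneg_left hJj h4]
  have hr := h.rate_nonneg t
  have hch : 0 ≤ 2 * speed j * (Real.log (8 / 7) - p.chi t) :=
    mul_nonneg (by unfold speed; positivity) (by linarith)
  unfold pW rateInf
  rw [hl, p.shape_drift] at *
  rw [abs_le]
  constructor <;> linarith

end Params

end

end Vale.Agent.P225.Sched
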