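import Vale.Agent.P225.Core

/-!
P225 Sched: the schedule of the counterexample (definitions).

Period `i` has size `n = i + N₀`. It runs through a fixed list of steps and then stays round for
time `n ^ 7`:

* `round c`: round, time `c n ^ 6 + 1`;
* `gap c`: round, time `c n + 1`;
* `cross z c`: right squash `z`; switch on in time `n ^ 6`, keep for `c n ^ 6`, switch off;
* `micro a z c`: left squash `z / n ^ 3` on axis `a`, a fixed bump of `(t - t₀) / n ^ 3`;
* `slot`: round, time `1`, where pulses may be put.

Every squash is supported strictly inside its step. The logarithm of the inverse radius `χ` rises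
to `log (8 / 7)` and has derivative at least `C (t + N₀ ^ 8) ^ (-3/2)` from time one on.
-/

namespace Vale.Agent.P225.Sched

open scoped Topology ContDiff

noncomputable section

/-- One step of a period. -/
inductive Step
  | round (c : ℝ)
  | gap (c : ℝ)
  | cross (z c : ℝ)
  | micro (a : Fin 6) (z c : ℝ)
  | slot
  | stay

namespace Step

/-- The squashed axis: `none` is the right one. -/
def axis : Step → Option (Fin 6)
  | micro a _ _ => some a
  | _ => none

/-- The coefficient of the level. -/
def level : Step → ℝ
  | cross z _ => z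
  | micro _ z _ => z
  | _ => 0

/-- The level at size `n`. -/
def amp : Step → ℝ → ℝ
  | cross z _, _ => z
  | micro _ z _, n => z / n ^ 3
  | _, _ => 0

/-- The switching time at size `n`. -/
def width : Step → ℝ → ℝ
  | cross _ _, n => n ^ 6
  | micro _ _ _, n => n ^ 3
  | _, _ => 1

/-- The duration at size `n`. -/
def dur : Step → ℝ → ℝ
  | round c, n => max c 0 * n ^ 6 + 1
  | gap c, n => max c 0 * n + 1
  | cross _ c, n => (2 + max c 0) * n ^ 6
  | micro _ _ c, n => (2 + max c 0) * n ^ 3
  | slot, _ => 1
  | stay, n => n ^ 7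

/-- A bound for `dur / n ^ 7`. -/
def durCoef : Step → ℝ
  | round c => max c 0 + 1
  | gap c => max c 0 + 1
  | cross _ c => max c 0 + 2
  | micro _ _ c => max c 0 + 2
  | slot => 1
  | stay => 1

/-- Whether pulses may be put on this step. -/
def isSlot : Step → Bool
  | slot => true
  | _ => false

/-- Right squashes stay between the two crossing shapes. -/
def Valid : Step → Prop
  | cross z _ => -(1 / 40 : ℝ) ≤ z ∧ z ≤ 9 / 250
  | _ => True

end Step

/-- A function equal to `1` in the middle of `[s, s + d]`, switching in time `w / 2`. -/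
def bump (s w d : ℝ) (t : ℝ) : ℝ :=
  Real.smoothTransition (2 * (t - s) / w - 1) * Real.smoothTransition (2 * (s + d - t) / w - 1)

/-- A bound for the first two derivatives of the transition function. -/
def stepBound : ℝ :=
  1 + (⨆ x, |deriv Real.smoothTransition x|) + ⨆ x, |deriv (deriv Real.smoothTransition) x|

/-- Parameters of the schedule. -/
structure Params where
  /-- The steps of a period, without the final stay. -/
  steps : List Step
  /-- The first size, less one. -/
  N : ℕ

namespace Params

variable (p : Params)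

/-- The first size `N₀`. -/
def N0 : ℕ := p.N + 1

/-- The steps of a period. -/
def list : List Step := p.steps ++ [Step.stay]

/-- Their number. -/
def len : ℕ := p.list.length

/-- The `m`-th step of all. -/
def step (m : ℕ) : Step := p.list.getD (m % p.len) Step.stay

/-- The size at the `m`-th step. -/
def size (m : ℕ) : ℝ := ((m / p.len + p.N0 : ℕ) : ℝ)

/-- The duration of the `m`-th step. -/
def dur (m : ℕ) : ℝ := (p.step m).dur (p.size m)

/-- The start time of the `m`-th step. -/
def time : ℕ → ℝ
  | 0 => p.N0
  | m + 1 => time m + p.dur m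

/-- The start time of the `k`-th step of period `i`. -/
def start (i k : ℕ) : ℝ := p.time (i * p.len + k)

/-- The squash during the `m`-th step. -/
def piece (m : ℕ) (t : ℝ) : ℝ :=
  (p.step m).amp (p.size m) * bump (p.time m) ((p.step m).width (p.size m)) (p.dur m) t

/-- The squash along the axis `o`. -/
def comp (o : Option (Fin 6)) (t : ℝ) : ℝ :=
  ∑' m, if (p.step m).axis = o then p.piece m t else 0

/-- Total duration coefficient. -/
def durSum : ℝ := (p.list.map Step.durCoef).sum

/-- Total level. -/
def levelSum : ℝ := (p.list.map fun s => |s.level|).sum + 1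

/-- The bound for `n ^ 6` times the first two derivatives of the squashes. -/
def K : ℝ := 32 * stepBound ^ 2 * p.levelSum

/-- The coefficient of the tail of `χ'`. -/
def C : ℝ := 48 * p.K ^ 2 * (p.durSum + 3) ^ 2 + 1

/-- The tail `(t + N₀ ^ 8) ^ (-3/2)`. -/
def tail (t : ℝ) : ℝ := (t + (p.N0 : ℝ) ^ 8) ^ (-(3 / 2) : ℝ)

/-- The tail, made to start smoothly. -/
def tailPart (t : ℝ) : ℝ := Real.smoothTransition t * p.tail t

/-- The initial rise, made to start smoothly. -/
def risePart (t : ℝ) : ℝ := Real.smoothTransition t * Real.exp (-t / 4)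

/-- The integral of `risePart`. -/
def riseTotal : ℝ := (∫ t in (0 : ℝ)..1, risePart t) + 4 * Real.exp (-(1 / 4))

/-- The integral of `tailPart`. -/
def tailTotal : ℝ :=
  (∫ t in (0 : ℝ)..1, p.tailPart t) + 2 * (1 + (p.N0 : ℝ) ^ 8) ^ (-(1 / 2) : ℝ)

/-- The coefficient of the rise. -/
def A : ℝ := (Real.log (8 / 7) - p.C * p.tailTotal) / riseTotal

/-- `χ'`. -/
def rate (t : ℝ) : ℝ := p.A * risePart t + p.C * p.tailPart t

/-- Minus the logarithm of the radius. -/
def chi (t : ℝ) : ℝ := ∫ s in (0 : ℝ)..t, p.rate s

/-- The conditions on the parameters. -/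
structure Ok : Prop where
  valid : ∀ s ∈ p.steps, s.Valid
  big : 1000000 * (p.C + p.K + p.levelSum + p.durSum + 1) ≤ (p.N0 : ℝ)

/-- The indices of the slots in a period. -/
def slotList : List ℕ :=
  (List.range p.len).filter fun k => (p.list.getD k Step.stay).isSlot

/-- The times of the slots. -/
def slotPos (m : ℕ) : ℝ :=
  p.start (m / p.slotList.length) (p.slotList.getD (m % p.slotList.length) 0)

end Params

/-- The radial Ricci term of `dt² + e^{2α} σ₁² + e^{2β} (σ₂² + σ₃²)`, cone over it, times `r²`. -/
def ric0 (la lb : ℝ → ℝ) (t : ℝ) : ℝ :=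
  -(deriv (deriv la) t + deriv la t + deriv la t ^ 2) -
    2 * (deriv (deriv lb) t + deriv lb t + deriv lb t ^ 2)

/-- The Ricci term along the axis. -/
def ric1 (la lb : ℝ → ℝ) (t : ℝ) : ℝ :=
  -(deriv (deriv la) t + deriv la t + deriv la t ^ 2) -
    2 * (1 + deriv la t) * (1 + deriv lb t) + 2 * Real.exp (2 * la t - 4 * lb t)

/-- The Ricci term across the axis. -/
def ric2 (la lb : ℝ → ℝ) (t : ℝ) : ℝ :=
  -(deriv (deriv lb) t + deriv lb t + deriv lb t ^ 2) -
    (1 + deriv la t) * (1 + deriv lb t) - (1 + deriv lb t) ^ 2 +
      (4 * Real.exp (-2 * lb t) - 2 * Real.exp (2 * la t - 4 * lb t))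

end

end Vale.Agent.P225.Sched
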