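import Vale.Agent.P225.Sched.Defs

/-!
P225 Sched: elementary facts on the transition function and on `bump`.
-/

namespace Vale.Agent.P225.Sched

open scoped Topology ContDiff
open Real Filter

noncomputable section

theorem contDiff_sigma : ContDiff ℝ ∞ Real.smoothTransition := smoothTransition.contDiff

theorem contDiff_deriv_sigma : ContDiff ℝ ∞ (deriv Real.smoothTransition) :=
  (contDiff_infty_iff_deriv.1 contDiff_sigma).2

theorem hasDerivAt_sigma (x : ℝ) : HasDerivAt Real.smoothTransition (deriv Real.smoothTransition x) x :=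
  ((contDiff_infty_iff_deriv.1 contDiff_sigma).1 x).hasDerivAt

theorem hasDerivAt_deriv_sigma (x : ℝ) : HasDerivAt (deriv Real.smoothTransition) (deriv (deriv Real.smoothTransition) x) x :=
  ((contDiff_infty_iff_deriv.1 contDiff_deriv_sigma).1 x).hasDerivAt

theorem sigma_eventually_zero {x : ℝ} (h : x < 0) : Real.smoothTransition =ᶠ[𝓝 x] fun _ => 0 := by
  filter_upwards [Iio_mem_nhds h] with y hy
  exact smoothTransition.zero_of_nonpos (le_of_lt hy)

theorem sigma_eventually_one {x : ℝ} (h : 1 < x) : Real.smoothTransition =ᶠ[𝓝 x] fun _ => 1 := by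
  filter_upwards [Ioi_mem_nhds h] with y hy
  exact smoothTransition.one_of_one_le (le_of_lt hy)

theorem deriv_sigma_eventually_zero {x : ℝ} (h : x < 0 ∨ 1 < x) :
    deriv Real.smoothTransition =ᶠ[𝓝 x] fun _ => 0 := by
  rcases h with h | h
  · exact (sigma_eventually_zero h).deriv.trans (Eventually.of_forall fun y => by simp)
  · exact (sigma_eventually_one h).deriv.trans (Eventually.of_forall fun y => by simp)

theorem bddAbove_abs_deriv_sigma : BddAbove (Set.range fun x => |deriv Real.smoothTransition x|) := by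
  obtain ⟨B, hB⟩ := isCompact_Icc.exists_bound_of_continuousOn
    (s := Set.Icc (0 : ℝ) 1) contDiff_deriv_sigma.continuous.continuousOn
  refine ⟨max B 0, ?_⟩
  rintro _ ⟨x, rfl⟩
  by_cases hx : x ∈ Set.Icc (0 : ℝ) 1
  · exact le_max_of_le_left (by simpa using hB x hx)
  · have h : x < 0 ∨ 1 < x := by
      simp only [Set.mem_Icc, not_and_or, not_le] at hx
      exact hx
    simp [(deriv_sigma_eventually_zero h).eq_of_nhds]

theorem bddAbove_abs_deriv2_sigma : BddAbove (Set.range fun x => |deriv (deriv Real.smoothTransition) x|) := by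
  obtain ⟨B, hB⟩ := isCompact_Icc.exists_bound_of_continuousOn
    (s := Set.Icc (0 : ℝ) 1)
    (contDiff_infty_iff_deriv.1 contDiff_deriv_sigma).2.continuous.continuousOn
  refine ⟨max B 0, ?_⟩
  rintro _ ⟨x, rfl⟩
  by_cases hx : x ∈ Set.Icc (0 : ℝ) 1
  · exact le_max_of_le_left (by simpa using hB x hx)
  · have h : x < 0 ∨ 1 < x := by
      simp only [Set.mem_Icc, not_and_or, not_le] at hx
      exact hx
    simp [((deriv_sigma_eventually_zero h).deriv).eq_of_nhds]

theorem abs_deriv_sigma_le (x : ℝ) : |deriv Real.smoothTransition x| ≤ stepBound := by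
  have h1 := le_ciSup bddAbove_abs_deriv_sigma x
  have h2 : 0 ≤ ⨆ x, |deriv (deriv Real.smoothTransition) x| :=
    (abs_nonneg _).trans (le_ciSup bddAbove_abs_deriv2_sigma 0)
  unfold stepBound
  linarith

theorem abs_deriv2_sigma_le (x : ℝ) : |deriv (deriv Real.smoothTransition) x| ≤ stepBound := by
  have h1 := le_ciSup bddAbove_abs_deriv2_sigma x
  have h2 : 0 ≤ ⨆ x, |deriv Real.smoothTransition x| :=
    (abs_nonneg _).trans (le_ciSup bddAbove_abs_deriv_sigma 0)
  unfold stepBound
  linarith

theorem one_le_stepBound : 1 ≤ stepBound := by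
  have h2 : 0 ≤ ⨆ x, |deriv Real.smoothTransition x| :=
    (abs_nonneg _).trans (le_ciSup bddAbove_abs_deriv_sigma 0)
  have h3 : 0 ≤ ⨆ x, |deriv (deriv Real.smoothTransition) x| :=
    (abs_nonneg _).trans (le_ciSup bddAbove_abs_deriv2_sigma 0)
  unfold stepBound
  linarith

variable (s w d : ℝ)

theorem contDiff_bump : ContDiff ℝ ∞ (bump s w d) := by
  unfold bump
  fun_prop

theorem bump_nonneg (t : ℝ) : 0 ≤ bump s w d t :=
  mul_nonneg (smoothTransition.nonneg _) (smoothTransition.nonneg _)

theorem bump_le_one (t : ℝ) : bump s w d t ≤ 1 :=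
  mul_le_one₀ (smoothTransition.le_one _) (smoothTransition.nonneg _) (smoothTransition.le_one _)

theorem bump_eq_zero_left {t : ℝ} (hw : 0 < w) (ht : t ≤ s + w / 2) : bump s w d t = 0 := by
  have : 2 * (t - s) / w - 1 ≤ 0 := by
    rw [sub_nonpos, div_le_one hw]; linarith
  simp [bump, smoothTransition.zero_of_nonpos this]

theorem bump_eq_zero_right {t : ℝ} (hw : 0 < w) (ht : s + d - w / 2 ≤ t) :
    bump s w d t = 0 := by
  have : 2 * (s + d - t) / w - 1 ≤ 0 := by
    rw [sub_nonpos, div_le_one hw]; linarith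
  simp [bump, smoothTransition.zero_of_nonpos this]

theorem bump_eq_one {t : ℝ} (hw : 0 < w) (h1 : s + w ≤ t) (h2 : t ≤ s + d - w) :
    bump s w d t = 1 := by
  have a : 1 ≤ 2 * (t - s) / w - 1 := by
    rw [le_sub_iff_add_le, le_div_iff₀ hw]; linarith
  have b : 1 ≤ 2 * (s + d - t) / w - 1 := by
    rw [le_sub_iff_add_le, le_div_iff₀ hw]; linarith
  simp [bump, smoothTransition.one_of_one_le a, smoothTransition.one_of_one_le b]

theorem hasDerivAt_bump (t : ℝ) : HasDerivAt (bump s w d)
    (2 / w * (deriv Real.smoothTransition (2 * (t - s) / w - 1) * Real.smoothTransition (2 * (s + d - t) / w - 1) -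
      Real.smoothTransition (2 * (t - s) / w - 1) * deriv Real.smoothTransition (2 * (s + d - t) / w - 1))) t := by
  have ha : HasDerivAt (fun t => 2 * (t - s) / w - 1) (2 / w) t := by
    simpa using ((((hasDerivAt_id t).sub_const s).const_mul 2).div_const w).sub_const 1
  have hb : HasDerivAt (fun t => 2 * (s + d - t) / w - 1) (-(2 / w)) t := by
    have := ((((hasDerivAt_id t).const_sub (s + d)).const_mul 2).div_const w).sub_const 1
    simpa [neg_div] using this
  have h := ((hasDerivAt_sigma _).comp t ha).mul ((hasDerivAt_sigma _).comp t hb)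
  simp only [Function.comp_def] at h
  refine (h.congr_deriv ?_)
  ring

theorem abs_deriv_bump_le (t : ℝ) (hw : 0 < w) :
    |deriv (bump s w d) t| ≤ 4 * stepBound / w := by
  rw [(hasDerivAt_bump s w d t).deriv, abs_mul, abs_of_pos (by positivity : 0 < 2 / w)]
  set a := 2 * (t - s) / w - 1
  set b := 2 * (s + d - t) / w - 1
  have h1 : |deriv Real.smoothTransition a * Real.smoothTransition b| ≤ stepBound := by
    rw [abs_mul, abs_of_nonneg (smoothTransition.nonneg b)]
    nlinarith [abs_deriv_sigma_le a, smoothTransition.nonneg b, smoothTransition.le_one b,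
      abs_nonneg (deriv Real.smoothTransition a)]
  have h2 : |Real.smoothTransition a * deriv Real.smoothTransition b| ≤ stepBound := by
    rw [abs_mul, abs_of_nonneg (smoothTransition.nonneg a)]
    nlinarith [abs_deriv_sigma_le b, smoothTransition.nonneg a, smoothTransition.le_one a,
      abs_nonneg (deriv Real.smoothTransition b)]
  calc 2 / w * |deriv Real.smoothTransition a * Real.smoothTransition b - Real.smoothTransition a * deriv Real.smoothTransition b|
      ≤ 2 / w * (stepBound + stepBound) := by
        gcongr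
        exact (abs_sub _ _).trans (add_le_add h1 h2)
    _ = 4 * stepBound / w := by ring

theorem abs_deriv2_bump_le (t : ℝ) (hw : 0 < w) :
    |deriv (deriv (bump s w d)) t| ≤ 16 * stepBound ^ 2 / w ^ 2 := by
  have hfun : deriv (bump s w d) = fun t =>
      2 / w * (deriv Real.smoothTransition (2 * (t - s) / w - 1) * Real.smoothTransition (2 * (s + d - t) / w - 1) -
        Real.smoothTransition (2 * (t - s) / w - 1) * deriv Real.smoothTransition (2 * (s + d - t) / w - 1)) :=
    funext fun t => (hasDerivAt_bump s w d t).deriv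
  have ha : HasDerivAt (fun t => 2 * (t - s) / w - 1) (2 / w) t := by
    simpa using ((((hasDerivAt_id t).sub_const s).const_mul 2).div_const w).sub_const 1
  have hb : HasDerivAt (fun t => 2 * (s + d - t) / w - 1) (-(2 / w)) t := by
    have := ((((hasDerivAt_id t).const_sub (s + d)).const_mul 2).div_const w).sub_const 1
    simpa [neg_div] using this
  set a := 2 * (t - s) / w - 1 with a_def
  set b := 2 * (s + d - t) / w - 1 with b_def
  have h := (((hasDerivAt_deriv_sigma a).comp t ha).mul ((hasDerivAt_sigma b).comp t hb)).sub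
    (((hasDerivAt_sigma a).comp t ha).mul ((hasDerivAt_deriv_sigma b).comp t hb))
  simp only [Function.comp_def] at h
  have h' := h.const_mul (2 / w)
  rw [hfun]
  erw [h'.deriv]
  rw [show ∀ A B : ℝ, A * (2 / w) * Real.smoothTransition b + B = A * Real.smoothTransition b * (2 / w) + B from fun A B => by ring]
  have hB := one_le_stepBound
  have e : ∀ x : ℝ, |Real.smoothTransition x| ≤ 1 := fun x => by
    rw [abs_of_nonneg (smoothTransition.nonneg x)]; exact smoothTransition.le_one x
  have p1 : |deriv (deriv Real.smoothTransition) a * Real.smoothTransition b| ≤ stepBound * stepBound := by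
    rw [abs_mul]
    exact mul_le_mul (abs_deriv2_sigma_le a) ((e b).trans hB) (abs_nonneg _) (by linarith)
  have p2 : |deriv Real.smoothTransition a * deriv Real.smoothTransition b| ≤ stepBound * stepBound := by
    rw [abs_mul]
    exact mul_le_mul (abs_deriv_sigma_le a) (abs_deriv_sigma_le b) (abs_nonneg _) (by linarith)
  have p3 : |Real.smoothTransition a * deriv (deriv Real.smoothTransition) b| ≤ stepBound * stepBound := by
    rw [abs_mul]
    exact mul_le_mul ((e a).trans hB) (abs_deriv2_sigma_le b) (abs_nonneg _) (by linarith)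
  rw [abs_le] at p1 p2 p3
  rw [abs_le]
  have hw2 : 0 ≤ (2 / w) ^ 2 := by positivity
  have e2 : 16 * stepBound ^ 2 / w ^ 2 = (2 / w) ^ 2 * (4 * stepBound ^ 2) := by ring
  rw [e2]
  constructor
  · nlinarith [mul_le_mul_of_nonneg_left p1.1 hw2, mul_le_mul_of_nonneg_left p1.2 hw2,
      mul_le_mul_of_nonneg_left p2.1 hw2, mul_le_mul_of_nonneg_left p2.2 hw2,
      mul_le_mul_of_nonneg_left p3.1 hw2, mul_le_mul_of_nonneg_left p3.2 hw2]
  · nlinarith [mul_le_mul_of_nonneg_left p1.1 hw2, mul_le_mul_of_nonneg_left p1.2 hw2,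
      mul_le_mul_of_nonneg_left p2.1 hw2, mul_le_mul_of_nonneg_left p2.2 hw2,
      mul_le_mul_of_nonneg_left p3.1 hw2, mul_le_mul_of_nonneg_left p3.2 hw2]

end

end Vale.Agent.P225.Sched
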