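import Vale.Agent.P225.Sched.Bump
import Vale.Agent.P225.Sched.Timeline

/-!
P225 Sched: properties of `χ` and of its derivative `rate`.
-/

namespace Vale.Agent.P225.Sched

open scoped Topology ContDiff
open Real Filter Set MeasureTheory

noncomputable section

theorem deriv_sigma_nonneg (x : ℝ) : 0 ≤ deriv Real.smoothTransition x := smoothTransition.monotone.deriv_nonneg

theorem deriv_sigma_of_one_le {x : ℝ} (h : 1 ≤ x) : deriv Real.smoothTransition x = 0 := by
  refine IsLocalMax.deriv_eq_zero (Eventually.of_forall fun y => ?_)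
  rw [smoothTransition.one_of_one_le h]
  exact smoothTransition.le_one y

theorem deriv_sigma_of_nonpos {x : ℝ} (h : x ≤ 0) : deriv Real.smoothTransition x = 0 := by
  refine IsLocalMin.deriv_eq_zero (Eventually.of_forall fun y => ?_)
  rw [smoothTransition.zero_of_nonpos h]
  exact smoothTransition.nonneg y

theorem contDiff_risePart : ContDiff ℝ ∞ Params.risePart := by
  have h : Params.risePart = fun t => Real.smoothTransition t * Real.exp (-t / 4) := rfl
  rw [h]
  exact smoothTransition.contDiff.mul (contDiff_exp.comp (contDiff_neg.div_const 4))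

theorem riseTotal_ge : 3 ≤ Params.riseTotal := by
  have h0 : 0 ≤ ∫ t in (0 : ℝ)..1, Params.risePart t :=
    intervalIntegral.integral_nonneg (by norm_num) fun t _ =>
      mul_nonneg (smoothTransition.nonneg t) (exp_pos _).le
  have h1 := add_one_le_exp (-(1 / 4) : ℝ)
  unfold Params.riseTotal
  linarith

theorem riseTotal_le : Params.riseTotal ≤ 5 := by
  have h0 : (∫ t in (0 : ℝ)..1, Params.risePart t) ≤ ∫ _t in (0 : ℝ)..1, (1 : ℝ) := by
    refine intervalIntegral.integral_mono_on (by norm_num)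
      (contDiff_risePart.continuous.intervalIntegrable _ _) intervalIntegrable_const fun t ht => ?_
    calc Params.risePart t ≤ 1 * 1 := by
          refine mul_le_mul (smoothTransition.le_one t) ?_ (exp_pos _).le zero_le_one
          exact exp_le_one_iff.2 (by linarith [ht.1])
      _ = 1 := one_mul 1
  have h1 : Real.exp (-(1 / 4)) ≤ 1 := exp_le_one_iff.2 (by norm_num)
  simp only [intervalIntegral.integral_const, smul_eq_mul] at h0
  unfold Params.riseTotal
  linarith

namespace Params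

variable (p : Params)

theorem N0_le_pow : (p.N0 : ℝ) ≤ (p.N0 : ℝ) ^ 8 := le_self_pow₀ p.one_le_N0 (by norm_num)

theorem one_le_levelSum : 1 ≤ p.levelSum := by
  have : 0 ≤ (p.list.map fun s => |s.level|).sum := by
    refine List.sum_nonneg fun x hx => ?_
    obtain ⟨s, _, rfl⟩ := List.mem_map.1 hx
    exact abs_nonneg _
  unfold levelSum
  linarith

theorem one_le_durCoef (s : Step) : 1 ≤ s.durCoef := by
  cases s with
  | round c => simp [Step.durCoef]
  | gap c => simp [Step.durCoef]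
  | cross z c => simp only [Step.durCoef]; linarith [le_max_right c 0]
  | micro a z c => simp only [Step.durCoef]; linarith [le_max_right c 0]
  | slot => simp [Step.durCoef]
  | stay => simp [Step.durCoef]

theorem durSum_nonneg : 0 ≤ p.durSum := by
  refine List.sum_nonneg fun x hx => ?_
  obtain ⟨s, _, rfl⟩ := List.mem_map.1 hx
  linarith [one_le_durCoef s]

theorem K_pos : 0 < p.K := by
  have := p.one_le_levelSum
  have := one_le_stepBound
  unfold K
  positivity

theorem one_le_C : 1 ≤ p.C := by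
  have := p.K_pos
  have := p.durSum_nonneg
  unfold C
  nlinarith [sq_nonneg (p.K * (p.durSum + 3))]

theorem tail_pos {t : ℝ} (ht : 0 ≤ t) : 0 < p.tail t :=
  rpow_pos_of_pos (by linarith [p.N0_le_pow, p.one_le_N0]) _

theorem tail_le {t : ℝ} (ht : 0 ≤ t) : p.tail t ≤ 1 / p.N0 := by
  have hN := p.one_le_N0
  have h1 : (p.N0 : ℝ) ≤ t + (p.N0 : ℝ) ^ 8 := by linarith [p.N0_le_pow]
  have h2 : (1 : ℝ) ≤ t + (p.N0 : ℝ) ^ 8 := by linarith
  calc p.tail t ≤ (t + (p.N0 : ℝ) ^ 8) ^ (-1 : ℝ) :=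
        rpow_le_rpow_of_exponent_le h2 (by norm_num)
    _ = (t + (p.N0 : ℝ) ^ 8)⁻¹ := by rw [rpow_neg_one]
    _ ≤ 1 / p.N0 := by
        rw [one_div]
        exact inv_anti₀ (by linarith) h1

theorem contDiff_tailPart : ContDiff ℝ ∞ p.tailPart := by
  refine contDiff_iff_contDiffAt.2 fun t => ?_
  by_cases ht : t < 0
  · refine (contDiffAt_const (c := (0 : ℝ))).congr_of_eventuallyEq ?_
    filter_upwards [sigma_eventually_zero ht] with y hy
    simp [tailPart, hy]
  · have h : t + (p.N0 : ℝ) ^ 8 ≠ 0 := by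
      have := p.N0_le_pow
      have := p.one_le_N0
      linarith [not_lt.1 ht]
    exact smoothTransition.contDiff.contDiffAt.mul
      ((contDiffAt_id.add contDiffAt_const).rpow_const_of_ne h)

theorem contDiff_rate : ContDiff ℝ ∞ p.rate :=
  (contDiff_const.mul contDiff_risePart).add (contDiff_const.mul p.contDiff_tailPart)

theorem hasDerivAt_chi (t : ℝ) : HasDerivAt p.chi (p.rate t) t :=
  (p.contDiff_rate.continuous.integral_hasStrictDerivAt 0 t).hasDerivAt

theorem deriv_chi : deriv p.chi = p.rate := funext fun t => (p.hasDerivAt_chi t).deriv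

theorem contDiff_chi : ContDiff ℝ ∞ p.chi := by
  rw [contDiff_infty_iff_deriv]
  exact ⟨fun t => (p.hasDerivAt_chi t).differentiableAt, p.deriv_chi.symm ▸ p.contDiff_rate⟩

theorem rate_of_nonpos {t : ℝ} (ht : t ≤ 0) : p.rate t = 0 := by
  simp [rate, risePart, tailPart, smoothTransition.zero_of_nonpos ht]

theorem chi_of_nonpos {t : ℝ} (ht : t ≤ 0) : p.chi t = 0 := by
  unfold chi
  rw [intervalIntegral.integral_symm, intervalIntegral.integral_congr (g := fun _ => (0 : ℝ))]
  · simp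
  · intro s hs
    rw [uIcc_of_le ht] at hs
    exact p.rate_of_nonpos hs.2

theorem tailTotal_nonneg : 0 ≤ p.tailTotal := by
  have h0 : 0 ≤ ∫ t in (0 : ℝ)..1, p.tailPart t :=
    intervalIntegral.integral_nonneg (by norm_num) fun t ht =>
      mul_nonneg (smoothTransition.nonneg t) (p.tail_pos ht.1).le
  have h1 : 0 ≤ (1 + (p.N0 : ℝ) ^ 8) ^ (-(1 / 2) : ℝ) := rpow_nonneg (by positivity) _
  unfold tailTotal
  linarith

theorem rpow_half_le {t : ℝ} (ht : 0 ≤ t) :
    (t + (p.N0 : ℝ) ^ 8) ^ (-(1 / 2) : ℝ) ≤ 1 / p.N0 := by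
  have hN := p.one_le_N0
  calc (t + (p.N0 : ℝ) ^ 8) ^ (-(1 / 2) : ℝ) ≤ ((p.N0 : ℝ) ^ 8) ^ (-(1 / 2) : ℝ) :=
        rpow_le_rpow_of_nonpos (by positivity) (by linarith) (by norm_num)
    _ = ((p.N0 : ℝ) ^ 4)⁻¹ := by
        rw [← rpow_natCast _ 8, ← rpow_mul (by linarith), ← rpow_natCast _ 4,
          ← rpow_neg (by linarith)]
        norm_num
    _ ≤ 1 / p.N0 := by
        rw [one_div]
        exact inv_anti₀ (by linarith) (le_self_pow₀ hN (by norm_num))

theorem tailTotal_le : p.tailTotal ≤ 3 / p.N0 := by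
  have h0 : (∫ t in (0 : ℝ)..1, p.tailPart t) ≤ ∫ _t in (0 : ℝ)..1, (1 / p.N0 : ℝ) := by
    refine intervalIntegral.integral_mono_on (by norm_num)
      (p.contDiff_tailPart.continuous.intervalIntegrable _ _) intervalIntegrable_const
      fun t ht => ?_
    calc p.tailPart t ≤ 1 * p.tail t :=
          mul_le_mul_of_nonneg_right (smoothTransition.le_one t) (p.tail_pos ht.1).le
      _ ≤ 1 / p.N0 := by rw [one_mul]; exact p.tail_le ht.1
  simp only [intervalIntegral.integral_const, smul_eq_mul] at h0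
  have h1 := p.rpow_half_le (zero_le_one (α := ℝ))
  have : (3 : ℝ) / p.N0 = 3 * (1 / p.N0) := by ring
  unfold tailTotal
  rw [this]
  linarith

variable {p}

theorem Ok.C_div (h : p.Ok) : p.C / p.N0 ≤ 1 / 1000000 := by
  have hN := p.one_le_N0
  have := h.big
  have := p.K_pos
  have := p.one_le_levelSum
  have := p.durSum_nonneg
  rw [div_le_iff₀ (by linarith)]
  linarith

theorem Ok.C_tailTotal (h : p.Ok) : p.C * p.tailTotal ≤ 3 / 1000000 := by
  have h1 : p.C * p.tailTotal ≤ p.C * (3 / p.N0) :=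
    mul_le_mul_of_nonneg_left p.tailTotal_le (by linarith [p.one_le_C])
  have h2 : p.C * (3 / p.N0) = 3 * (p.C / p.N0) := by ring
  linarith [h.C_div]

theorem log_87 : (1 / 8 : ℝ) ≤ Real.log (8 / 7) ∧ Real.log (8 / 7) ≤ 1 / 7 := by
  constructor
  · have := Real.one_sub_inv_le_log_of_pos (show (0 : ℝ) < 8 / 7 by norm_num)
    norm_num at this
    linarith
  · have := Real.log_le_sub_one_of_pos (show (0 : ℝ) < 8 / 7 by norm_num)
    linarith

theorem Ok.A_pos (h : p.Ok) : 0 < p.A := by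
  have := h.C_tailTotal
  have := log_87.1
  have := riseTotal_ge
  exact div_pos (by linarith) (by linarith)

theorem Ok.A_le (h : p.Ok) : p.A ≤ 1 / 21 := by
  have h1 := riseTotal_ge
  have h2 := log_87.2
  have h3 : 0 ≤ p.C * p.tailTotal := mul_nonneg (by linarith [p.one_le_C]) p.tailTotal_nonneg
  rw [A, div_le_iff₀ (by linarith)]
  linarith

/-- For `t ≥ 1`, `χ` is explicit. -/
theorem chi_eq {t : ℝ} (ht : 1 ≤ t) : p.chi t = Real.log (8 / 7) -
    4 * p.A * Real.exp (-t / 4) - 2 * p.C * (t + (p.N0 : ℝ) ^ 8) ^ (-(1 / 2) : ℝ) := by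
  set G : ℝ → ℝ := fun t => p.chi t + 4 * p.A * Real.exp (-t / 4) +
    2 * p.C * (t + (p.N0 : ℝ) ^ 8) ^ (-(1 / 2) : ℝ) with hG
  have hd : ∀ s : ℝ, 1 ≤ s → HasDerivAt G 0 s := by
    intro s hs
    have hne : s + (p.N0 : ℝ) ^ 8 ≠ 0 := by linarith [p.N0_le_pow, p.one_le_N0]
    have e1 : HasDerivAt (fun t => 4 * p.A * Real.exp (-t / 4))
        (4 * p.A * (Real.exp (-s / 4) * (-1 / 4))) s := by
      simpa using (((hasDerivAt_id s).neg.div_const 4).exp).const_mul (4 * p.A)
    have e2 := (((hasDerivAt_id s).add_const ((p.N0 : ℝ) ^ 8)).rpow_const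
      (p := (-(1 / 2) : ℝ)) (Or.inl hne)).const_mul (2 * p.C)
    have e := ((p.hasDerivAt_chi s).add e1).add e2
    refine e.congr_deriv ?_
    simp only [rate, risePart, tailPart, tail, smoothTransition.one_of_one_le hs, id]
    rw [show (-(1 / 2) - 1 : ℝ) = -(3 / 2) by norm_num]
    ring
  have hc : G t = G 1 := constant_of_has_deriv_right_zero
    (fun s hs => (hd s hs.1).continuousAt.continuousWithinAt)
    (fun s hs => (hd s hs.1).hasDerivWithinAt) t ⟨ht, le_rfl⟩
  have h1 : p.chi 1 = p.A * (∫ s in (0 : ℝ)..1, risePart s) +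
      p.C * ∫ s in (0 : ℝ)..1, p.tailPart s := by
    unfold chi rate
    rw [intervalIntegral.integral_add, intervalIntegral.integral_const_mul,
      intervalIntegral.integral_const_mul]
    · exact (continuous_const.mul contDiff_risePart.continuous).intervalIntegrable _ _
    · exact (continuous_const.mul p.contDiff_tailPart.continuous).intervalIntegrable _ _
  have hR : riseTotal ≠ 0 := by linarith [riseTotal_ge]
  have hA : p.A * riseTotal + p.C * p.tailTotal = Real.log (8 / 7) := by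
    rw [A, div_mul_cancel₀ _ hR]; ring
  simp only [hG] at hc
  rw [h1, show (-(1 : ℝ) / 4) = -(1 / 4) by norm_num] at hc
  unfold riseTotal tailTotal at hA
  linarith [hA, hc]

theorem Ok.rate_nonneg (h : p.Ok) (t : ℝ) : 0 ≤ p.rate t := by
  rcases le_or_gt t 0 with ht | ht
  · exact (p.rate_of_nonpos ht).ge
  · exact add_nonneg (mul_nonneg h.A_pos.le (mul_nonneg (smoothTransition.nonneg t) (exp_pos _).le))
      (mul_nonneg (by linarith [p.one_le_C])
        (mul_nonneg (smoothTransition.nonneg t) (p.tail_pos ht.le).le))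

theorem Ok.chi_mono (h : p.Ok) : Monotone p.chi :=
  monotone_of_hasDerivAt_nonneg p.hasDerivAt_chi h.rate_nonneg

theorem Ok.chi_nonneg (h : p.Ok) {t : ℝ} (ht : 0 ≤ t) : 0 ≤ p.chi t := by
  simpa [p.chi_of_nonpos le_rfl] using h.chi_mono ht

theorem Ok.rate_le (h : p.Ok) (t : ℝ) : p.rate t ≤ 1 / 16 := by
  rcases le_or_gt t 0 with ht | ht
  · rw [p.rate_of_nonpos ht]; norm_num
  · have h1 : risePart t ≤ 1 := by
      calc risePart t ≤ 1 * 1 := mul_le_mul (smoothTransition.le_one t)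
            (exp_le_one_iff.2 (by linarith)) (exp_pos _).le zero_le_one
        _ = 1 := one_mul 1
    have h2 : p.tailPart t ≤ 1 / p.N0 := by
      calc p.tailPart t ≤ 1 * p.tail t :=
            mul_le_mul_of_nonneg_right (smoothTransition.le_one t) (p.tail_pos ht.le).le
        _ ≤ 1 / p.N0 := by rw [one_mul]; exact p.tail_le ht.le
    have e1 : p.A * risePart t ≤ p.A * 1 := mul_le_mul_of_nonneg_left h1 h.A_pos.le
    have e2 : p.C * p.tailPart t ≤ p.C * (1 / p.N0) :=
      mul_le_mul_of_nonneg_left h2 (by linarith [p.one_le_C])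
    have e3 : p.C * (1 / p.N0) = p.C / p.N0 := by ring
    unfold rate
    linarith [h.A_le, h.C_div]

/-- From time one on, `χ' = A e^{-t/4} + C (t + N₀⁸)^{-3/2}`. -/
theorem rate_eq {t : ℝ} (ht : 1 ≤ t) :
    p.rate t = p.A * Real.exp (-t / 4) + p.C * p.tail t := by
  simp [rate, risePart, tailPart, smoothTransition.one_of_one_le ht]

theorem Ok.rate_ge_tail (h : p.Ok) {t : ℝ} (ht : 1 ≤ t) : p.C * p.tail t ≤ p.rate t := by
  rw [rate_eq ht]
  linarith [mul_pos h.A_pos (exp_pos (-t / 4))]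

theorem hasDerivAt_rate {t : ℝ} (ht : 0 ≤ t) : HasDerivAt p.rate
    (deriv Real.smoothTransition t * (p.A * Real.exp (-t / 4) + p.C * p.tail t) -
      Real.smoothTransition t * (p.A * Real.exp (-t / 4) / 4 +
        p.C * (3 / 2) * p.tail t / (t + (p.N0 : ℝ) ^ 8))) t := by
  have hpos : 0 < t + (p.N0 : ℝ) ^ 8 := by linarith [p.N0_le_pow, p.one_le_N0]
  have e1 : HasDerivAt (fun t => Real.exp (-t / 4)) (Real.exp (-t / 4) * (-1 / 4)) t := by
    simpa using ((hasDerivAt_id t).neg.div_const 4).exp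
  have e2 := ((hasDerivAt_id t).add_const ((p.N0 : ℝ) ^ 8)).rpow_const
    (p := (-(3 / 2) : ℝ)) (Or.inl hpos.ne')
  have e := (((hasDerivAt_sigma t).mul e1).const_mul p.A).add
    (((hasDerivAt_sigma t).mul e2).const_mul p.C)
  refine e.congr_deriv ?_
  simp only [id, rpow_sub_one hpos.ne', tail]
  ring

theorem Ok.deriv_rate_ge (h : p.Ok) (t : ℝ) : -(p.rate t) / 2 ≤ deriv p.rate t := by
  rcases le_or_gt t 0 with ht | ht
  · have hmin : IsLocalMin p.rate t := Eventually.of_forall fun y => by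
      rw [p.rate_of_nonpos ht]; exact h.rate_nonneg y
    rw [hmin.deriv_eq_zero, p.rate_of_nonpos ht]
    norm_num
  · rw [(hasDerivAt_rate ht.le).deriv]
    have a1 : 0 ≤ p.A * Real.exp (-t / 4) := (mul_pos h.A_pos (exp_pos _)).le
    have a2 : 0 ≤ p.C * p.tail t :=
      mul_nonneg (by linarith [p.one_le_C]) (p.tail_pos ht.le).le
    have hD : 3 ≤ t + (p.N0 : ℝ) ^ 8 := by
      linarith [p.N0_le_pow, h.big, p.one_le_C, p.K_pos, p.one_le_levelSum, p.durSum_nonneg]
    have a3 : p.C * (3 / 2) * p.tail t / (t + (p.N0 : ℝ) ^ 8) ≤ p.C * p.tail t / 2 := by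
      rw [div_le_iff₀ (by linarith)]
      nlinarith [a2, hD]
    have a4 := mul_nonneg (deriv_sigma_nonneg t) (add_nonneg a1 a2)
    have a5 : Real.smoothTransition t * (p.A * Real.exp (-t / 4) / 4 +
        p.C * (3 / 2) * p.tail t / (t + (p.N0 : ℝ) ^ 8)) ≤
        Real.smoothTransition t * ((p.A * Real.exp (-t / 4) + p.C * p.tail t) / 2) :=
      mul_le_mul_of_nonneg_left (by linarith) (smoothTransition.nonneg t)
    have e : p.rate t = Real.smoothTransition t * (p.A * Real.exp (-t / 4) + p.C * p.tail t) := by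
      simp [rate, risePart, tailPart]; ring
    rw [e]
    linarith

theorem Ok.deriv_rate_abs (h : p.Ok) {t : ℝ} (ht : 1 ≤ t) : |deriv p.rate t| ≤ p.rate t := by
  rw [abs_le]
  refine ⟨by linarith [h.deriv_rate_ge t, h.rate_nonneg t], ?_⟩
  rw [(hasDerivAt_rate (p := p) (by linarith)).deriv, deriv_sigma_of_one_le ht,
    smoothTransition.one_of_one_le ht]
  have a1 : 0 ≤ p.A * Real.exp (-t / 4) := (mul_pos h.A_pos (exp_pos _)).le
  have a2 : 0 ≤ p.C * (3 / 2) * p.tail t / (t + (p.N0 : ℝ) ^ 8) :=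
    div_nonneg (mul_nonneg (by linarith [p.one_le_C]) (p.tail_pos (by linarith)).le)
      (by linarith [p.N0_le_pow, p.one_le_N0])
  linarith [h.rate_nonneg t]

theorem exp_neg_quarter_le {t : ℝ} (ht : 0 < t) : Real.exp (-t / 4) ≤ 4 / t := by
  rw [show -t / 4 = -(t / 4) by ring, Real.exp_neg, ← inv_div t 4]
  exact inv_anti₀ (by positivity) (by linarith [add_one_le_exp (t / 4)])

theorem Ok.late {t : ℝ} (h : p.Ok) (ht : (p.N0 : ℝ) ≤ t) :
    1 ≤ t ∧ p.rate t ≤ 1 / 1000 ∧ p.chi t ≤ Real.log (8 / 7) ∧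
      Real.log (8 / 7) - p.chi t ≤ 1 / 1000 := by
  have h1 : 1 ≤ t := le_trans p.one_le_N0 ht
  have hbig : 1000000 ≤ t := by
    linarith [h.big, p.one_le_C, p.K_pos, p.one_le_levelSum, p.durSum_nonneg]
  have he : Real.exp (-t / 4) ≤ 4 / 1000000 :=
    (exp_neg_quarter_le (by linarith)).trans (by gcongr)
  have hC : p.C * (1 / p.N0) ≤ 1 / 1000000 := by
    rw [mul_one_div]; exact h.C_div
  have t1 : p.C * p.tail t ≤ 1 / 1000000 :=
    (mul_le_mul_of_nonneg_left (p.tail_le (by linarith)) (by linarith [p.one_le_C])).trans hC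
  have t2 : p.C * (t + (p.N0 : ℝ) ^ 8) ^ (-(1 / 2) : ℝ) ≤ 1 / 1000000 :=
    (mul_le_mul_of_nonneg_left (p.rpow_half_le (by linarith)) (by linarith [p.one_le_C])).trans hC
  have t3 : 0 ≤ p.C * (t + (p.N0 : ℝ) ^ 8) ^ (-(1 / 2) : ℝ) :=
    mul_nonneg (by linarith [p.one_le_C]) (rpow_nonneg (by linarith [p.N0_le_pow]) _)
  have a1 : p.A * Real.exp (-t / 4) ≤ 1 * (4 / 1000000) :=
    mul_le_mul (by linarith [h.A_le]) he (exp_pos _).le zero_le_one
  have a2 : 0 ≤ p.A * Real.exp (-t / 4) := (mul_pos h.A_pos (exp_pos _)).le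
  refine ⟨h1, ?_, ?_, ?_⟩
  · rw [rate_eq h1]; linarith
  · rw [chi_eq h1]; nlinarith
  · rw [chi_eq h1]; nlinarith

end Params

end

end Vale.Agent.P225.Sched
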