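import Mathlib

/-!
P225: flows of one squash bump, and products of such flows.

`X` is the excess of the regular exponent over the scalar one: `X' = G - X² - c X`, and the
normalised flow satisfies `V' = X V`.

* `norm_flow_sub_exp_le'`: a flow with generator `g C + D`, `D` small in `L¹`, is close to
  `exp (∫ g • C)`.
* `bump_near`: for `X' ≈ g C - c₀ X`, the flow over `[a, b]` is close to
  `exp ((∫ g) / c₀ • C)`.
* `norm_flow_sub_one_le`: a flow with small `∫ ‖X‖` is close to `1`.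
* `flowProd`, `norm_flowProd_sub_le`, `norm_flowProd_sub_one_le`, `norm_le_of_near_inverse`:
  products of such flows, and their inverses.
* `norm_le_of_form`: a symmetric operator is bounded by its quadratic form.
-/

namespace Vale.Agent.P225.Sched

open MeasureTheory Set NormedSpace Filter
open scoped RealInnerProductSpace Topology

noncomputable section

section Algebra

variable {𝔸 : Type*} [NormedRing 𝔸] [NormedAlgebra ℝ 𝔸] [CompleteSpace 𝔸] [NormOneClass 𝔸]

/-- The norm of an exponential. -/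
theorem norm_exp_smul_le' (x : 𝔸) {u S : ℝ} (hu : |u| ≤ S) :
    ‖exp (u • x)‖ ≤ Real.exp (S * ‖x‖) := by
  have h := exp_series_hasSum_exp' (𝕂 := ℝ) (u • x)
  have hr : HasSum (fun n : ℕ => (|u| * ‖x‖) ^ n / n.factorial) (Real.exp (|u| * ‖x‖)) := by
    rw [Real.exp_eq_exp_ℝ]
    exact expSeries_div_hasSum_exp _
  refine le_trans ?_ (Real.exp_le_exp.2 (mul_le_mul_of_nonneg_right hu (norm_nonneg x)))
  rw [← h.tsum_eq, ← hr.tsum_eq]
  refine tsum_of_norm_bounded hr.summable.hasSum fun n => ?_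
  rw [norm_smul, norm_inv, Real.norm_natCast, div_eq_inv_mul]
  refine mul_le_mul_of_nonneg_left ?_ (by positivity)
  calc ‖(u • x) ^ n‖ ≤ ‖u • x‖ ^ n := norm_pow_le _ n
    _ = (|u| * ‖x‖) ^ n := by rw [norm_smul, Real.norm_eq_abs]

omit [NormOneClass 𝔸] in
theorem exp_neg_mul_exp (x : 𝔸) (u : ℝ) : exp ((-u) • x) * exp (u • x) = 1 := by
  let : NormedAlgebra ℚ 𝔸 := NormedAlgebra.restrictScalars ℚ ℝ 𝔸
  rw [← exp_add_of_commute ((Commute.refl x).smul_left _ |>.smul_right _), ← add_smul,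
    neg_add_cancel, zero_smul, exp_zero]

/-- The exponential is Lipschitz in the amplitude. -/
theorem norm_exp_smul_sub_le (x : 𝔸) {u v S : ℝ} (hu : |u| ≤ S) (hv : |v| ≤ S) :
    ‖exp (u • x) - exp (v • x)‖ ≤ Real.exp (S * ‖x‖) * ‖x‖ * |u - v| := by
  have h := (convex_Icc (-S) S).norm_image_sub_le_of_norm_hasDerivWithin_le
    (f := fun w : ℝ => exp (w • x)) (fun w _ => (hasDerivAt_exp_smul_const x w).hasDerivWithinAt)
    (fun w hw => (norm_mul_le _ _).trans
      (mul_le_mul_of_nonneg_right (norm_exp_smul_le' x (abs_le.2 hw)) (norm_nonneg _)))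
    (show v ∈ Icc (-S) S from abs_le.1 hv) (abs_le.1 hu : u ∈ Icc (-S) S)
  simpa [Real.norm_eq_abs] using h

/-- A flow with generator close in `L¹` to a multiple of a fixed element. -/
theorem norm_flow_sub_exp_le' {C : 𝔸} {g G L L' : ℝ → ℝ} {D V : ℝ → 𝔸} {r t S : ℝ} (hrt : r ≤ t)
    (hG : ∀ x ∈ Icc r t, HasDerivAt G (g x) x) (hGr : G r = 0)
    (hS : ∀ x ∈ Icc r t, |G x| ≤ S) (hL : ∀ x, HasDerivAt L (L' x) x) (hLr : L r = 0)
    (hD : ∀ x ∈ Icc r t, ‖D x‖ ≤ L' x) (hVr : V r = 1)
    (hV : ∀ x ∈ Icc r t, HasDerivAt V ((g x • C + D x) * V x) x) :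
    ‖V t - exp (G t • C)‖ ≤
      Real.exp (S * ‖C‖) * (Real.exp (Real.exp (2 * (S * ‖C‖)) * L t) - 1) := by
  set E : ℝ → 𝔸 := fun x => exp ((-G x) • C)
  set W : ℝ → 𝔸 := fun x => E x * V x - 1
  set K : ℝ := Real.exp (2 * (S * ‖C‖)) with hK
  have hW : ∀ x ∈ Icc r t, HasDerivAt W (E x * (D x * V x)) x := by
    intro x hx
    have h1 : HasDerivAt (fun u : ℝ => exp (u • C)) (exp ((-G x) • C) * C) (-G x) :=
      hasDerivAt_exp_smul_const C (-G x)
    have h2 : HasDerivAt (fun y => -G y) (-g x) x := (hG x hx).fun_neg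
    have hE : HasDerivAt E ((-g x) • (E x * C)) x := HasDerivAt.scomp (h := fun y => -G y) x h1 h2
    refine ((hE.mul (hV x hx)).sub_const 1).congr_deriv ?_
    rw [add_mul, mul_add, smul_mul_assoc, smul_mul_assoc, mul_smul_comm, mul_assoc, neg_smul]
    abel
  have hb : ∀ x ∈ Ico r t, ‖E x * (D x * V x)‖ ≤ K * L' x * (‖W x‖ + 1) := by
    intro x hx
    have hx' := Ico_subset_Icc_self hx
    have hEV : V x = exp (G x • C) * (W x + 1) := by
      simp only [W, E, sub_add_cancel, ← mul_assoc]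
      have := exp_neg_mul_exp C (-G x)
      rw [neg_neg] at this
      rw [this, one_mul]
    have hn1 : ‖E x‖ ≤ Real.exp (S * ‖C‖) :=
      norm_exp_smul_le' C (by rw [abs_neg]; exact hS x hx')
    have hn2 : ‖exp (G x • C)‖ ≤ Real.exp (S * ‖C‖) := norm_exp_smul_le' C (hS x hx')
    have hd0 : 0 ≤ L' x := (norm_nonneg _).trans (hD x hx')
    rw [hEV]
    calc ‖E x * (D x * (exp (G x • C) * (W x + 1)))‖
        ≤ ‖E x‖ * (‖D x‖ * (‖exp (G x • C)‖ * (‖W x‖ + 1))) := by
          refine (norm_mul_le _ _).trans (mul_le_mul_of_nonneg_left ?_ (norm_nonneg _))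
          refine (norm_mul_le _ _).trans (mul_le_mul_of_nonneg_left ?_ (norm_nonneg _))
          refine (norm_mul_le _ _).trans (mul_le_mul_of_nonneg_left ?_ (norm_nonneg _))
          exact (norm_add_le _ _).trans (by rw [norm_one])
      _ ≤ Real.exp (S * ‖C‖) * (L' x * (Real.exp (S * ‖C‖) * (‖W x‖ + 1))) := by
          gcongr
          exact hD x hx'
      _ = _ := by rw [hK, two_mul, Real.exp_add]; ring
  have key : ∀ ε > 0, ‖W t‖ ≤ (1 + ε) * Real.exp (K * L t + ε * (t - r)) - 1 := by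
    intro ε hε
    have hB : ∀ x, HasDerivAt (fun x => (1 + ε) * Real.exp (K * L x + ε * (x - r)) - 1)
        ((K * L' x + ε) * ((1 + ε) * Real.exp (K * L x + ε * (x - r)))) x := fun x => by
      refine (((((hL x).const_mul K).add (((hasDerivAt_id' x).sub_const r).const_mul ε)).exp.const_mul
        (1 + ε)).sub_const 1).congr_deriv ?_
      simp only [Pi.add_apply]
      ring
    refine image_norm_le_of_norm_deriv_right_lt_deriv_boundary
      (fun x hx => (hW x hx).continuousAt.continuousWithinAt)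
      (fun x hx => (hW x (Ico_subset_Icc_self hx)).hasDerivWithinAt) ?_ hB (fun x hx he => ?_)
      (right_mem_Icc.2 hrt)
    · simp [W, E, hGr, hVr, hLr]; linarith
    · refine (hb x hx).trans_lt ?_
      rw [he, sub_add_cancel]
      have : 0 < (1 + ε) * Real.exp (K * L x + ε * (x - r)) := by positivity
      nlinarith
  have hlim : Tendsto (fun ε : ℝ => (1 + ε) * Real.exp (K * L t + ε * (t - r)) - 1) (𝓝[>] 0)
      (𝓝 (Real.exp (K * L t) - 1)) := by
    refine Tendsto.mono_left ?_ nhdsWithin_le_nhds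
    have hc : Continuous fun ε : ℝ => (1 + ε) * Real.exp (K * L t + ε * (t - r)) - 1 := by fun_prop
    simpa using hc.tendsto 0
  have hWt : ‖W t‖ ≤ Real.exp (K * L t) - 1 :=
    ge_of_tendsto hlim (eventually_of_mem self_mem_nhdsWithin fun ε hε => key ε hε)
  have hfin : V t - exp (G t • C) = exp (G t • C) * W t := by
    simp only [W, E, mul_sub, mul_one, ← mul_assoc]
    have := exp_neg_mul_exp C (-G t)
    rw [neg_neg] at this
    rw [this, one_mul]
  rw [hfin]
  exact (norm_mul_le _ _).trans (mul_le_mul (norm_exp_smul_le' C (hS t (right_mem_Icc.2 hrt))) hWt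
    (norm_nonneg _) (Real.exp_nonneg _))

/-- A flow with small `∫ ‖X‖` is close to the identity. -/
theorem norm_flow_sub_one_le {L L' : ℝ → ℝ} {X V : ℝ → 𝔸} {r t : ℝ} (hrt : r ≤ t)
    (hL : ∀ x, HasDerivAt L (L' x) x) (hLr : L r = 0) (hX : ∀ x ∈ Icc r t, ‖X x‖ ≤ L' x)
    (hVr : V r = 1) (hV : ∀ x ∈ Icc r t, HasDerivAt V (X x * V x) x) :
    ‖V t - 1‖ ≤ Real.exp (L t) - 1 := by
  have h := norm_flow_sub_exp_le' (C := (0 : 𝔸)) (g := fun _ => 0) (G := fun _ => 0) (D := X)
    (S := 0) hrt (fun x _ => hasDerivAt_const x 0) rfl (by simp) hL hLr hX hVr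
    (fun x hx => by simpa using hV x hx)
  simpa using h

omit [NormOneClass 𝔸] [CompleteSpace 𝔸] in
/-- Variation of constants: `‖e' + c₀ e‖ ≤ R` forces exponential decay to `R / c₀`. -/
theorem norm_le_decay {e e' : ℝ → 𝔸} {a t c₀ R : ℝ} (hc : 0 < c₀) (hat : a ≤ t)
    (he : ∀ x ∈ Icc a t, HasDerivAt e (e' x) x) (hR : ∀ x ∈ Icc a t, ‖e' x + c₀ • e x‖ ≤ R) :
    ‖e t‖ ≤ ‖e a‖ * Real.exp (-c₀ * (t - a)) + R / c₀ := by
  have hR0 : 0 ≤ R := (norm_nonneg _).trans (hR a (left_mem_Icc.2 hat))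
  set w := fun x => Real.exp (c₀ * (x - a))
  have hw : ∀ x, HasDerivAt w (c₀ * w x) x := fun x => by
    refine (((hasDerivAt_id' x).sub_const a).const_mul c₀).exp.congr_deriv ?_
    simp only [w]; ring
  have hY : ∀ x ∈ Icc a t, HasDerivAt (fun x => w x • e x) (w x • (e' x + c₀ • e x)) x := fun x hx => by
    refine ((hw x).smul (he x hx)).congr_deriv ?_
    module
  have h := image_norm_le_of_norm_deriv_right_le_deriv_boundary
    (f := fun x => w x • e x) (B := fun x => ‖e a‖ + R / c₀ * (w x - 1))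
    (B' := fun x => R * w x)
    (fun x hx => (hY x hx).continuousAt.continuousWithinAt)
    (fun x hx => (hY x (Ico_subset_Icc_self hx)).hasDerivWithinAt)
    (by simp [w]) (fun x => (((hw x).sub_const 1).const_mul (R / c₀)).const_add ‖e a‖ |>.congr_deriv
      (by field_simp))
    (fun x hx => by
      rw [norm_smul, Real.norm_eq_abs, Real.abs_exp, mul_comm]
      exact mul_le_mul_of_nonneg_right (hR x (Ico_subset_Icc_self hx)) (Real.exp_pos _).le)
    (right_mem_Icc.2 hat)
  rw [norm_smul, Real.norm_eq_abs, Real.abs_exp] at h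
  have e1 : Real.exp (-c₀ * (t - a)) * w t = 1 := by
    simp only [w, ← Real.exp_add]; simp
  have h2 := mul_le_mul_of_nonneg_left h (Real.exp_pos (-c₀ * (t - a))).le
  rw [← mul_assoc, e1, one_mul] at h2
  refine h2.trans ?_
  have h3 := mul_nonneg (div_nonneg hR0 hc.le) (Real.exp_pos (-c₀ * (t - a))).le
  calc _ = ‖e a‖ * Real.exp (-c₀ * (t - a)) + R / c₀ - R / c₀ * Real.exp (-c₀ * (t - a)) := by
        linear_combination (R / c₀) * e1
    _ ≤ _ := by linarith

omit [CompleteSpace 𝔸] [NormOneClass 𝔸] in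
/-- Variation of constants in `L¹`. -/
theorem norm_le_decay' {e e' : ℝ → 𝔸} {ρ : ℝ → ℝ} {a t c₀ : ℝ} (hat : a ≤ t) (hρ : Continuous ρ)
    (he : ∀ x ∈ Icc a t, HasDerivAt e (e' x) x) (hR : ∀ x ∈ Icc a t, ‖e' x + c₀ • e x‖ ≤ ρ x) :
    ‖e t‖ ≤ Real.exp (-c₀ * (t - a)) * (‖e a‖ + ∫ x in a..t, Real.exp (c₀ * (x - a)) * ρ x) := by
  set w := fun x => Real.exp (c₀ * (x - a))
  have hwρ : Continuous fun x => w x * ρ x := by simp only [w]; fun_prop
  have hY : ∀ x ∈ Icc a t, HasDerivAt (fun x => w x • e x) (w x • (e' x + c₀ • e x)) x := fun x hx => by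
    refine (((((hasDerivAt_id' x).sub_const a).const_mul c₀).exp).smul (he x hx)).congr_deriv ?_
    simp only [w]
    module
  have hB : ∀ x, HasDerivAt (fun x => ‖e a‖ + ∫ u in a..x, w u * ρ u) (w x * ρ x) x := fun x =>
    (intervalIntegral.integral_hasDerivAt_right (hwρ.intervalIntegrable a x)
      (hwρ.stronglyMeasurableAtFilter volume (𝓝 x)) hwρ.continuousAt).const_add _
  have h := image_norm_le_of_norm_deriv_right_le_deriv_boundary
    (f := fun x => w x • e x)
    (fun x hx => (hY x hx).continuousAt.continuousWithinAt)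
    (fun x hx => (hY x (Ico_subset_Icc_self hx)).hasDerivWithinAt)
    (by simp [w]) hB
    (fun x hx => by
      rw [norm_smul, Real.norm_eq_abs, Real.abs_exp]
      exact mul_le_mul_of_nonneg_left (hR x (Ico_subset_Icc_self hx)) (Real.exp_pos _).le)
    (right_mem_Icc.2 hat)
  rw [norm_smul, Real.norm_eq_abs, Real.abs_exp] at h
  have e1 : Real.exp (-c₀ * (t - a)) * w t = 1 := by
    simp only [w, ← Real.exp_add]; simp
  have h2 := mul_le_mul_of_nonneg_left h (Real.exp_pos (-c₀ * (t - a))).le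
  rwa [← mul_assoc, e1, one_mul] at h2

/-- One bump: the flow is close to the exponential of its integrated first order effect. -/
theorem bump_near {C : 𝔸} {X G₁ V : ℝ → 𝔸} {g ρ : ℝ → ℝ} {a b c₀ δ η : ℝ} (hab : a ≤ b)
    (hc₀ : 1 ≤ c₀) (hg : Continuous g) (hgη : ∀ x ∈ Icc a b, |g x| ≤ η) (hη : 0 ≤ η)
    (hX : ∀ x ∈ Icc a b, HasDerivAt X (g x • C + G₁ x - c₀ • X x) x)
    (hXa : ‖X a‖ ≤ δ) (hρ : Continuous ρ)
    (hG₁ : ∀ x ∈ Icc a b, ‖G₁ x‖ ≤ ρ x) (hVa : V a = 1)
    (hV : ∀ x ∈ Icc a b, HasDerivAt V (X x * V x) x) :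
    ‖V b - exp (((∫ x in a..b, g x) / c₀) • C)‖ ≤
      Real.exp ((η * (b - a) + η) * ‖C‖) *
        (Real.exp (Real.exp (2 * ((η * (b - a) + η) * ‖C‖)) *
            (δ + ∫ x in a..b, ρ x)) - 1 + ‖C‖ * η) := by
  have hc1 : 0 < c₀ := by linarith
  have hδ0 : 0 ≤ δ := (norm_nonneg _).trans hXa
  set h := fun x => Real.exp (c₀ * (x - a)) * g x
  have hh : Continuous h := by simp only [h]; fun_prop
  set e := fun x => Real.exp (-c₀ * (x - a)) * ∫ u in a..x, h u
  have he : ∀ x, HasDerivAt e (g x - c₀ * e x) x := fun x => by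
    refine ((((hasDerivAt_id' x).sub_const a).const_mul (-c₀)).exp.mul
      (intervalIntegral.integral_hasDerivAt_right (hh.intervalIntegrable a x)
        (hh.stronglyMeasurableAtFilter volume (𝓝 x)) hh.continuousAt)).congr_deriv ?_
    have e1 : Real.exp (-c₀ * (x - a)) * Real.exp (c₀ * (x - a)) = 1 := by
      rw [← Real.exp_add]; simp
    simp only [e, h]
    linear_combination g x * e1
  have hec : Continuous e := continuous_iff_continuousAt.2 fun x => (he x).continuousAt
  have hebd : ∀ x ∈ Icc a b, |e x| ≤ η := fun x hx => by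
    have := norm_le_decay (𝔸 := ℝ) (e := e) (R := η) hc1 hx.1 (fun y _ => he y)
      (fun y hy => by
        simp only [smul_eq_mul, Real.norm_eq_abs, sub_add_cancel]
        exact hgη y ⟨hy.1, hy.2.trans hx.2⟩)
    simp only [e, intervalIntegral.integral_same, mul_zero, norm_zero, zero_mul, zero_add,
      Real.norm_eq_abs] at this
    exact this.trans (div_le_self hη hc₀)
  set G := fun x => ∫ u in a..x, e u
  have hG : ∀ x, HasDerivAt G (e x) x := fun x =>
    intervalIntegral.integral_hasDerivAt_right (hec.intervalIntegrable a x)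
      (hec.stronglyMeasurableAtFilter volume (𝓝 x)) hec.continuousAt
  have hGS : ∀ x ∈ Icc a b, |G x| ≤ η * (b - a) + η := fun x hx => by
    have := intervalIntegral.norm_integral_le_of_norm_le_const (a := a) (b := x) (f := e) (C := η)
      fun u hu => by
        rw [uIoc_of_le hx.1] at hu
        exact hebd u ⟨hu.1.le, hu.2.trans hx.2⟩
    rw [Real.norm_eq_abs, abs_of_nonneg (sub_nonneg.2 hx.1)] at this
    nlinarith [hx.2]
  have hGb : |(∫ x in a..b, g x) / c₀ - G b| ≤ η ∧
      |(∫ x in a..b, g x) / c₀| ≤ η * (b - a) + η := by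
    have h1 := intervalIntegral.integral_eq_sub_of_hasDerivAt (a := a) (b := b) (fun x _ => he x)
      ((hg.sub (hec.const_mul c₀)).intervalIntegrable a b)
    rw [intervalIntegral.integral_sub (hg.intervalIntegrable a b)
      ((hec.const_mul c₀).intervalIntegrable a b), intervalIntegral.integral_const_mul,
      show e a = 0 by simp [e], sub_zero] at h1
    have hgi := intervalIntegral.norm_integral_le_of_norm_le_const (a := a) (b := b) (f := g)
      (C := η) fun u hu => by
        rw [uIoc_of_le hab] at hu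
        exact hgη u ⟨hu.1.le, hu.2⟩
    rw [Real.norm_eq_abs, abs_of_nonneg (sub_nonneg.2 hab)] at hgi
    refine ⟨?_, ?_⟩
    · rw [show (∫ x in a..b, g x) / c₀ - G b = e b / c₀ by field_simp; simp only [G]; linarith,
        abs_div, abs_of_pos hc1]
      exact (div_le_self (abs_nonneg _) hc₀).trans (hebd b (right_mem_Icc.2 hab))
    · rw [abs_div, abs_of_pos hc1]
      refine (div_le_self (abs_nonneg _) hc₀).trans ?_
      linarith
  set D := fun x => X x - e x • C
  set w := fun x => Real.exp (c₀ * (x - a))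
  have hwρ : Continuous fun x => w x * ρ x := by simp only [w]; fun_prop
  set f := fun x => Real.exp (-c₀ * (x - a)) * (δ + ∫ u in a..x, w u * ρ u)
  have hD : ∀ x ∈ Icc a b, ‖D x‖ ≤ f x := fun x hx => by
    refine (norm_le_decay' (e := D) (c₀ := c₀) hx.1 hρ
      (fun y hy => (hX y ⟨hy.1, hy.2.trans hx.2⟩).sub ((he y).smul_const C)) fun y hy => ?_).trans ?_
    · rw [show g y • C + G₁ y - c₀ • X y - (g y - c₀ * e y) • C + c₀ • D y = G₁ y by
        simp only [D]; module]
      exact hG₁ y ⟨hy.1, hy.2.trans hx.2⟩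
    · have : D a = X a := by simp [D, e]
      rw [this]
      exact mul_le_mul_of_nonneg_left (add_le_add hXa le_rfl) (Real.exp_pos _).le
  have hf : ∀ x, HasDerivAt f (ρ x - c₀ * f x) x := fun x => by
    refine ((((hasDerivAt_id' x).sub_const a).const_mul (-c₀)).exp.mul
      ((intervalIntegral.integral_hasDerivAt_right (hwρ.intervalIntegrable a x)
        (hwρ.stronglyMeasurableAtFilter volume (𝓝 x)) hwρ.continuousAt).const_add δ)).congr_deriv ?_
    have e1 : Real.exp (-c₀ * (x - a)) * w x = 1 := by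
      simp only [w, ← Real.exp_add]; simp
    simp only [f]
    linear_combination ρ x * e1
  have hfc : Continuous f := continuous_iff_continuousAt.2 fun x => (hf x).continuousAt
  set L := fun x => ∫ u in a..x, f u
  have hL : ∀ x, HasDerivAt L (f x) x := fun x =>
    intervalIntegral.integral_hasDerivAt_right (hfc.intervalIntegrable a x)
      (hfc.stronglyMeasurableAtFilter volume (𝓝 x)) hfc.continuousAt
  have hLb : L b ≤ δ + ∫ x in a..b, ρ x := by
    have h1 := intervalIntegral.integral_eq_sub_of_hasDerivAt (a := a) (b := b) (fun x _ => hf x)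
      ((hρ.sub (hfc.const_mul c₀)).intervalIntegrable a b)
    rw [intervalIntegral.integral_sub (hρ.intervalIntegrable a b)
      ((hfc.const_mul c₀).intervalIntegrable a b), intervalIntegral.integral_const_mul,
      show f a = δ by simp [f]] at h1
    have hfb : 0 ≤ f b := (norm_nonneg _).trans (hD b (right_mem_Icc.2 hab))
    have h2 : 0 ≤ L b := intervalIntegral.integral_nonneg hab fun x hx =>
      (norm_nonneg _).trans (hD x hx)
    have h3 := le_mul_of_one_le_left h2 hc₀
    simp only [L] at h2 h3 ⊢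
    linarith
  have h1 := norm_flow_sub_exp_le' (C := C) (g := e) (G := G) (D := D) (V := V)
    (S := η * (b - a) + η) hab (fun x _ => hG x) (by simp [G]) hGS hL (by simp [L]) hD hVa
    (fun x hx => (hV x hx).congr_deriv (by simp [D]))
  have h2 := norm_exp_smul_sub_le C (hGS b (right_mem_Icc.2 hab)) hGb.2
  rw [mul_add]
  refine (norm_sub_le_norm_sub_add_norm_sub _ (exp (G b • C)) _).trans (add_le_add (h1.trans ?_)
    (h2.trans ?_))
  · gcongr
  · rw [abs_sub_comm, mul_assoc]
    gcongr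
    exact hGb.1

/-- The product `V (k-1) ⋯ V 0`. -/
def flowProd (V : ℕ → 𝔸) : ℕ → 𝔸
  | 0 => 1
  | k + 1 => V k * flowProd V k

omit [NormedAlgebra ℝ 𝔸] [CompleteSpace 𝔸] in
/-- Products of nearby factors are nearby. -/
theorem norm_flowProd_sub_le {V W : ℕ → 𝔸} {B ε : ℝ} {L : ℕ} (hB : 1 ≤ B) (hε : 0 ≤ ε)
    (hε1 : ε ≤ 1) (hW : ∀ k < L, ‖W k‖ ≤ B) (hV : ∀ k < L, ‖V k - W k‖ ≤ ε) :
    ∀ k ≤ L, ‖flowProd V k - flowProd W k‖ ≤ k * (B + 1) ^ k * ε ∧
      ‖flowProd W k‖ ≤ B ^ k := by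
  intro k
  induction k with
  | zero => intro _; simp [flowProd]
  | succ k ih =>
    intro hk
    obtain ⟨h1, h2⟩ := ih (by omega)
    have hV' : ‖V k‖ ≤ B + 1 := by
      have h := norm_add_le (V k - W k) (W k)
      rw [sub_add_cancel] at h
      linarith [hV k (by omega), hW k (by omega)]
    have h3 : ‖flowProd W k‖ ≤ (B + 1) ^ (k + 1) := h2.trans
      ((pow_le_pow_left₀ (by linarith) (by linarith) k).trans
        (pow_le_pow_right₀ (by linarith) (Nat.le_succ k)))
    refine ⟨?_, (norm_mul_le _ _).trans ?_⟩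
    · rw [show flowProd V (k + 1) - flowProd W (k + 1) =
        V k * (flowProd V k - flowProd W k) + (V k - W k) * flowProd W k by
          simp only [flowProd, mul_sub, sub_mul]; abel]
      refine (norm_add_le _ _).trans ?_
      refine (add_le_add ((norm_mul_le _ _).trans
        (mul_le_mul hV' h1 (norm_nonneg _) (by linarith)))
        ((norm_mul_le _ _).trans (mul_le_mul (hV k (by omega)) h3 (norm_nonneg _) hε))).trans ?_
      push_cast
      rw [pow_succ]
      exact le_of_eq (by ring)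
    · rw [pow_succ']
      exact mul_le_mul (hW k (by omega)) h2 (norm_nonneg _) (by linarith)

omit [NormedAlgebra ℝ 𝔸] [CompleteSpace 𝔸] [NormOneClass 𝔸] in
/-- Products of factors close to one. -/
theorem norm_flowProd_sub_one_le {V : ℕ → 𝔸} {ε : ℕ → ℝ} (hV : ∀ k, ‖V k - 1‖ ≤ ε k) (k : ℕ) :
    ‖flowProd V k - 1‖ ≤ Real.exp (∑ i ∈ Finset.range k, ε i) - 1 := by
  induction k with
  | zero => simp [flowProd]
  | succ k ih =>
    set s := ∑ i ∈ Finset.range k, ε i
    rw [Finset.sum_range_succ, Real.exp_add, show flowProd V (k + 1) - 1 =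
      (V k - 1) * (flowProd V k - 1) + (V k - 1) + (flowProd V k - 1) by
        simp only [flowProd, mul_sub, sub_mul, one_mul, mul_one]; abel]
    have h0 : 0 ≤ ε k := (norm_nonneg _).trans (hV k)
    refine (norm_add_le _ _).trans ?_
    refine (add_le_add ((norm_add_le _ _).trans (add_le_add ((norm_mul_le _ _).trans
      (mul_le_mul (hV k) ih (norm_nonneg _) h0)) (hV k))) ih).trans ?_
    nlinarith [mul_le_mul_of_nonneg_left (Real.add_one_le_exp (ε k)) (Real.exp_pos s).le]

omit [NormedAlgebra ℝ 𝔸] [CompleteSpace 𝔸] [NormOneClass 𝔸] in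
/-- The inverse of an element close to one with a bounded inverse. -/
theorem norm_le_of_near_inverse {U W W' U' : 𝔸} {B : ℝ} (hW : W' * W = 1) (hU : U * U' = 1)
    (hB : ‖W'‖ ≤ B) (hd : ‖U - W‖ * B ≤ 1 / 2) :
    ‖U'‖ ≤ 2 * B ∧ ‖U' - W'‖ ≤ 2 * B ^ 2 * ‖U - W‖ := by
  have hB0 : 0 ≤ B := (norm_nonneg _).trans hB
  have e : U' = W' - W' * ((U - W) * U') := by
    rw [sub_mul, hU, mul_sub, mul_one, ← mul_assoc, hW, one_mul]; abel
  have hn : ‖W' * ((U - W) * U')‖ ≤ B * (‖U - W‖ * ‖U'‖) :=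
    (norm_mul_le _ _).trans (mul_le_mul hB (norm_mul_le _ _) (norm_nonneg _) hB0)
  have h2 : ‖U'‖ ≤ 2 * B := by
    have h := norm_sub_le W' (W' * ((U - W) * U'))
    rw [← e] at h
    nlinarith [mul_le_mul_of_nonneg_right hd (norm_nonneg U')]
  refine ⟨h2, ?_⟩
  have : U' - W' = -(W' * ((U - W) * U')) := by
    conv_lhs => rw [e]
    abel
  rw [this, norm_neg]
  refine hn.trans ?_
  nlinarith [mul_le_mul_of_nonneg_left h2 (mul_nonneg hB0 (norm_nonneg (U - W)))]

end Algebra

/-- A symmetric operator is bounded by its quadratic form. -/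
theorem norm_le_of_form {E : Type*} [NormedAddCommGroup E] [InnerProductSpace ℝ E]
    (T : E →L[ℝ] E) (hT : ∀ x y, ⟪T x, y⟫ = ⟪x, T y⟫) {δ : ℝ} (hδ : 0 ≤ δ)
    (h : ∀ x, |⟪x, T x⟫| ≤ δ * ‖x‖ ^ 2) : ‖T‖ ≤ δ := by
  refine T.opNorm_le_bound hδ fun x => ?_
  rcases eq_or_ne (T x) 0 with h0 | h0
  · simp [h0]; positivity
  have hn : 0 < ‖T x‖ := norm_pos_iff.2 h0
  set y := (‖x‖ / ‖T x‖) • T x
  have hy : ‖y‖ = ‖x‖ := by
    rw [norm_smul, Real.norm_eq_abs, abs_of_nonneg (by positivity), div_mul_cancel₀ _ hn.ne']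
  have hxy : ⟪T x, y⟫ = ‖x‖ * ‖T x‖ := by
    rw [inner_smul_right, real_inner_self_eq_norm_sq]; field_simp
  have h1 := (le_abs_self _).trans (h (x + y))
  have h2 := (neg_le_abs _).trans (h (x - y))
  have hp := parallelogram_law_with_norm ℝ x y
  simp only [map_add, map_sub, inner_add_left, inner_add_right, inner_sub_left, inner_sub_right,
    ← hT x y, real_inner_comm (T x) y] at h1 h2
  rw [hxy, hy] at *
  rcases (norm_nonneg x).eq_or_lt with hx | hx
  · exact absurd (norm_eq_zero.1 hx.symm) (fun hx0 => h0 (by simp [hx0]))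
  · nlinarith

end

end Vale.Agent.P225.Sched
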