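import Vale.Agent.P225.Sched.Defs
import Vale.Agent.P225.ODE.Barrier

/-!
P225 Sched: the scalar potential of a weight block, its reference exponent and the allowance for
the conditioning of the regular solutions.
-/

namespace Vale.Agent.P225.Sched

open MeasureTheory

noncomputable section

/-- Minus the Laplacian on the weight `m` block of degree `j`, without the left squashes. -/
def lamW (sh : Shape) (j m : ℕ) (t : ℝ) : ℝ :=
  Real.exp (2 * sh.χ t) *
    (Real.exp (2 * sh.β t) * ((j : ℝ) * (j + 2) - (m : ℝ) ^ 2) + Real.exp (-4 * sh.β t) * (m : ℝ) ^ 2)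

/-- A bound for the effect of the left squashes on a block of degree `j`. -/
def lamDev (sh : Shape) (j : ℕ) (t : ℝ) : ℝ :=
  Real.exp (2 * sh.χ t) * ((j : ℝ) * (j + 2)) *
    ∑ a, (|Real.exp (2 * sh.γ a t) - 1| + |Real.exp (-4 * sh.γ a t) - 1|)

/-- The instantaneous exponent of a block. -/
def pW (sh : Shape) (j m : ℕ) (t : ℝ) : ℝ := Barrier.root (sh.drift t) (lamW sh j m t)

/-- The reference log scale of a block. -/
def expo (sh : Shape) (j m : ℕ) (t : ℝ) : ℝ := ∫ u in (0 : ℝ)..t, pW sh j m u

/-- Allowance for conditioning: linear in the number of periods. -/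
def allow (p : Params) (C t : ℝ) : ℝ := C * (t + (p.N0 : ℝ) ^ 8) ^ (1 / 8 : ℝ)

/-- The exponent of a block in a round stay at the final radius. -/
def rateInf (j : ℕ) : ℝ := Barrier.root 0 (64 / 49 * ((j : ℝ) * (j + 2)))

end

end Vale.Agent.P225.Sched
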